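import Claimed.Agent.R257.Wall.ADefs

/-!
# R257/Wall, unit WALL-A, file 8: frames from a determinant bound, colourings of the directions            (architect helper18)
PAPER-FREE.  Every `sorry` is a leaf `L-WA-*`.  Statements are frozen (a FALSE statement: one line to helper18); auxiliary lemmas (prefix `wa_`) directly above your theorem; edit only your block.
-/

set_option autoImplicit false
open MeasureTheory Set Metric
open scoped BigOperators ENNReal

namespace Claimed.Agent.R257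

open Claimed.Agent.MK

/-- the norm bound of the normalising maps -/
noncomputable def waTh (n : ℕ) (K : ℝ) : ℝ := ((n : ℝ) + 1) ^ 2 * n.factorial * K

/-- the number of colours per coordinate -/
noncomputable def waG (n : ℕ) (K : ℝ) : ℕ := 2 * ⌈8 * (n : ℝ) * waTh n K⌉₊ + 1

/-- entries of the inverse of a matrix with entries `≤ 1` and determinant `≥ 1/K` -/
theorem wa_inv_entry {n : ℕ} (M : Matrix (Fin n) (Fin n) ℝ) (hM : ∀ i k, |M i k| ≤ 1) (K : ℝ) (hK : 1 ≤ K)
    (hdet : 1 / K ≤ |M.det|) (i k : Fin n) : |M⁻¹ i k| ≤ n.factorial * K := by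
  have hK0 : 0 < K := by linarith
  have h1 : |M.det|⁻¹ ≤ K := by
    have := inv_anti₀ (by positivity) hdet
    rwa [one_div, inv_inv] at this
  have h2 : |M.adjugate i k| ≤ n.factorial := by
    rw [Matrix.adjugate_apply]
    have h3 := Matrix.det_le (A := M.updateRow k (Pi.single i 1)) (abv := AbsoluteValue.abs) (x := (1 : ℝ)) (by
      intro a b
      show |M.updateRow k (Pi.single i 1) a b| ≤ 1
      rw [Matrix.updateRow_apply]
      split_ifs
      · rw [Pi.single_apply]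
        split_ifs <;> simp
      · exact hM a b)
    simpa using h3
  rw [Matrix.inv_def, Ring.inverse_eq_inv', Matrix.smul_apply, smul_eq_mul, abs_mul, abs_inv, mul_comm]
  exact mul_le_mul h2 h1 (by positivity) (by positivity)

/-- **LEAF L-WA-FRAME: a normalising map from a determinant bound.**
`M = Matrix.of fun i k => u i (l.succAbove k)` (`n × n`, entries `|·| ≤ 1`, `|det M| ≥ 1/K`, so `IsUnit M.det`).   For `x` put `c = M⁻¹ᵀ *ᵥ (x ∘ l.succAbove)` (the solution of `∑ i, c i * u i (l.succAbove k) = x (l.succAbove k)`), `s = x l - ∑ i, c i * u i l`;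
`T x = Fin.snoc c s`;   inverse `B y = ∑ i, y i.castSucc • u i + y (Fin.last n) • Pi.single l 1`   (`LinearEquiv.ofLinear`, or `LinearEquiv.ofInjectiveEndo`/`LinearMap.linearEquivOfInjective` for `B` and `T = B.symm`; check coordinates with `Fin.forall_iff_succAbove l`).
Bounds: `M⁻¹ = (det M)⁻¹ • adjugate M` (`Matrix.inv_def`, `Ring.inverse_eq_inv'`), `|adjugate M i j| ≤ n!` (`Matrix.adjugate_apply`, `Matrix.det_le` with `abv = IsAbsoluteValue.toAbsoluteValue abs`/`AbsoluteValue.abs`, entries of `updateRow .. (Pi.single ..)` are `≤ 1`);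
so `|c i| ≤ n * n! * K * ‖x‖`, `|s| ≤ (1 + n² n! K) ‖x‖`;   `‖B y‖ ≤ (n+1) ‖y‖`. -/
theorem wa_frame {n : ℕ} (u : Fin n → Fin (n + 1) → ℝ) (hu : ∀ i, ‖u i‖ ≤ 1) (l : Fin (n + 1)) (K : ℝ) (hK : 1 ≤ K)
    (hdet : 1 / K ≤ |Matrix.det (Matrix.of fun i k => u i (l.succAbove k))|) :
    ∃ T : (Fin (n + 1) → ℝ) ≃ₗ[ℝ] (Fin (n + 1) → ℝ), (∀ i : Fin n, T (u i) = Pi.single i.castSucc 1) ∧
      (∀ x, ‖T x‖ ≤ waTh n K * ‖x‖) ∧ (∀ x, ‖x‖ ≤ waTh n K * ‖T x‖) := by
  classical
  have hK0 : 0 < K := by linarith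
  obtain ⟨M, hMd⟩ : ∃ M : Matrix (Fin n) (Fin n) ℝ, M = Matrix.of fun i k => u i (l.succAbove k) := ⟨_, rfl⟩
  rw [← hMd] at hdet
  have hMa : ∀ i k, M i k = u i (l.succAbove k) := fun i k => by rw [hMd]; rfl
  have huc : ∀ i c, |u i c| ≤ 1 := fun i c => (norm_le_pi_norm (u i) c).trans (hu i)
  have hM1 : ∀ i k, |M i k| ≤ 1 := fun i k => by rw [hMa]; exact huc _ _
  have hunit : IsUnit M.det := by
    rw [isUnit_iff_ne_zero]
    intro h0
    rw [h0, abs_zero] at hdet
    have : 0 < 1 / K := by positivity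
    linarith
  have hinv := wa_inv_entry M hM1 K hK hdet
  obtain ⟨B, hB⟩ : ∃ B : (Fin (n + 1) → ℝ) →ₗ[ℝ] (Fin (n + 1) → ℝ),
      ∀ y, B y = ∑ i : Fin n, y i.castSucc • u i + y (Fin.last n) • Pi.single l 1 := by
    refine ⟨∑ i : Fin n, (LinearMap.proj i.castSucc).smulRight (u i)
      + (LinearMap.proj (Fin.last n)).smulRight (Pi.single l 1), fun y => ?_⟩
    simp
  have hf1 : (1 : ℝ) ≤ n.factorial := by exact_mod_cast Nat.one_le_iff_ne_zero.2 (Nat.factorial_ne_zero n)
  have hfK : 1 ≤ (n.factorial : ℝ) * K := by nlinarith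
  have hn0 : (0 : ℝ) ≤ n := Nat.cast_nonneg n
  have hΘ : ∀ q : ℝ, 0 ≤ q → q ≤ ((n : ℝ) + 1) ^ 2 → q ≤ waTh n K := by
    intro q _ hq
    unfold waTh
    rw [mul_assoc]
    nlinarith [sq_nonneg ((n : ℝ) + 1)]
  -- the main bound
  have hmain : ∀ y, ‖y‖ ≤ waTh n K * ‖B y‖ := by
    intro y
    obtain ⟨x, hx⟩ : ∃ x, x = B y := ⟨_, rfl⟩
    rw [← hx]
    have hxc : ∀ c, |x c| ≤ ‖x‖ := fun c => norm_le_pi_norm x c
    have e1 : (fun k => x (l.succAbove k)) = Matrix.vecMul (fun i : Fin n => y i.castSucc) M := by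
      funext k
      rw [hx, hB]
      simp only [Matrix.vecMul, dotProduct, Pi.add_apply, Finset.sum_apply, Pi.smul_apply, smul_eq_mul, hMa,
        Pi.single_eq_of_ne (Fin.succAbove_ne l k), mul_zero, add_zero]
    have e2 : (fun i : Fin n => y i.castSucc) = Matrix.vecMul (fun k => x (l.succAbove k)) M⁻¹ := by
      rw [e1, Matrix.vecMul_vecMul, Matrix.mul_nonsing_inv M hunit, Matrix.vecMul_one]
    have hc : ∀ i : Fin n, |y i.castSucc| ≤ n * (n.factorial * K) * ‖x‖ := by
      intro i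
      have := congrFun e2 i
      simp only [Matrix.vecMul, dotProduct] at this
      rw [this]
      refine (Finset.abs_sum_le_sum_abs _ _).trans ?_
      calc ∑ k : Fin n, |x (l.succAbove k) * M⁻¹ k i| ≤ ∑ _k : Fin n, ‖x‖ * (n.factorial * K) := by
            refine Finset.sum_le_sum fun k _ => ?_
            rw [abs_mul]
            exact mul_le_mul (hxc _) (hinv k i) (abs_nonneg _) (norm_nonneg _)
        _ = n * (n.factorial * K) * ‖x‖ := by
            rw [Finset.sum_const, Finset.card_univ, Fintype.card_fin, nsmul_eq_mul]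
            ring
    have e3 : y (Fin.last n) = x l - ∑ i : Fin n, y i.castSucc * u i l := by
      rw [hx, hB]
      simp
    have hl : |y (Fin.last n)| ≤ (1 + n * (n * (n.factorial * K))) * ‖x‖ := by
      rw [e3]
      refine (abs_sub _ _).trans ?_
      have h3 : |∑ i : Fin n, y i.castSucc * u i l| ≤ n * (n * (n.factorial * K) * ‖x‖) := by
        refine (Finset.abs_sum_le_sum_abs _ _).trans ?_
        calc ∑ i : Fin n, |y i.castSucc * u i l| ≤ ∑ _i : Fin n, n * (n.factorial * K) * ‖x‖ := by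
              refine Finset.sum_le_sum fun i _ => ?_
              rw [abs_mul]
              calc |y i.castSucc| * |u i l| ≤ (n * (n.factorial * K) * ‖x‖) * 1 :=
                    mul_le_mul (hc i) (huc i l) (abs_nonneg _) (by positivity)
                _ = _ := mul_one _
          _ = n * (n * (n.factorial * K) * ‖x‖) := by
              rw [Finset.sum_const, Finset.card_univ, Fintype.card_fin, nsmul_eq_mul]
      have := hxc l
      nlinarith
    have hx0 := norm_nonneg x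
    have hW : (1 + n * (n * (n.factorial * K))) ≤ waTh n K := by
      unfold waTh
      nlinarith [mul_nonneg hn0 (by linarith : (0:ℝ) ≤ n.factorial * K)]
    have hW2 : n * (n.factorial * K) ≤ waTh n K := by
      unfold waTh
      nlinarith [mul_nonneg hn0 (by linarith : (0:ℝ) ≤ n.factorial * K),
        mul_nonneg (mul_nonneg hn0 hn0) (by linarith : (0:ℝ) ≤ n.factorial * K)]
    have hW0 : 0 ≤ waTh n K := le_trans (by positivity) hW
    rw [pi_norm_le_iff_of_nonneg (mul_nonneg hW0 hx0)]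
    intro j
    rw [Real.norm_eq_abs]
    refine Fin.lastCases ?_ (fun i => ?_) j
    · exact hl.trans (mul_le_mul_of_nonneg_right hW hx0)
    · exact (hc i).trans (mul_le_mul_of_nonneg_right hW2 hx0)
  have hinj : Function.Injective B := by
    rw [injective_iff_map_eq_zero]
    intro y hy
    have := hmain y
    rw [hy, norm_zero, mul_zero] at this
    exact norm_le_zero_iff.1 this
  have hBT : ∀ x, B ((LinearEquiv.ofInjectiveEndo B hinj).symm x) = x := by
    intro x
    have := (LinearEquiv.ofInjectiveEndo B hinj).apply_symm_apply x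
    rwa [LinearEquiv.coe_ofInjectiveEndo] at this
  refine ⟨(LinearEquiv.ofInjectiveEndo B hinj).symm, fun i => ?_, fun x => ?_, fun x => ?_⟩
  · have e : u i = LinearEquiv.ofInjectiveEndo B hinj (Pi.single i.castSucc 1) := by
      rw [LinearEquiv.coe_ofInjectiveEndo, hB]
      have hne : Fin.last n ≠ i.castSucc := (Fin.castSucc_lt_last i).ne'
      rw [Pi.single_eq_of_ne hne, zero_smul, add_zero, Finset.sum_eq_single i]
      · simp
      · intro b _ hb
        have : b.castSucc ≠ i.castSucc := fun h => hb (Fin.castSucc_injective _ h)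
        rw [Pi.single_eq_of_ne this, zero_smul]
      · intro h
        exact absurd (Finset.mem_univ i) h
    rw [e, LinearEquiv.symm_apply_apply]
  · have := hmain ((LinearEquiv.ofInjectiveEndo B hinj).symm x)
    rwa [hBT] at this
  · obtain ⟨y, hy⟩ : ∃ y, y = (LinearEquiv.ofInjectiveEndo B hinj).symm x := ⟨_, rfl⟩
    rw [← hy]
    have hx : x = B y := by rw [hy, hBT]
    have hyc : ∀ c, |y c| ≤ ‖y‖ := fun c => norm_le_pi_norm y c
    have h1 : ‖x‖ ≤ ((n : ℝ) + 1) * ‖y‖ := by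
      rw [hx, hB]
      refine (norm_add_le _ _).trans ?_
      have a1 : ‖∑ i : Fin n, y i.castSucc • u i‖ ≤ n * ‖y‖ := by
        refine (norm_sum_le _ _).trans ?_
        calc ∑ i : Fin n, ‖y i.castSucc • u i‖ ≤ ∑ _i : Fin n, ‖y‖ := by
              refine Finset.sum_le_sum fun i _ => ?_
              rw [norm_smul, Real.norm_eq_abs]
              calc |y i.castSucc| * ‖u i‖ ≤ ‖y‖ * 1 := mul_le_mul (hyc _) (hu i) (norm_nonneg _) (norm_nonneg _)
                _ = ‖y‖ := mul_one _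
          _ = n * ‖y‖ := by rw [Finset.sum_const, Finset.card_univ, Fintype.card_fin, nsmul_eq_mul]
      have a2 : ‖y (Fin.last n) • (Pi.single l 1 : Fin (n + 1) → ℝ)‖ ≤ ‖y‖ := by
        rw [norm_smul, Pi.norm_single, norm_one, mul_one]
        exact hyc _
      linarith
    refine h1.trans (mul_le_mul_of_nonneg_right (hΘ _ (by positivity) ?_) (norm_nonneg _))
    nlinarith

/-- **LEAF L-WA-NEAR.**  `T y = Pi.single j.castSucc 1 + T (y - u)`, `‖T (y - u)‖ ≤ Θ / (8 n Θ) = 1/(8n) =: ε ≤ 1/8` (`norm_le_pi_norm` for the coordinates):  `T y j ≥ 1 - ε`, the other coordinates are `≤ ε ≤ (1/(4n)) (1 - ε)`. -/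
theorem wa_near {n : ℕ} (hn : 1 ≤ n) (T : (Fin (n + 1) → ℝ) ≃ₗ[ℝ] (Fin (n + 1) → ℝ)) (Θ : ℝ) (hΘ : 1 ≤ Θ) (hT1 : ∀ x, ‖T x‖ ≤ Θ * ‖x‖)
    (u y : Fin (n + 1) → ℝ) (j : Fin n) (hu : T u = Pi.single j.castSucc 1) (hy : ‖y - u‖ ≤ 1 / (8 * n * Θ)) :
    0 < T y j.castSucc ∧ (∀ i : Fin n, i ≠ j → |T y i.castSucc| ≤ 1 / (4 * n) * T y j.castSucc) ∧
      |T y (Fin.last n)| ≤ 1 * T y j.castSucc := by
  have hn' : (1 : ℝ) ≤ n := by exact_mod_cast hn
  have hΘ0 : 0 < Θ := by linarith
  have hε : ‖T (y - u)‖ ≤ 1 / (8 * n) := by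
    refine (hT1 _).trans ((mul_le_mul_of_nonneg_left hy hΘ0.le).trans (le_of_eq ?_))
    field_simp
  have hc : ∀ k, |T (y - u) k| ≤ 1 / (8 * n) := fun k => (norm_le_pi_norm (T (y - u)) k).trans hε
  have e : ∀ k, T y k = (Pi.single j.castSucc (1 : ℝ) : Fin (n + 1) → ℝ) k + T (y - u) k := by
    intro k
    rw [map_sub, hu]
    simp
  have hε8 : 1 / (8 * (n : ℝ)) ≤ 1 / 8 := by
    rw [div_le_div_iff₀ (by positivity) (by norm_num)]
    linarith
  have hj : 1 - 1 / (8 * (n : ℝ)) ≤ T y j.castSucc := by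
    rw [e, Pi.single_eq_same]
    have := (abs_le.1 (hc j.castSucc)).1
    linarith
  refine ⟨by linarith, fun i hi => ?_, ?_⟩
  · have hne : i.castSucc ≠ j.castSucc := fun h => hi (Fin.castSucc_injective _ h)
    rw [e, Pi.single_eq_of_ne hne, zero_add]
    refine (hc _).trans ?_
    have h1 : 1 / (4 * (n : ℝ)) * (7 / 8) ≤ 1 / (4 * n) * T y j.castSucc :=
      mul_le_mul_of_nonneg_left (by linarith) (by positivity)
    refine le_trans ?_ h1
    rw [div_mul_div_comm, div_le_div_iff₀ (by positivity) (by positivity)]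
    nlinarith
  · have hne : Fin.last n ≠ j.castSucc := (Fin.castSucc_lt_last j).ne'
    rw [e (Fin.last n), Pi.single_eq_of_ne hne, zero_add, one_mul]
    refine (hc _).trans ?_
    linarith

/-- **LEAF L-WA-COLOUR.**  `G = ⌈D⌉₊`, `col x c = ⟨(⌊D * v x c⌋ + G).toNat, _⟩`: `|v x c| ≤ 1` gives `-G ≤ ⌊D * v x c⌋ ≤ G`.   Equal colours: equal floors, so `|D * v x c - D * v x' c| < 1` (`Int.floor_le`, `Int.lt_floor_add_one`);
`pi_norm_le_iff_of_nonneg`. -/
theorem wa_colour {m : ℕ} {ι : Type*} (v : ι → Fin m → ℝ) (hv : ∀ x, ‖v x‖ ≤ 1) (D : ℝ) (hD : 0 < D) :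
    ∃ col : ι → Fin m → Fin (2 * ⌈D⌉₊ + 1), ∀ x x', col x = col x' → ‖v x - v x'‖ ≤ 1 / D := by
  have hG : D ≤ (⌈D⌉₊ : ℝ) := Nat.le_ceil D
  have hb : ∀ x c, -(⌈D⌉₊ : ℤ) ≤ ⌊D * v x c⌋ ∧ ⌊D * v x c⌋ ≤ (⌈D⌉₊ : ℤ) := by
    intro x c
    have h1 : |v x c| ≤ 1 := (norm_le_pi_norm (v x) c).trans (hv x)
    rw [abs_le] at h1
    constructor
    · rw [Int.le_floor]
      push_cast
      nlinarith
    · have h2 : (⌊D * v x c⌋ : ℝ) ≤ (⌈D⌉₊ : ℝ) := (Int.floor_le _).trans (by nlinarith)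
      exact_mod_cast h2
  refine ⟨fun x c => ⟨(⌊D * v x c⌋ + (⌈D⌉₊ : ℤ)).toNat, ?_⟩, fun x x' h => ?_⟩
  · have := hb x c
    omega
  · rw [pi_norm_le_iff_of_nonneg (by positivity)]
    intro c
    have h1 := congrArg (fun f : Fin m → Fin (2 * ⌈D⌉₊ + 1) => ((f c : Fin _) : ℕ)) h
    simp only at h1
    have h2 := hb x c
    have h3 := hb x' c
    have h4 : ⌊D * v x c⌋ = ⌊D * v x' c⌋ := by omega
    have a1 := Int.floor_le (D * v x c)
    have a2 := Int.lt_floor_add_one (D * v x c)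
    have a3 := Int.floor_le (D * v x' c)
    have a4 := Int.lt_floor_add_one (D * v x' c)
    rw [h4] at a1 a2
    rw [Pi.sub_apply, Real.norm_eq_abs, le_div_iff₀ hD, ← abs_of_pos hD, ← abs_mul, abs_le]
    constructor <;> nlinarith

/-- **LEAF L-WA-PIGEON.**  `∑_{x ∈ s} w x = ∑_g ∑_{x ∈ s, col x = g} w x` (`Finset.sum_fiberwise`); if every inner sum were `< V / card γ` the total would be `< V` (`Finset.sum_lt_sum_of_nonempty`/`Finset.exists_le_of_sum_le`; `γ` is nonempty since `V > 0` forces `s` nonempty);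
the chosen inner sum is `> 0`, so it has a term. -/
theorem wa_pigeon {ι γ : Type*} [Fintype γ] [DecidableEq γ] (s : Finset ι) (w : ι → ℝ) (col : ι → γ) (V : ℝ) (hV : 0 < V)
    (h : V ≤ ∑ x ∈ s, w x) :
    ∃ g : γ, V / Fintype.card γ ≤ ∑ x ∈ s.filter (fun x => col x = g), w x ∧ ∃ x ∈ s, col x = g := by
  have hs : s.Nonempty := by
    by_contra hc
    rw [Finset.not_nonempty_iff_eq_empty] at hc
    rw [hc, Finset.sum_empty] at h
    linarith
  obtain ⟨x₀, hx₀⟩ := hs
  have hne : (Finset.univ : Finset γ).Nonempty := ⟨col x₀, Finset.mem_univ _⟩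
  have hcard : (0 : ℝ) < Fintype.card γ := by
    have : 0 < Fintype.card γ := Fintype.card_pos_iff.2 ⟨col x₀⟩
    exact_mod_cast this
  have hsum : ∑ g : γ, V / Fintype.card γ ≤ ∑ g : γ, ∑ x ∈ s.filter (fun x => col x = g), w x := by
    rw [Finset.sum_fiberwise, Finset.sum_const, Finset.card_univ, nsmul_eq_mul]
    rw [mul_div_cancel₀ _ hcard.ne']
    exact h
  obtain ⟨g, -, hg⟩ := Finset.exists_le_of_sum_le hne hsum
  refine ⟨g, hg, ?_⟩
  have hpos : 0 < ∑ x ∈ s.filter (fun x => col x = g), w x := lt_of_lt_of_le (by positivity) hg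
  by_contra hc
  push Not at hc
  have : s.filter (fun x => col x = g) = ∅ := by
    rw [Finset.filter_eq_empty_iff]
    exact hc
  rw [this, Finset.sum_empty] at hpos
  exact lt_irrefl _ hpos

end Claimed.Agent.R257
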