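import Claimed.Agent.R257.Wall.AMain
import Claimed.Agent.R257.Wall.AFrame

/-!
# R257/Wall, unit WALL-A, file 9: THE EXIT `wa_main` (= Lemma w:wall of H, wall.tex l.99-186, language of `WG/Main.lean : wg_main`)            (architect helper18)
PAPER-FREE.   Data of `wg_main` + (H1) + TUPLE  ⟹  `ν Y ≥ L^n / K^C`  and half of `Y` consists of ROBUST WALL points at the radius `ρ` of the tubes.
Every `sorry` is a leaf `L-WA-*`.  Statements are frozen (a FALSE statement: one line to helper18); auxiliary lemmas (prefix `wa_`) directly above your theorem; edit only your block.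
-/

set_option autoImplicit false
open MeasureTheory Set Metric
open scoped BigOperators ENNReal

namespace Claimed.Agent.R257

open Claimed.Agent.MK

theorem wa_one_le_Th (n : ℕ) {K : ℝ} (hK : 1 ≤ K) : 1 ≤ waTh n K := by
  unfold waTh
  have hf1 : (1 : ℝ) ≤ n.factorial := by exact_mod_cast Nat.one_le_iff_ne_zero.2 (Nat.factorial_ne_zero n)
  have hn0 : (0 : ℝ) ≤ n := Nat.cast_nonneg n
  have h1 : (1 : ℝ) ≤ ((n : ℝ) + 1) ^ 2 := by nlinarith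
  have h2 : (1 : ℝ) ≤ ((n : ℝ) + 1) ^ 2 * n.factorial := by nlinarith
  nlinarith

open Classical in
/-- **LEAF L-WA-SYS: from TUPLE to types and frames.**
`Θ = waTh n K`, `col` from `wa_colour v hv1 (8 * n * Θ)`, `γ = Fin (n+1) → Fin (waG n K)` (`card γ = (waG n K)^(n+1)`), `τ = Fin (n+1) × (Fin n → γ)` (`card τ = (n+1) * ((waG n K)^(n+1))^n`).
`Good t := ∃ al : Fin n → ι, (∀ i, col (al i) = t.2 i) ∧ 1/K ≤ |det (of fun i k => v (al i) (t.1.succAbove k))|`.   `T t` = the map of `wa_frame` for `u i = v (al i)` if `Good t`, else `LinearEquiv.refl` (`1 ≤ Θ`);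
`Fam t j = univ.filter (col x = t.2 j)` if `Good t`, else `∅`.   Near-axis: `wa_near` (`‖v x - v (al j)‖ ≤ 1/(8 n Θ)` by equal colours).
Incidences: `p ∈ Y`, `b`, `l` from `TUPLE`; for every `j`, `wa_pigeon` for `s = univ.filter (cls α = b j ∧ p ∈ tube ..)`, `V = W/2` gives the colour `g j` and a label `al j` of class `b j`; `t = (l, g)` is `Good`;
the sum over `Fam t j` filtered by the tube dominates the pigeonhole sum (`Finset.sum_le_sum_of_subset_of_nonneg`). -/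
theorem wa_tuple_sys {n : ℕ} (hn : 2 ≤ n) (K : ℝ) (hK : 1 ≤ K) {ι β : Type} [Fintype ι] (w : ι → ℝ) (hw : ∀ α, 0 ≤ w α)
    (a v : ι → Fin (n + 1) → ℝ) (hv1 : ∀ α, ‖v α‖ ≤ 1) (Y : Set (Fin (n + 1) → ℝ)) (W : ℝ) (hW : 0 < W) (ρ : ℝ)
    (cls : ι → β) (heavy : (Fin (n + 1) → ℝ) → Set β)
    (H1 : ∀ y ∈ Y, ∀ b ∈ heavy y, W / 2 ≤ ∑ α, if cls α = b ∧ y ∈ tube (a α) (v α) ρ then w α else 0)
    (TUPLE : ∀ y ∈ Y, ∃ b : Fin n → β, (∀ i, b i ∈ heavy y) ∧ ∃ l : Fin (n + 1), ∀ al : Fin n → ι, (∀ i, cls (al i) = b i) →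
      1 / K ≤ |Matrix.det (Matrix.of fun i k => v (al i) (l.succAbove k))|) :
    ∃ (τ : Type) (_ : Fintype τ) (T : τ → (Fin (n + 1) → ℝ) ≃ₗ[ℝ] (Fin (n + 1) → ℝ)) (Fam : τ → Fin n → Finset ι),
      Fintype.card τ = (n + 1) * ((waG n K) ^ (n + 1)) ^ n ∧
      (∀ t x, ‖T t x‖ ≤ waTh n K * ‖x‖) ∧ (∀ t x, ‖x‖ ≤ waTh n K * ‖T t x‖) ∧
      (∀ t j, ∀ x ∈ Fam t j, 0 < T t (v x) j.castSucc ∧
        (∀ i : Fin n, i ≠ j → |T t (v x) i.castSucc| ≤ 1 / (4 * n) * T t (v x) j.castSucc) ∧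
        |T t (v x) (Fin.last n)| ≤ 1 * T t (v x) j.castSucc) ∧
      (∀ p ∈ Y, ∃ t, ∀ j, W / 2 / ((waG n K) ^ (n + 1) : ℕ) ≤ ∑ x ∈ (Fam t j).filter (fun x => p ∈ tube (a x) (v x) ρ), w x) := by
  have hΘ := wa_one_le_Th n hK
  have hn1 : 1 ≤ n := by omega
  have hnR : (0 : ℝ) < n := by exact_mod_cast hn1
  have hD : 0 < 8 * (n : ℝ) * waTh n K := by positivity
  obtain ⟨col, hcol⟩ : ∃ col : ι → Fin (n + 1) → Fin (waG n K),
      ∀ x x', col x = col x' → ‖v x - v x'‖ ≤ 1 / (8 * (n : ℝ) * waTh n K) := wa_colour v hv1 _ hD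
  have hS : ∀ t : Fin (n + 1) × (Fin n → Fin (n + 1) → Fin (waG n K)),
      ∃ T : (Fin (n + 1) → ℝ) ≃ₗ[ℝ] (Fin (n + 1) → ℝ), (∀ x, ‖T x‖ ≤ waTh n K * ‖x‖) ∧ (∀ x, ‖x‖ ≤ waTh n K * ‖T x‖) ∧
        ((∃ al : Fin n → ι, (∀ i, col (al i) = t.2 i) ∧
          1 / K ≤ |Matrix.det (Matrix.of fun i k => v (al i) (t.1.succAbove k))|) →
          ∀ (j : Fin n) (x : ι), col x = t.2 j → 0 < T (v x) j.castSucc ∧
            (∀ i : Fin n, i ≠ j → |T (v x) i.castSucc| ≤ 1 / (4 * n) * T (v x) j.castSucc) ∧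
            |T (v x) (Fin.last n)| ≤ 1 * T (v x) j.castSucc) := by
    intro t
    by_cases hg : ∃ al : Fin n → ι, (∀ i, col (al i) = t.2 i) ∧
        1 / K ≤ |Matrix.det (Matrix.of fun i k => v (al i) (t.1.succAbove k))|
    · obtain ⟨al, hal, hdet⟩ := hg
      obtain ⟨T, hT0, hT1, hT2⟩ := wa_frame (fun i => v (al i)) (fun i => hv1 _) t.1 K hK hdet
      refine ⟨T, hT1, hT2, fun _ j x hx => ?_⟩
      exact wa_near hn1 T (waTh n K) hΘ hT1 (v (al j)) (v x) j (hT0 j) (hcol _ _ (hx.trans (hal j).symm))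
    · refine ⟨LinearEquiv.refl ℝ _, fun x => ?_, fun x => ?_, fun h => absurd h hg⟩
      · simp only [LinearEquiv.refl_apply]
        nlinarith [norm_nonneg x]
      · simp only [LinearEquiv.refl_apply]
        nlinarith [norm_nonneg x]
  choose T hT1 hT2 hT3 using hS
  refine ⟨Fin (n + 1) × (Fin n → Fin (n + 1) → Fin (waG n K)), inferInstance, T,
    fun t j => if (∃ al : Fin n → ι, (∀ i, col (al i) = t.2 i) ∧
        1 / K ≤ |Matrix.det (Matrix.of fun i k => v (al i) (t.1.succAbove k))|)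
      then Finset.univ.filter (fun x => col x = t.2 j) else ∅, ?_, hT1, hT2, ?_, ?_⟩
  · simp [Fintype.card_prod, Fintype.card_pi]
  · intro t j x hx
    beta_reduce at hx
    by_cases hg : ∃ al : Fin n → ι, (∀ i, col (al i) = t.2 i) ∧
        1 / K ≤ |Matrix.det (Matrix.of fun i k => v (al i) (t.1.succAbove k))|
    · rw [if_pos hg, Finset.mem_filter] at hx
      exact hT3 t hg j x hx.2
    · rw [if_neg hg] at hx
      exact absurd hx (Finset.notMem_empty x)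
  · intro p hp
    obtain ⟨b, hb, l, hdet⟩ := TUPLE p hp
    have hpg : ∀ j : Fin n, ∃ g : Fin (n + 1) → Fin (waG n K),
        W / 2 / ((waG n K) ^ (n + 1) : ℕ) ≤ ∑ x ∈ (Finset.univ.filter
          (fun α => cls α = b j ∧ p ∈ tube (a α) (v α) ρ)).filter (fun x => col x = g), w x ∧
        ∃ x : ι, cls x = b j ∧ col x = g := by
      intro j
      have h1 := H1 p hp (b j) (hb j)
      rw [← Finset.sum_filter] at h1
      obtain ⟨g, hg1, x, hx1, hx2⟩ := wa_pigeon _ w col (W / 2) (by positivity) h1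
      refine ⟨g, ?_, x, (Finset.mem_filter.1 hx1).2.1, hx2⟩
      have hc : Fintype.card (Fin (n + 1) → Fin (waG n K)) = (waG n K) ^ (n + 1) := by
        simp [Fintype.card_pi]
      rw [hc] at hg1
      convert hg1
    choose g hg1 al hal1 hal2 using hpg
    have hgood : ∃ al : Fin n → ι, (∀ i, col (al i) = g i) ∧
        1 / K ≤ |Matrix.det (Matrix.of fun i k => v (al i) (l.succAbove k))| := ⟨al, hal2, hdet al hal1⟩
    refine ⟨(l, g), fun j => (hg1 j).trans ?_⟩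
    refine Finset.sum_le_sum_of_subset_of_nonneg ?_ fun x _ _ => hw x
    intro x hx
    rw [Finset.mem_filter, Finset.mem_filter] at hx
    rw [Finset.mem_filter]
    refine ⟨?_, hx.1.2.2⟩
    simp only
    rw [if_pos hgood, Finset.mem_filter]
    exact ⟨Finset.mem_univ _, hx.2⟩

theorem wa_rpow_q {k : ℕ} (hk : 1 ≤ k) {x : ℝ} (hx : 0 ≤ x) :
    (x ^ (((k + 1 : ℕ) : ℝ) / (((k + 1 : ℕ) : ℝ) - 1))) ^ k = x ^ (k + 1) := by
  have hk0 : (k : ℝ) ≠ 0 := by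
    have : (1 : ℝ) ≤ k := by exact_mod_cast hk
    linarith
  rw [← Real.rpow_natCast, ← Real.rpow_mul hx, ← Real.rpow_natCast]
  congr 1
  push_cast
  rw [add_sub_cancel_right, div_mul_cancel₀ _ hk0]

theorem wa_rpow_q1 {k : ℕ} (hk : 1 ≤ k) {x : ℝ} (hx : 0 ≤ x) :
    (x ^ (((k + 1 : ℕ) : ℝ) / (((k + 1 : ℕ) : ℝ) - 1) - 1)) ^ k = x := by
  have hk0 : (k : ℝ) ≠ 0 := by
    have : (1 : ℝ) ≤ k := by exact_mod_cast hk
    linarith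
  rw [← Real.rpow_natCast, ← Real.rpow_mul hx]
  have : (((k + 1 : ℕ) : ℝ) / (((k + 1 : ℕ) : ℝ) - 1) - 1) * (k : ℝ) = 1 := by
    push_cast
    rw [add_sub_cancel_right, sub_mul, div_mul_cancel₀ _ hk0]
    ring
  rw [this, Real.rpow_one]

theorem wa_num_BW {B K L W N : ℝ} (hB : 0 ≤ B) (hK : 0 < K) (hL : 0 < L) (hW : 0 < W) (hWN : L / K ≤ W * N) :
    B / W ≤ B * K * N / L := by
  rw [div_le_div_iff₀ hW hL]
  rw [div_le_iff₀ hK] at hWN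
  calc B * L ≤ B * (W * N * K) := mul_le_mul_of_nonneg_left hWN hB
    _ = B * K * N * W := by ring

/-- **LEAF L-WA-NUM1** (pure real inequality).   `B / W ≤ B K N / L`; so `N ≤ A (B K N / L)^q`, `q = n/(n-1)`; raise to the power `n - 1` (`pow_le_pow_left₀`, `(x^q)^(n-1) = x^n` by `Real.rpow_natCast`, `Real.rpow_mul`):
`N^(n-1) ≤ A^(n-1) (B K N / L)^n`; multiply by `L^n / N^(n-1)`. -/
theorem wa_num_inc {n : ℕ} (hn : 2 ≤ n) (A B K L W N : ℝ) (hA : 0 ≤ A) (hB : 0 ≤ B) (hK : 0 < K) (hL : 0 < L) (hW : 0 < W) (hN : 0 < N)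
    (hWN : L / K ≤ W * N) (h : N ≤ A * (B / W) ^ ((n : ℝ) / ((n : ℝ) - 1))) :
    L ^ n ≤ A ^ (n - 1) * (B * K) ^ n * N := by
  obtain ⟨k, rfl⟩ : ∃ k, n = k + 1 := ⟨n - 1, by omega⟩
  have hk : 1 ≤ k := by omega
  rw [Nat.add_sub_cancel]
  have hBW0 : 0 ≤ B / W := div_nonneg hB hW.le
  have h1 : N ^ k ≤ A ^ k * (B / W) ^ (k + 1) := by
    have := pow_le_pow_left₀ hN.le h k
    rwa [mul_pow, wa_rpow_q hk hBW0] at this
  have h2 : (B / W) ^ (k + 1) ≤ (B * K * N / L) ^ (k + 1) := pow_le_pow_left₀ hBW0 (wa_num_BW hB hK hL hW hWN) _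
  have h3 : N ^ k ≤ A ^ k * (B * K * N / L) ^ (k + 1) := h1.trans (mul_le_mul_of_nonneg_left h2 (pow_nonneg hA k))
  have e : A ^ k * (B * K * N / L) ^ (k + 1) = (A ^ k * (B * K) ^ (k + 1) * N) * N ^ k / L ^ (k + 1) := by
    rw [div_pow, mul_pow (B * K) N, pow_succ N k]
    ring
  rw [e, le_div_iff₀ (pow_pos hL _), mul_comm (N ^ k)] at h3
  exact le_of_mul_le_mul_right h3 (pow_pos hN k)

/-- **LEAF L-WA-NUM2** (pure real inequality).   `Z := 4 A 𝔇 (B/W)^q es^(q-1) / N ≥ 0`; `Z^(n-1) = (4 A 𝔇)^(n-1) (B/W)^n es / N^(n-1) ≤ (4 A 𝔇)^(n-1) (B K)^n N es / L^n ≤ (4 A 𝔇)^(n-1) (B K)^n K^(n+1) es ≤ 1`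
(`(q-1)(n-1) = 1`), hence `Z ≤ 1` (`pow_le_one_iff_of_nonneg`, `n - 1 ≠ 0`). -/
theorem wa_num_wall {n : ℕ} (hn : 2 ≤ n) (A B K L W N es 𝔇 : ℝ) (hA : 0 ≤ A) (hB : 0 ≤ B) (hK : 0 < K) (hL : 0 < L) (hW : 0 < W)
    (hN : 0 < N) (hes : 0 < es) (h𝔇 : 0 ≤ 𝔇) (hWN : L / K ≤ W * N) (hNup : N ≤ K ^ (n + 1) * L ^ n)
    (hsmall : (4 * A * 𝔇) ^ (n - 1) * (B * K) ^ n * K ^ (n + 1) * es ≤ 1) :
    A * (B / W) ^ ((n : ℝ) / ((n : ℝ) - 1)) * es ^ ((n : ℝ) / ((n : ℝ) - 1) - 1) * 𝔇 ≤ N / 4 := by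
  obtain ⟨k, rfl⟩ : ∃ k, n = k + 1 := ⟨n - 1, by omega⟩
  have hk : 1 ≤ k := by omega
  rw [Nat.add_sub_cancel] at hsmall
  have hBW0 : 0 ≤ B / W := div_nonneg hB hW.le
  obtain ⟨x, hx⟩ : ∃ x : ℝ, x = (B / W) ^ (((k + 1 : ℕ) : ℝ) / (((k + 1 : ℕ) : ℝ) - 1)) := ⟨_, rfl⟩
  obtain ⟨y, hy⟩ : ∃ y : ℝ, y = es ^ (((k + 1 : ℕ) : ℝ) / (((k + 1 : ℕ) : ℝ) - 1) - 1) := ⟨_, rfl⟩
  have hx0 : 0 ≤ x := by rw [hx]; exact Real.rpow_nonneg hBW0 _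
  have hy0 : 0 ≤ y := by rw [hy]; exact Real.rpow_nonneg hes.le _
  have hxk : x ^ k = (B / W) ^ (k + 1) := by rw [hx]; exact wa_rpow_q hk hBW0
  have hyk : y ^ k = es := by rw [hy]; exact wa_rpow_q1 hk hes.le
  rw [← hx, ← hy]
  have hZ0 : 0 ≤ 4 * A * 𝔇 * x * y / N := by positivity
  have hZk : (4 * A * 𝔇 * x * y / N) ^ k ≤ 1 := by
    have h2 : (B / W) ^ (k + 1) ≤ (B * K * N / L) ^ (k + 1) := pow_le_pow_left₀ hBW0 (wa_num_BW hB hK hL hW hWN) _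
    have hc0 : 0 ≤ (4 * A * 𝔇) ^ k := by positivity
    calc (4 * A * 𝔇 * x * y / N) ^ k = (4 * A * 𝔇) ^ k * (B / W) ^ (k + 1) * es / N ^ k := by
          rw [div_pow, mul_pow, mul_pow, hxk, hyk]
      _ ≤ (4 * A * 𝔇) ^ k * (B * K * N / L) ^ (k + 1) * es / N ^ k := by gcongr
      _ = (4 * A * 𝔇) ^ k * (B * K) ^ (k + 1) * es * (N / L ^ (k + 1)) := by
          rw [div_pow, mul_pow (B * K) N, pow_succ N k]
          field_simp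
      _ ≤ (4 * A * 𝔇) ^ k * (B * K) ^ (k + 1) * es * K ^ (k + 1 + 1) := by
          refine mul_le_mul_of_nonneg_left ?_ (by positivity)
          rw [div_le_iff₀ (pow_pos hL _)]
          exact hNup
      _ = (4 * A * 𝔇) ^ k * (B * K) ^ (k + 1) * K ^ (k + 1 + 1) * es := by ring
      _ ≤ 1 := hsmall
  have hZ : 4 * A * 𝔇 * x * y / N ≤ 1 := (pow_le_one_iff_of_nonneg hZ0 (by omega)).1 hZk
  rw [div_le_one hN] at hZ
  linarith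

/-- **LEAF L-WA-NUM3: the number of rounds.**   `𝔇 = 2 (n+1)² 2^m + 1 ≤ 3 (n+1)² 2^m`.   With `es = 8 𝔇 / 2^((n+1) m)` the left side of the last claim is `≤ 8 (4A)^(n-1) H (3 (n+1)²)^n 2^(n m) / 2^((n+1) m) = A₃ / 2^m`,
`A₃ := 8 (4A)^(n-1) H (3 (n+1)²)^n`.   Take `m` minimal with `max A₃ 1 < 2^m`... e.g. `m = Nat.clog 2 (⌈A₃⌉₊ + 1)` or `Nat.find (pow_unbounded_of_one_lt ..)`: then `m ≥ 1` and `2^m ≤ 2 (A₃ + 1)`. -/
theorem wa_num_rounds {n : ℕ} (hn : 2 ≤ n) (A H : ℝ) (hA : 0 ≤ A) (hH : 0 ≤ H) :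
    ∃ m : ℕ, 1 ≤ m ∧ (2 : ℝ) ^ m ≤ 2 * (8 * (4 * A) ^ (n - 1) * H * (3 * ((n : ℝ) + 1) ^ 2) ^ n + 1) ∧
      (4 * A * (2 * ((n : ℝ) + 1) ^ 2 * 2 ^ m + 1)) ^ (n - 1) * H *
        (8 * (2 * ((n : ℝ) + 1) ^ 2 * 2 ^ m + 1) / 2 ^ ((n + 1) * m)) ≤ 1 := by
  classical
  obtain ⟨k, rfl⟩ : ∃ k, n = k + 1 := ⟨n - 1, by omega⟩
  rw [Nat.add_sub_cancel]
  obtain ⟨c, hc⟩ : ∃ c : ℝ, c = (((k + 1 : ℕ) : ℝ) + 1) ^ 2 := ⟨_, rfl⟩
  have hc1 : 1 ≤ c := by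
    rw [hc]
    have : (0 : ℝ) ≤ ((k + 1 : ℕ) : ℝ) := Nat.cast_nonneg _
    nlinarith
  rw [← hc]
  obtain ⟨A3, hA3⟩ : ∃ A3 : ℝ, A3 = 8 * (4 * A) ^ k * H * (3 * c) ^ (k + 1) := ⟨_, rfl⟩
  have hA30 : 0 ≤ A3 := by rw [hA3]; positivity
  rw [← hA3]
  have hex : ∃ m : ℕ, A3 + 1 < (2 : ℝ) ^ m := pow_unbounded_of_one_lt _ one_lt_two
  have hm := Nat.find_spec hex
  have hm1 : 1 ≤ Nat.find hex := by
    by_contra h0
    have : Nat.find hex = 0 := by omega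
    rw [this, pow_zero] at hm
    linarith
  obtain ⟨m, hmdef⟩ : ∃ m, m = Nat.find hex := ⟨_, rfl⟩
  rw [← hmdef] at hm hm1
  refine ⟨m, hm1, ?_, ?_⟩
  · have hmin : ¬ A3 + 1 < (2 : ℝ) ^ (m - 1) := Nat.find_min hex (by omega)
    rw [not_lt] at hmin
    have : (2 : ℝ) ^ m = 2 * 2 ^ (m - 1) := by
      rw [← pow_succ']
      congr 1
      omega
    rw [this]
    linarith
  · obtain ⟨X, hX⟩ : ∃ X : ℝ, X = (2 : ℝ) ^ m := ⟨_, rfl⟩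
    have hX1 : 1 ≤ X := by rw [hX]; exact one_le_pow₀ one_le_two
    have hpow : (2 : ℝ) ^ ((k + 1 + 1) * m) = X ^ (k + 1) * X := by
      rw [hX, ← pow_mul, ← pow_add]
      congr 1
      ring
    rw [hpow, ← hX]
    have hD : 2 * c * X + 1 ≤ 3 * c * X := by nlinarith
    have hD0 : 0 ≤ 2 * c * X + 1 := by positivity
    have hXp : 0 < X ^ (k + 1) * X := by positivity
    rw [← mul_div_assoc, div_le_one hXp]
    calc (4 * A * (2 * c * X + 1)) ^ k * H * (8 * (2 * c * X + 1))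
        = 8 * (4 * A) ^ k * H * (2 * c * X + 1) ^ (k + 1) := by
          rw [mul_pow, pow_succ (2 * c * X + 1) k]
          ring
      _ ≤ 8 * (4 * A) ^ k * H * (3 * c * X) ^ (k + 1) := by gcongr
      _ = A3 * X ^ (k + 1) := by
          rw [hA3, mul_pow (3 * c) X]
          ring
      _ ≤ X * X ^ (k + 1) := by
          refine mul_le_mul_of_nonneg_right ?_ (by positivity)
          rw [hX]
          linarith
      _ = X ^ (k + 1) * X := mul_comm _ _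

/-- the Kakeya constant of the system -/
noncomputable def waA (n : ℕ) (K ρ : ℝ) : ℝ :=
  (((n + 1) * ((waG n K) ^ (n + 1)) ^ n : ℕ) : ℝ) * (K * (waTh n K ^ 2 * ρ) ^ n * cmk n)

/-- the slack of the refined weight -/
noncomputable def waK' (n : ℕ) (K : ℝ) : ℝ := K * (2 * ((waG n K) ^ (n + 1) : ℕ))

/-- `f K ρ` is nonnegative and polynomially bounded in `K` on the range `2 ≤ K`, `1 ≤ ρ ≤ K` -/
def WaP (f : ℝ → ℝ → ℝ) : Prop := ∃ e : ℕ, ∀ K ρ : ℝ, 2 ≤ K → 1 ≤ ρ → ρ ≤ K → 0 ≤ f K ρ ∧ f K ρ ≤ K ^ e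

theorem wa_P_mul {f g : ℝ → ℝ → ℝ} (hf : WaP f) (hg : WaP g) : WaP fun K ρ => f K ρ * g K ρ := by
  obtain ⟨a, ha⟩ := hf
  obtain ⟨b, hb⟩ := hg
  refine ⟨a + b, fun K ρ hK h1 h2 => ?_⟩
  obtain ⟨x0, x1⟩ := ha K ρ hK h1 h2
  obtain ⟨y0, y1⟩ := hb K ρ hK h1 h2
  exact ⟨mul_nonneg x0 y0, by rw [pow_add]; exact mul_le_mul x1 y1 y0 (x0.trans x1)⟩

theorem wa_P_add {f g : ℝ → ℝ → ℝ} (hf : WaP f) (hg : WaP g) : WaP fun K ρ => f K ρ + g K ρ := by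
  obtain ⟨a, ha⟩ := hf
  obtain ⟨b, hb⟩ := hg
  refine ⟨a + b + 1, fun K ρ hK h1 h2 => ?_⟩
  obtain ⟨x0, x1⟩ := ha K ρ hK h1 h2
  obtain ⟨y0, y1⟩ := hb K ρ hK h1 h2
  have hK1 : (1 : ℝ) ≤ K := by linarith
  have x2 : f K ρ ≤ K ^ (a + b) := x1.trans (pow_le_pow_right₀ hK1 (Nat.le_add_right a b))
  have y2 : g K ρ ≤ K ^ (a + b) := y1.trans (pow_le_pow_right₀ hK1 (Nat.le_add_left b a))
  refine ⟨add_nonneg x0 y0, ?_⟩
  rw [pow_succ]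
  have : 0 ≤ K ^ (a + b) := by positivity
  nlinarith

theorem wa_P_pow {f : ℝ → ℝ → ℝ} (hf : WaP f) (k : ℕ) : WaP fun K ρ => f K ρ ^ k := by
  obtain ⟨a, ha⟩ := hf
  refine ⟨a * k, fun K ρ hK h1 h2 => ?_⟩
  obtain ⟨x0, x1⟩ := ha K ρ hK h1 h2
  exact ⟨pow_nonneg x0 k, by rw [pow_mul]; exact pow_le_pow_left₀ x0 x1 k⟩

theorem wa_P_const (c : ℝ) (hc : 0 ≤ c) : WaP fun _ _ => c := by
  obtain ⟨e, he⟩ := pow_unbounded_of_one_lt c one_lt_two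
  exact ⟨e, fun K ρ hK _ _ => ⟨hc, he.le.trans (pow_le_pow_left₀ (by norm_num) hK e)⟩⟩

theorem wa_P_K : WaP fun K _ => K := ⟨1, fun K ρ hK _ _ => ⟨by linarith, by rw [pow_one]⟩⟩

theorem wa_P_rho : WaP fun _ ρ => ρ := ⟨1, fun K ρ _ h1 h2 => ⟨by linarith, by rw [pow_one]; exact h2⟩⟩

theorem wa_P_le {f g : ℝ → ℝ → ℝ} (hg : WaP g) (h : ∀ K ρ : ℝ, 2 ≤ K → 1 ≤ ρ → ρ ≤ K → 0 ≤ f K ρ ∧ f K ρ ≤ g K ρ) : WaP f := by
  obtain ⟨b, hb⟩ := hg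
  exact ⟨b, fun K ρ hK h1 h2 => ⟨(h K ρ hK h1 h2).1, (h K ρ hK h1 h2).2.trans (hb K ρ hK h1 h2).2⟩⟩

theorem wa_cmk_nonneg (n : ℕ) : 0 ≤ cmk n := by
  unfold cmk cvis
  positivity

theorem wa_P_Th (n : ℕ) : WaP fun K _ => waTh n K := by
  unfold waTh
  exact wa_P_mul (wa_P_const _ (by positivity)) wa_P_K

theorem wa_P_G (n : ℕ) : WaP fun K _ => (waG n K : ℝ) := by
  have h1 : WaP fun K _ => 2 * (8 * (n : ℝ) * waTh n K + 1) + 1 :=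
    wa_P_add (wa_P_mul (wa_P_const 2 (by norm_num))
      (wa_P_add (wa_P_mul (wa_P_const (8 * (n : ℝ)) (by positivity)) (wa_P_Th n)) (wa_P_const 1 zero_le_one))) (wa_P_const 1 zero_le_one)
  refine wa_P_le h1 fun K ρ hK _ _ => ⟨Nat.cast_nonneg _, ?_⟩
  unfold waG
  have h0 : 0 ≤ 8 * (n : ℝ) * waTh n K := by
    unfold waTh
    positivity
  have := (Nat.ceil_lt_add_one h0).le
  push_cast
  linarith

theorem wa_P_A (n : ℕ) : WaP fun K ρ => waA n K ρ := by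
  have h1 : WaP fun K ρ => (((n : ℝ) + 1) * (((waG n K : ℝ)) ^ (n + 1)) ^ n) * (K * (waTh n K ^ 2 * ρ) ^ n * cmk n) :=
    wa_P_mul (wa_P_mul (wa_P_const _ (by positivity)) (wa_P_pow (wa_P_pow (wa_P_G n) _) _))
      (wa_P_mul (wa_P_mul wa_P_K (wa_P_pow (wa_P_mul (wa_P_pow (wa_P_Th n) 2) wa_P_rho) n)) (wa_P_const _ (wa_cmk_nonneg n)))
  have e : (fun K ρ => waA n K ρ)
      = fun K ρ => (((n : ℝ) + 1) * (((waG n K : ℝ)) ^ (n + 1)) ^ n) * (K * (waTh n K ^ 2 * ρ) ^ n * cmk n) := by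
    funext K ρ
    unfold waA
    push_cast
    rfl
  rw [e]
  exact h1

theorem wa_P_K' (n : ℕ) : WaP fun K _ => waK' n K := by
  have h1 : WaP fun K _ => K * (2 * (waG n K : ℝ) ^ (n + 1)) :=
    wa_P_mul wa_P_K (wa_P_mul (wa_P_const 2 (by norm_num)) (wa_P_pow (wa_P_G n) _))
  have e : (fun (K : ℝ) (_ : ℝ) => waK' n K) = fun K _ => K * (2 * (waG n K : ℝ) ^ (n + 1)) := by
    funext K ρ
    unfold waK'
    push_cast
    rfl
  rw [e]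
  exact h1

theorem wa_G_pos (n : ℕ) (K : ℝ) : 1 ≤ waG n K := by
  unfold waG
  omega

theorem wa_K_le_K' (n : ℕ) {K : ℝ} (hK : 0 ≤ K) : K ≤ waK' n K := by
  unfold waK'
  have h1 : (1 : ℝ) ≤ ((waG n K ^ (n + 1) : ℕ) : ℝ) := by
    exact_mod_cast Nat.one_le_pow _ _ (wa_G_pos n K)
  nlinarith

/-- **LEAF L-WA-NUM4: everything is polynomial in `K`.**   `cmk n ≤ 2^c ≤ K^c` for some `c = c(n)` (`pow_unbounded_of_one_lt`); `waTh n K = c_n K`; `waG n K ≤ 2 (8 n waTh + 1) + 1` (`Nat.ceil_lt_add_one`); numerals and `n` are `≤ 2^e ≤ K^e`.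
Closure rules: copy the six-line calculus `WgNB`, `wgnb_mul`, `wgnb_add`, `wgnb_pow`, `wgnb_num` .. of `R257/WG/Main.lean` l.400-430 under `wa_` names (do not import WG). -/
theorem wa_num_poly (n : ℕ) : ∃ e : ℕ, ∀ K ρ : ℝ, 2 ≤ K → 1 ≤ ρ → ρ ≤ K →
    0 ≤ waA n K ρ ∧ waA n K ρ ≤ K ^ e ∧ K ≤ waK' n K ∧ waK' n K ≤ K ^ e := by
  obtain ⟨a, ha⟩ := wa_P_A n
  obtain ⟨b, hb⟩ := wa_P_K' n
  refine ⟨a + b, fun K ρ hK h1 h2 => ?_⟩
  have hK1 : (1 : ℝ) ≤ K := by linarith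
  exact ⟨(ha K ρ hK h1 h2).1, (ha K ρ hK h1 h2).2.trans (pow_le_pow_right₀ hK1 (Nat.le_add_right a b)),
    wa_K_le_K' n (by linarith), (hb K ρ hK h1 h2).2.trans (pow_le_pow_right₀ hK1 (Nat.le_add_left b a))⟩

theorem wa_main_C (n : ℕ) : ∃ C : ℕ, ∀ K ρ : ℝ, 2 ≤ K → 1 ≤ ρ → ρ ≤ K →
    waA n K ρ ^ (n - 1) * ((3 * 1 + 4) * 1 * waK' n K) ^ n ≤ K ^ C ∧
    ((n : ℝ) + 1) * (2 * (8 * (4 * waA n K ρ) ^ (n - 1) * (((3 * 1 + 4) * 2 ^ (n + 2) * waK' n K) ^ n * waK' n K ^ (n + 1))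
      * (3 * ((n : ℝ) + 1) ^ 2) ^ n + 1)) ≤ K ^ C ∧
    2 * ((n : ℝ) + 1) ^ 2 * (2 * (8 * (4 * waA n K ρ) ^ (n - 1) * (((3 * 1 + 4) * 2 ^ (n + 2) * waK' n K) ^ n * waK' n K ^ (n + 1))
      * (3 * ((n : ℝ) + 1) ^ 2) ^ n + 1)) ≤ K ^ C := by
  have hA := wa_P_A n
  have hK' := wa_P_K' n
  have F1 : WaP fun K ρ => waA n K ρ ^ (n - 1) * ((3 * 1 + 4) * 1 * waK' n K) ^ n :=
    wa_P_mul (wa_P_pow hA _) (wa_P_pow (wa_P_mul (wa_P_const _ (by norm_num)) hK') _)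
  have X : WaP fun K ρ => 2 * (8 * (4 * waA n K ρ) ^ (n - 1) * (((3 * 1 + 4) * 2 ^ (n + 2) * waK' n K) ^ n * waK' n K ^ (n + 1))
      * (3 * ((n : ℝ) + 1) ^ 2) ^ n + 1) :=
    wa_P_mul (wa_P_const 2 (by norm_num)) (wa_P_add (wa_P_mul (wa_P_mul (wa_P_mul (wa_P_const 8 (by norm_num))
      (wa_P_pow (wa_P_mul (wa_P_const 4 (by norm_num)) hA) _))
      (wa_P_mul (wa_P_pow (wa_P_mul (wa_P_const ((3 * 1 + 4) * 2 ^ (n + 2)) (by positivity)) hK') n) (wa_P_pow hK' (n + 1))))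
      (wa_P_const ((3 * ((n : ℝ) + 1) ^ 2) ^ n) (by positivity))) (wa_P_const 1 zero_le_one))
  obtain ⟨c1, h1⟩ := F1
  obtain ⟨c2, h2⟩ := wa_P_mul (wa_P_const ((n : ℝ) + 1) (by positivity)) X
  obtain ⟨c3, h3⟩ := wa_P_mul (wa_P_const (2 * ((n : ℝ) + 1) ^ 2) (by positivity)) X
  refine ⟨c1 + c2 + c3, fun K ρ hK hρ1 hρK => ?_⟩
  have hK1 : (1 : ℝ) ≤ K := by linarith
  exact ⟨(h1 K ρ hK hρ1 hρK).2.trans (pow_le_pow_right₀ hK1 (by omega)),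
    (h2 K ρ hK hρ1 hρK).2.trans (pow_le_pow_right₀ hK1 (by omega)),
    (h3 K ρ hK hρ1 hρK).2.trans (pow_le_pow_right₀ hK1 (by omega))⟩

theorem wa_Th_one_le (n : ℕ) {K : ℝ} (hK : 1 ≤ K) : 1 ≤ waTh n K := by
  unfold waTh
  have h1 : (1 : ℝ) ≤ ((n : ℝ) + 1) ^ 2 := by
    have : (0 : ℝ) ≤ n := Nat.cast_nonneg n
    nlinarith
  have h2 : (1 : ℝ) ≤ (n.factorial : ℝ) := by exact_mod_cast Nat.succ_le_of_lt n.factorial_pos
  have h3 : (1 : ℝ) ≤ ((n : ℝ) + 1) ^ 2 * n.factorial := by nlinarith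
  nlinarith

open Classical in
/-- **LEAF L-WA-MAIN = THE EXIT (assembly).**
`e` from `wa_num_poly n`; `C` = a sufficiently large explicit expression in `n, e` (fix it while proving).   `τ, T, Fam` from `wa_tuple_sys`; `W' = W / 2 / G^(n+1)`, `K' = waK' n K`, `N = (ν Y).toReal > 0` (from `hWY`, `L/K > 0`), `L / K' ≤ W' * N`,
`N ≤ K (K L)^n ≤ K'^(n+1) L^n` (`hball` at `r = K L ≥ 1`, `hYbox`).   `A = waA n K ρ`.
(1) `wa_inc_mass` (`C0 = K`, `Θ = waTh n K`, `Λ = 1`, `E = 1`, weight `W'`) + `wa_num_inc` (`B = (3*1+4)*1`): `L^n ≤ A^(n-1) (7 K')^n N`.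
(2) `m` from `wa_num_rounds` with `H = (B K')^n K'^(n+1)`, `B = (3*1+4)*2^(n+2)`; `es = 8 𝔇 / 2^((n+1) m)`; `wa_wall_abs` (`All = univ`, `r0 = ρ`): first term `= N/4`, second `≤ N/4` by `wa_num_wall`.
`J = (n+1) m`, `Yw = Y ∩ waWallPt P ρ (1/2/J)`; `(1/2/J) (2ρ)^(n+1) ≥ ρ^(n+1)/K^C` since `J ≤ (n+1) 2^m ≤ K^C`; set equality `{z | 0 < eval z p} ∩ closedBall y ρ = {x | x ∈ closedBall y ρ ∧ 0 < eval x p}`. -/
theorem wa_main (n : ℕ) (hn : 2 ≤ n) : ∃ C : ℕ, ∀ (K L : ℝ), 2 ≤ K → K ^ C ≤ L →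
    ∀ (ν : Measure (Fin (n + 1) → ℝ)) [IsFiniteMeasure ν],
    (∀ (z : Fin (n + 1) → ℝ) (r : ℝ), 1 ≤ r → ν (closedBall z r) ≤ ENNReal.ofReal (K * r ^ n)) →
    ∀ {ι β : Type} [Fintype ι] (w : ι → ℝ), (∀ α, 0 ≤ w α) → ∑ α, w α ≤ 1 →
    ∀ (a v : ι → Fin (n + 1) → ℝ), (∀ α, ‖v α‖ ≤ 1) →
    ∀ (Y : Set (Fin (n + 1) → ℝ)), Y ⊆ closedBall 0 (K * L) →
    ∀ (W : ℝ), 0 < W → ENNReal.ofReal (L / K) ≤ ENNReal.ofReal W * ν Y →
    ∀ (ρ : ℝ), 1 ≤ ρ → ρ ≤ K →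
    ∀ (cls : ι → β) (heavy : (Fin (n + 1) → ℝ) → Set β),
    (∀ y ∈ Y, ∀ b ∈ heavy y, W / 2 ≤ ∑ α, if cls α = b ∧ y ∈ tube (a α) (v α) ρ then w α else 0) →
    (∀ y ∈ Y, ∃ b : Fin n → β, (∀ i, b i ∈ heavy y) ∧ ∃ l : Fin (n + 1), ∀ al : Fin n → ι, (∀ i, cls (al i) = b i) →
      1 / K ≤ |Matrix.det (Matrix.of fun i k => v (al i) (l.succAbove k))|) →
    ENNReal.ofReal (L ^ n / K ^ C) ≤ ν Y ∧
    ∃ (J : ℕ) (P : Fin J → MvPolynomial (Fin (n + 1)) ℝ) (Yw : Set (Fin (n + 1) → ℝ)), Yw ⊆ Y ∧ ν (Y \ Yw) ≤ ν Y / 2 ∧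
      (J : ℝ) ≤ K ^ C ∧ (∀ i, P i ≠ 0) ∧ (∀ i, ((P i).totalDegree : ℝ) ≤ K ^ C) ∧
      ∀ y ∈ Yw, ∃ i, ENNReal.ofReal (ρ ^ (n + 1) / K ^ C) ≤ volume {x | x ∈ closedBall y ρ ∧ 0 < MvPolynomial.eval x (P i)} ∧
        ENNReal.ofReal (ρ ^ (n + 1) / K ^ C) ≤ volume {x | x ∈ closedBall y ρ ∧ MvPolynomial.eval x (P i) < 0} := by
  obtain ⟨C, hC⟩ := wa_main_C n
  obtain ⟨e, he⟩ := wa_num_poly n
  refine ⟨C, ?_⟩
  intro K L hK hL ν _ hball ι β _ w hw hw1 a v hv1 Y hYbox W hW hWY ρ hρ1 hρK cls heavy H1 TUPLE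
  obtain ⟨hC1, hC2, hC3⟩ := hC K ρ hK hρ1 hρK
  have hK0 : 0 < K := by linarith
  have hK1 : 1 ≤ K := by linarith
  have hKC : 1 ≤ K ^ C := one_le_pow₀ hK1
  have hKC0 : 0 < K ^ C := by positivity
  have hL1 : 1 ≤ L := hKC.trans hL
  have hL0 : 0 < L := by linarith
  have hρ0 : 0 < ρ := by linarith
  have hA0' := (he K ρ hK hρ1 hρK).1
  obtain ⟨A, hAdef⟩ : ∃ A, A = waA n K ρ := ⟨_, rfl⟩
  obtain ⟨K', hK'def⟩ : ∃ K', K' = waK' n K := ⟨_, rfl⟩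
  rw [← hAdef, ← hK'def] at hC1 hC2 hC3
  rw [← hAdef] at hA0'
  have hA0 : 0 ≤ A := hA0'
  have hKK' : K ≤ K' := by rw [hK'def]; exact wa_K_le_K' n hK0.le
  have hK'0 : 0 < K' := by linarith
  obtain ⟨Gp, hGp⟩ : ∃ Gp : ℝ, Gp = ((waG n K ^ (n + 1) : ℕ) : ℝ) := ⟨_, rfl⟩
  have hGp1 : 1 ≤ Gp := by
    rw [hGp]
    exact_mod_cast Nat.one_le_pow _ _ (wa_G_pos n K)
  have hGp0 : 0 < Gp := by linarith
  have hK'eq : K' = K * (2 * Gp) := by rw [hK'def, hGp]; rfl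
  obtain ⟨W', hW'def⟩ : ∃ W', W' = W / 2 / Gp := ⟨_, rfl⟩
  have hW'0 : 0 < W' := by rw [hW'def]; positivity
  obtain ⟨N, hN⟩ : ∃ N, N = (ν Y).toReal := ⟨_, rfl⟩
  have hνY : ν Y = ENNReal.ofReal N := by rw [hN, ENNReal.ofReal_toReal (measure_ne_top ν Y)]
  have hN0' : 0 ≤ N := by rw [hN]; exact ENNReal.toReal_nonneg
  have hWN : L / K ≤ W * N := by
    rw [hνY, ← ENNReal.ofReal_mul hW.le] at hWY
    exact (ENNReal.ofReal_le_ofReal_iff (by positivity)).1 hWY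
  have hN0 : 0 < N := by
    by_contra h
    have h0 : N = 0 := le_antisymm (not_lt.1 h) hN0'
    rw [h0, mul_zero] at hWN
    have : 0 < L / K := by positivity
    linarith
  have hWN' : L / K' ≤ W' * N := by
    have e1 : L / K' = (L / K) / (2 * Gp) := by rw [hK'eq]; field_simp
    have e2 : W' * N = (W * N) / (2 * Gp) := by rw [hW'def]; field_simp
    rw [e1, e2]
    exact div_le_div_of_nonneg_right hWN (by positivity)
  have hNup : N ≤ K' ^ (n + 1) * L ^ n := by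
    have h1 : ν Y ≤ ENNReal.ofReal (K * (K * L) ^ n) := (measure_mono hYbox).trans (hball 0 (K * L) (by nlinarith))
    have h2 : N ≤ K * (K * L) ^ n := by rw [hN]; exact ENNReal.toReal_le_of_le_ofReal (by positivity) h1
    calc N ≤ K * (K * L) ^ n := h2
      _ = K ^ (n + 1) * L ^ n := by rw [mul_pow]; ring
      _ ≤ K' ^ (n + 1) * L ^ n := by gcongr
  have hΘ : 1 ≤ waTh n K := wa_Th_one_le n hK1
  have hYb : Bornology.IsBounded Y := isBounded_closedBall.subset hYbox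
  obtain ⟨τ, _, T, Fam, hcard, hT1, hT2, hv, hinc⟩ := wa_tuple_sys hn K hK1 w hw a v hv1 Y W hW ρ cls heavy H1 TUPLE
  rw [← hGp, ← hW'def] at hinc
  have hE : ∀ t j, ∑ x ∈ Fam t j, w x ≤ 1 := fun t j =>
    (Finset.sum_le_sum_of_subset_of_nonneg (Finset.subset_univ _) fun x _ _ => hw x).trans hw1
  have hcardA : ∀ z : ℝ, (Fintype.card τ : ℝ) * (K * (waTh n K ^ 2 * ρ) ^ n * (cmk n * z)) = A * z := by
    intro z
    rw [hAdef, hcard]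
    unfold waA
    ring
  have h1 := wa_inc_mass hn ν Y hYb K hK0.le hball T (waTh n K) hΘ hT1 hT2 Fam a v w hw 1 zero_le_one hv ρ hρ1 1 W' hW'0 hE hinc
  rw [hcardA] at h1
  have h1' : N ≤ A * ((3 * 1 + 4) * 1 / W') ^ ((n : ℝ) / ((n : ℝ) - 1)) := by
    rw [hN]
    exact ENNReal.toReal_le_of_le_ofReal (by positivity) h1
  have h1'' := wa_num_inc hn A ((3 * 1 + 4) * 1) K' L W' N hA0 (by norm_num) hK'0 hL0 hW'0 hN0 hWN' h1'
  refine ⟨?_, ?_⟩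
  · rw [hνY]
    apply ENNReal.ofReal_le_ofReal
    rw [div_le_iff₀ hKC0]
    calc L ^ n ≤ A ^ (n - 1) * ((3 * 1 + 4) * 1 * K') ^ n * N := h1''
      _ ≤ K ^ C * N := mul_le_mul_of_nonneg_right hC1 hN0.le
      _ = N * K ^ C := mul_comm _ _
  · obtain ⟨m, hm1, hm2, hm3⟩ := wa_num_rounds hn A (((3 * 1 + 4) * 2 ^ (n + 2) * K') ^ n * K' ^ (n + 1)) hA0 (by positivity)
    obtain ⟨𝔇, h𝔇⟩ : ∃ 𝔇 : ℝ, 𝔇 = 2 * ((n : ℝ) + 1) ^ 2 * 2 ^ m + 1 := ⟨_, rfl⟩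
    have h𝔇0 : 0 < 𝔇 := by rw [h𝔇]; positivity
    obtain ⟨es, hes⟩ : ∃ es : ℝ, es = 8 * 𝔇 / 2 ^ ((n + 1) * m) := ⟨_, rfl⟩
    have hes0 : 0 < es := by rw [hes]; positivity
    rw [← h𝔇, ← hes] at hm3
    obtain ⟨P, hP0, hPdeg, hPw⟩ := wa_wall_abs hn ν Y hYb K hK0.le hball T (waTh n K) hΘ hT1 hT2 Finset.univ Fam
      (fun t j => Finset.subset_univ _) a v w hw hw1 1 zero_le_one hv ρ hρ1 W' hW'0 hinc m ρ le_rfl es hes0
    rw [← h𝔇, hcardA, ← hN] at hPw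
    have t1 : 𝔇 / es * (2 * N / 2 ^ ((n + 1) * m)) = N / 4 := by
      rw [hes]
      field_simp
      ring
    have t2 := wa_num_wall hn A ((3 * 1 + 4) * 2 ^ (n + 2)) K' L W' N es 𝔇 hA0 (by positivity) hK'0 hL0 hW'0 hN0 hes0 h𝔇0.le hWN' hNup
      (by
        calc (4 * A * 𝔇) ^ (n - 1) * ((3 * 1 + 4) * 2 ^ (n + 2) * K') ^ n * K' ^ (n + 1) * es
            = (4 * A * 𝔇) ^ (n - 1) * (((3 * 1 + 4) * 2 ^ (n + 2) * K') ^ n * K' ^ (n + 1)) * es := by ring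
          _ ≤ 1 := hm3)
    have hJ1 : (1 : ℝ) ≤ (((n + 1) * m : ℕ) : ℝ) := by
      have : 1 ≤ (n + 1) * m := Nat.mul_pos (Nat.succ_pos n) hm1
      exact_mod_cast this
    have hm2m : (m : ℝ) ≤ 2 ^ m := by exact_mod_cast (Nat.lt_two_pow_self (n := m)).le
    have hJC : (((n + 1) * m : ℕ) : ℝ) ≤ K ^ C := by
      refine le_trans ?_ hC2
      push_cast
      have : (0 : ℝ) ≤ (n : ℝ) + 1 := by positivity
      exact mul_le_mul_of_nonneg_left (hm2m.trans hm2) this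
    refine ⟨(n + 1) * m, P, Y ∩ waWallPt P ρ (1 / 2 / (((n + 1) * m : ℕ) : ℝ)), inter_subset_left, ?_, hJC, hP0, ?_, ?_⟩
    · rw [sdiff_self_inter]
      refine hPw.trans ?_
      have e2 : ν Y / 2 = ENNReal.ofReal (N / 2) := by
        rw [hνY, ENNReal.ofReal_div_of_pos (by norm_num : (0 : ℝ) < 2)]
        norm_num
      rw [e2]
      apply ENNReal.ofReal_le_ofReal
      linarith
    · intro i
      have h2 : (P i).totalDegree ≤ ∑ k, (P k).totalDegree :=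
        Finset.single_le_sum (f := fun k => (P k).totalDegree) (fun k _ => Nat.zero_le _) (Finset.mem_univ i)
      have h3 : ((P i).totalDegree : ℝ) ≤ 2 * ((n : ℝ) + 1) ^ 2 * 2 ^ m := by
        exact_mod_cast h2.trans hPdeg
      refine h3.trans (le_trans ?_ hC3)
      exact mul_le_mul_of_nonneg_left hm2 (by positivity)
    · intro y hy
      have hθ : ρ ^ (n + 1) / K ^ C ≤ 1 / 2 / (((n + 1) * m : ℕ) : ℝ) * (2 * ρ) ^ (n + 1) := by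
        have hJ0 : (0 : ℝ) < (((n + 1) * m : ℕ) : ℝ) := by linarith
        have h2n : (1 : ℝ) ≤ 2 ^ n := one_le_pow₀ one_le_two
        have e3 : 1 / 2 / (((n + 1) * m : ℕ) : ℝ) * (2 * ρ) ^ (n + 1) = 2 ^ n * ρ ^ (n + 1) / (((n + 1) * m : ℕ) : ℝ) := by
          rw [mul_pow, pow_succ (2 : ℝ) n]
          field_simp
        rw [e3]
        calc ρ ^ (n + 1) / K ^ C ≤ ρ ^ (n + 1) / (((n + 1) * m : ℕ) : ℝ) :=
              div_le_div_of_nonneg_left (by positivity) hJ0 hJC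
          _ ≤ 2 ^ n * ρ ^ (n + 1) / (((n + 1) * m : ℕ) : ℝ) := by
              refine div_le_div_of_nonneg_right ?_ hJ0.le
              exact le_mul_of_one_le_left (by positivity) h2n
      obtain ⟨k, hk1, hk2⟩ := hy.2
      refine ⟨k, ?_, ?_⟩
      · refine (ENNReal.ofReal_le_ofReal hθ).trans (hk1.trans (le_of_eq ?_))
        congr 1
        ext x
        simp [and_comm]
      · refine (ENNReal.ofReal_le_ofReal hθ).trans (hk2.trans (le_of_eq ?_))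
        congr 1
        ext x
        simp [and_comm]

end Claimed.Agent.R257
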