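import Claimed.Agent.R257.Wall.Shear
import Claimed.Agent.R257.Wall.AExit
import Claimed.Agent.R257.WG.Main

/-!
# R257 / Wall / Core : THE WALL BLOCK (H wall.tex l.99-end, paper free): heavy broad incidences ⟹ `N_Y ≥ K^{-C} L^n` and `K^C` plates      (WALL captain helper185)      CONTRACT
PAPER-FREE.  Every `sorry` is a leaf `L-257-WK-*`.  Statements are frozen (a FALSE statement: one line to helper185); auxiliary lemmas (prefix `wk_`) directly above your theorem; edit only your block.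

EXIT FOR THE CONSUMERS (adapter helper12, flattening helper7): `wall_main : 2 ≤ n → 1 ≤ U₀ → WcStmt n U₀` (tube coordinates, velocities `u α`, `|u α i| ≤ U₀`, lines `a α + ℝ (u α, 1)`, time = LAST coordinate, bins `cls` with centres `cen`, half side `δ`):
(H1) every heavy bin supplies weight `≥ W/2` in tubes of radius `r0`;  (H2) `¬ NarrowA (centres) (3δ)`;  (H3) `¬ NarrowB (centres) (2δ) τ κ₀ B₀`   ⟹   `ν Y ≥ L^n/K^C`  and  `WcPlates ν Y (K^C)`.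
All slacks are one `K ≥ 2`;  `C = C(n, U₀)`.
INPUTS: `wa_main` (helper18, `Wall/AExit.lean`), `wg_main` (helper131, `WG/Main.lean`), `ws_qx`, `wt_tuple`, the shear.
-/

set_option autoImplicit false
open MeasureTheory Set Metric
open scoped BigOperators ENNReal

namespace Claimed.Agent.R257

theorem WcPlates.mono {n : ℕ} {ν : Measure (Fin (n + 1) → ℝ)} {Y : Set (Fin (n + 1) → ℝ)} {Kc Kc' : ℝ}
    (h : WcPlates ν Y Kc) (hK : Kc ≤ Kc') : WcPlates ν Y Kc' := by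
  obtain ⟨Pl, h1, h2, Z, h3, h4⟩ := h
  refine ⟨Pl, h1.trans hK, h2, Z, h3, fun y hy hyZ => ?_⟩
  obtain ⟨π, hπ, hle⟩ := h4 y hy hyZ
  exact ⟨π, hπ, hle.trans hK⟩

open Classical in
/-- **LEAF L-257-WK-CORE: wall + geometry, general directions.**   TWO systems of classes: the bins `cls, heavy, W` (quadratic exclusion, for `wg_main`) and the fine bins `cls', heavy', W'` (robust tuple, for `wa_main`).
`Ca` from `wa_main n hn`, `Cg` from `wg_main n`;  `C = (2 Ca + 2) (Cg + 1)`.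
STEP 1: `wa_main` with `K², L`, weight `W'` (`0 < W/K ≤ W'`;  `ofReal (L/K²) = ofReal (1/K) * ofReal (L/K) ≤ ofReal (1/K) * (ofReal W * ν Y) = ofReal (W/K) * ν Y ≤ ofReal W' * ν Y`), `ρ = r0`, `cls', heavy'`.   Output with `K₁ = (K²)^Ca = K^(2Ca)`: lower bound, `J, P, Yw`.
STEP 2: `ν Y ≤ ν Yw + ν (Y \ Yw)` (`measure_mono` + `measure_union_le`, `Set.union_diff_cancel`), `ν Y < ∞`: `ν Y / 2 ≤ ν Yw`.
STEP 3: `wg_main` with `Kg = K^(2Ca+2) = K₁ K²` (`≥ 4 K₁`, `≥ 2 K`, `≥ 4`), the set `Yw`, the same `W, r0, cls, heavy`; `WgQX.mono_const`; RW: `r0^(n+1)/Kg ≤ r0^(n+1)/K₁`.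
STEP 4: `Z' = Z ∪ (Y \ Yw)`: `ν Z' ≤ ofReal (1/Kg) * ν Yw + ν Y / 2 ≤ ofReal (3/4) * ν Y`.   Exponents: `pow_mul`, `pow_le_pow_right₀`. -/
theorem wk_core (n : ℕ) (hn : 2 ≤ n) : ∃ C : ℕ, ∀ (K L : ℝ), 2 ≤ K → K ^ C ≤ L →
    ∀ (ν : Measure (Fin (n + 1) → ℝ)) [IsFiniteMeasure ν],
    (∀ (z : Fin (n + 1) → ℝ) (r : ℝ), 1 ≤ r → ν (closedBall z r) ≤ ENNReal.ofReal (K * r ^ n)) →
    ∀ {ι β β' : Type} [Fintype ι] (w : ι → ℝ), (∀ α, 0 ≤ w α) → ∑ α, w α ≤ 1 →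
    ∀ (a v : ι → Fin (n + 1) → ℝ), (∀ α, ‖v α‖ ≤ 1) → (∀ α j, ∃ k, k ≠ j ∧ 1 / K ≤ |v α k|) →
    ∀ (Y : Set (Fin (n + 1) → ℝ)), Y ⊆ closedBall 0 (K * L) →
    ∀ (W : ℝ), 0 < W → ENNReal.ofReal (L / K) ≤ ENNReal.ofReal W * ν Y →
    ∀ (r0 : ℝ), 1 ≤ r0 → r0 ≤ K →
    ∀ (cls : ι → β) (heavy : (Fin (n + 1) → ℝ) → Set β),
    (∀ y ∈ Y, ∀ b ∈ heavy y, W / 2 ≤ ∑ α, if cls α = b ∧ y ∈ MK.tube (a α) (v α) r0 then w α else 0) →
    (∀ y ∈ Y, WgQX K {V | ∃ b ∈ heavy y, V = {u | ∃ α, cls α = b ∧ u = v α}}) →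
    ∀ (cls' : ι → β') (heavy' : (Fin (n + 1) → ℝ) → Set β') (W' : ℝ), W / K ≤ W' →
    (∀ y ∈ Y, ∀ b ∈ heavy' y, W' / 2 ≤ ∑ α, if cls' α = b ∧ y ∈ MK.tube (a α) (v α) r0 then w α else 0) →
    (∀ y ∈ Y, ∃ b : Fin n → β', (∀ i, b i ∈ heavy' y) ∧ ∃ l : Fin (n + 1), ∀ al : Fin n → ι, (∀ i, cls' (al i) = b i) →
      1 / K ≤ |Matrix.det (Matrix.of fun i k => v (al i) (l.succAbove k))|) →
    ENNReal.ofReal (L ^ n / K ^ C) ≤ ν Y ∧ WcPlates ν Y (K ^ C) := by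
  obtain ⟨Ca, hA⟩ := wa_main n hn
  obtain ⟨Cg, hG⟩ := wg_main n (by omega)
  refine ⟨(2 * Ca + 2) * (Cg + 1), ?_⟩
  intro K L hK hL ν _ hball ι β β' _ w hw hw1 a v hv1 hv2 Y hY W hW hWY r0 hr1 hrK cls heavy H1 QX cls' heavy' W' hW' H1' TUP
  have hK0 : 0 < K := by linarith
  have hK1 : 1 ≤ K := by linarith
  obtain ⟨K1, hK1def⟩ : ∃ K1 : ℝ, K1 = K ^ (2 * Ca) := ⟨_, rfl⟩
  obtain ⟨Kg, hKgdef⟩ : ∃ Kg : ℝ, Kg = K ^ (2 * Ca + 2) := ⟨_, rfl⟩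
  obtain ⟨KC, hKCdef⟩ : ∃ KC : ℝ, KC = K ^ ((2 * Ca + 2) * (Cg + 1)) := ⟨_, rfl⟩
  rw [← hKCdef] at hL ⊢
  have hKg : Kg = K1 * K ^ 2 := by rw [hKgdef, hK1def, pow_add]
  have hK1one : 1 ≤ K1 := hK1def ▸ one_le_pow₀ hK1
  have hK1pos : 0 < K1 := by linarith
  have hKsq : 4 ≤ K ^ 2 := by nlinarith
  have hKsq' : K ≤ K ^ 2 := by nlinarith
  have hKsq2 : 2 * K ≤ K ^ 2 := by nlinarith
  have hKg4 : 4 * K1 ≤ Kg := by rw [hKg]; nlinarith
  have hKgK : 2 * K ≤ Kg := by rw [hKg]; nlinarith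
  have hKgpos : 0 < Kg := by linarith
  have hK1KC : K1 ≤ KC := by
    rw [hK1def, hKCdef]
    exact pow_le_pow_right₀ hK1 (by nlinarith)
  have hKgKC : Kg ^ Cg ≤ KC := by
    rw [hKgdef, hKCdef, ← pow_mul]
    exact pow_le_pow_right₀ hK1 (by nlinarith)
  have hKCpos : 0 < KC := by linarith
  have hL0 : 0 < L := by linarith
  have hLa : (K ^ 2) ^ Ca ≤ L := by
    rw [← pow_mul, ← hK1def]; linarith
  have hLg : Kg ^ Cg ≤ L := hKgKC.trans hL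
  have hW'pos : 0 < W' := lt_of_lt_of_le (by positivity) hW'
  -- STEP 1
  have hWY' : ENNReal.ofReal (L / K ^ 2) ≤ ENNReal.ofReal W' * ν Y := by
    calc ENNReal.ofReal (L / K ^ 2) = ENNReal.ofReal (1 / K) * ENNReal.ofReal (L / K) := by
          rw [← ENNReal.ofReal_mul (by positivity)]
          congr 1
          field_simp
      _ ≤ ENNReal.ofReal (1 / K) * (ENNReal.ofReal W * ν Y) := by gcongr
      _ = ENNReal.ofReal (W / K) * ν Y := by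
          rw [← mul_assoc, ← ENNReal.ofReal_mul (by positivity)]
          congr 2
          field_simp
      _ ≤ ENNReal.ofReal W' * ν Y := by gcongr
  obtain ⟨hlow, J, P, Yw, hYwY, hYw2, hJ, -, hdeg, hRW⟩ := hA (K ^ 2) L (by linarith) hLa ν
    (fun z r hr => (hball z r hr).trans (ENNReal.ofReal_le_ofReal (by gcongr)))
    w hw hw1 a v hv1 Y (hY.trans (closedBall_subset_closedBall (by gcongr)))
    W' hW'pos hWY' r0 hr1 (hrK.trans hKsq') cls' heavy' H1'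
    (fun y hy => by
      obtain ⟨b, hb, l, hl⟩ := TUP y hy
      refine ⟨b, hb, l, fun al hal => le_trans ?_ (hl al hal)⟩
      exact one_div_le_one_div_of_le hK0 hKsq')
  rw [← pow_mul, ← hK1def] at hlow hJ hdeg hRW
  -- STEP 2
  have hfin : ν Y ≠ ∞ := measure_ne_top ν Y
  have hhalf : ν Y / 2 ≤ ν Yw := by
    have h1 : ν Y ≤ ν Yw + ν (Y \ Yw) := by
      calc ν Y ≤ ν (Yw ∪ Y \ Yw) := measure_mono (by rw [union_diff_cancel hYwY])
        _ ≤ ν Yw + ν (Y \ Yw) := measure_union_le _ _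
    have h2 : ν Y / 2 + ν Y / 2 ≤ ν Yw + ν Y / 2 := by
      rw [ENNReal.add_halves]
      exact h1.trans (by gcongr)
    exact (ENNReal.add_le_add_iff_right (ENNReal.div_ne_top hfin (by norm_num))).1 h2
  have hofhalf : ∀ x : ℝ, ENNReal.ofReal (x / 2) = ENNReal.ofReal x / 2 := fun x => by
    rw [ENNReal.ofReal_div_of_pos (by norm_num)]; norm_num
  -- STEP 3
  have hmass : ENNReal.ofReal (L ^ n / Kg) ≤ ν Yw := by
    refine le_trans ?_ hhalf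
    refine le_trans ?_ (ENNReal.div_le_div_right hlow 2)
    rw [← hofhalf]
    refine ENNReal.ofReal_le_ofReal ?_
    rw [div_div]
    exact div_le_div_of_nonneg_left (by positivity) (by positivity) (by linarith)
  have hWYw : ENNReal.ofReal (L / Kg) ≤ ENNReal.ofReal W * ν Yw := by
    calc ENNReal.ofReal (L / Kg) ≤ ENNReal.ofReal (L / K / 2) := by
          refine ENNReal.ofReal_le_ofReal ?_
          rw [div_div]
          exact div_le_div_of_nonneg_left hL0.le (by positivity) (by linarith)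
      _ = ENNReal.ofReal (L / K) / 2 := hofhalf _
      _ ≤ (ENNReal.ofReal W * ν Y) / 2 := ENNReal.div_le_div_right hWY 2
      _ = ENNReal.ofReal W * (ν Y / 2) := by rw [mul_div_assoc]
      _ ≤ ENNReal.ofReal W * ν Yw := by gcongr
  obtain ⟨Pl, hcard, hnorm, Z, hZ, hcov⟩ := hG Kg L (by linarith) hLg ν
    (fun z r hr => (hball z r hr).trans (ENNReal.ofReal_le_ofReal (by gcongr; linarith)))
    w hw hw1 a v hv1
    (fun α j => by
      obtain ⟨k, hk, hle⟩ := hv2 α j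
      exact ⟨k, hk, le_trans (one_div_le_one_div_of_le hK0 (by linarith)) hle⟩)
    Yw ((hYwY.trans hY).trans (closedBall_subset_closedBall (by gcongr; linarith))) hmass
    W hW hWYw r0 hr1 (by linarith) cls heavy
    (fun y hy => H1 y (hYwY hy)) (fun y hy => (QX y (hYwY hy)).mono_const (by linarith))
    J P (by linarith) (fun i => (hdeg i).trans (by linarith))
    (fun y hy => by
      obtain ⟨i, h1, h2⟩ := hRW y hy
      have hle : ENNReal.ofReal (r0 ^ (n + 1) / Kg) ≤ ENNReal.ofReal (r0 ^ (n + 1) / K1) :=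
        ENNReal.ofReal_le_ofReal (div_le_div_of_nonneg_left (by positivity) hK1pos (by linarith))
      exact ⟨i, hle.trans h1, hle.trans h2⟩)
  -- STEP 4
  refine ⟨le_trans (ENNReal.ofReal_le_ofReal (div_le_div_of_nonneg_left (by positivity) hK1pos hK1KC)) hlow, ?_⟩
  refine ⟨Pl, hcard.trans hKgKC, hnorm, Z ∪ (Y \ Yw), ?_, ?_⟩
  · calc ν (Z ∪ (Y \ Yw)) ≤ ν Z + ν (Y \ Yw) := measure_union_le _ _
      _ ≤ ENNReal.ofReal (1 / Kg) * ν Yw + ν Y / 2 := add_le_add hZ hYw2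
      _ ≤ ENNReal.ofReal (1 / 4) * ν Y + ENNReal.ofReal (1 / 2) * ν Y := by
          refine add_le_add (mul_le_mul' (ENNReal.ofReal_le_ofReal ?_) (measure_mono hYwY)) (le_of_eq ?_)
          · exact one_div_le_one_div_of_le (by norm_num) (by linarith)
          · rw [hofhalf, ENNReal.ofReal_one, ENNReal.div_eq_inv_mul, ENNReal.div_eq_inv_mul, mul_one]
      _ = ENNReal.ofReal (3 / 4) * ν Y := by
          rw [← add_mul, ← ENNReal.ofReal_add (by norm_num) (by norm_num)]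
          norm_num
  · intro y hy hyZ
    have hyw : y ∈ Yw := by
      by_contra hcon
      exact hyZ (Or.inr ⟨hy, hcon⟩)
    obtain ⟨π, hπ, hle⟩ := hcov y hyw (fun h => hyZ (Or.inl h))
    exact ⟨π, hπ, hle.trans hKgKC⟩

theorem wk_prod_sub_le {ι : Type} (s : Finset ι) (a b : ι → ℝ) (ha : ∀ i ∈ s, |a i| ≤ 1) (hb : ∀ i ∈ s, |b i| ≤ 1) :
    |∏ i ∈ s, a i - ∏ i ∈ s, b i| ≤ ∑ i ∈ s, |a i - b i| := by
  classical
  induction s using Finset.induction_on with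
  | empty => simp
  | insert i s hi ih =>
    rw [Finset.prod_insert hi, Finset.prod_insert hi, Finset.sum_insert hi]
    have h1 : |∏ j ∈ s, a j| ≤ 1 := by
      rw [Finset.abs_prod]
      exact Finset.prod_le_one (fun j _ => abs_nonneg _) (fun j hj => ha j (Finset.mem_insert_of_mem hj))
    have e : a i * ∏ j ∈ s, a j - b i * ∏ j ∈ s, b j
        = (a i - b i) * ∏ j ∈ s, a j + b i * (∏ j ∈ s, a j - ∏ j ∈ s, b j) := by ring
    rw [e]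
    refine (abs_add_le _ _).trans (add_le_add ?_ ?_)
    · rw [abs_mul]; exact mul_le_of_le_one_right (abs_nonneg _) h1
    · rw [abs_mul]
      calc |b i| * |∏ j ∈ s, a j - ∏ j ∈ s, b j| ≤ 1 * |∏ j ∈ s, a j - ∏ j ∈ s, b j| :=
            mul_le_mul_of_nonneg_right (hb i (Finset.mem_insert_self _ _)) (abs_nonneg _)
        _ ≤ ∑ j ∈ s, |a j - b j| := by
            rw [one_mul]
            exact ih (fun j hj => ha j (Finset.mem_insert_of_mem hj)) (fun j hj => hb j (Finset.mem_insert_of_mem hj))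

/-- **LEAF L-257-WK-DET (the determinant is Lipschitz).**   `Matrix.det_apply`; for every permutation `|∏ A (σ i) i - ∏ B (σ i) i| ≤ n ε` (induction over the `Finset`: `|∏ a - ∏ b| ≤ ∑ |a i - b i|` if `|a i|, |b i| ≤ 1`);
`|sign| = 1`; `Fintype.card_perm`, `Fintype.card_fin`. -/
theorem wk_det_lip {n : ℕ} (A B : Matrix (Fin n) (Fin n) ℝ) (ε : ℝ) (hA : ∀ i j, |A i j| ≤ 1) (hB : ∀ i j, |B i j| ≤ 1)
    (hAB : ∀ i j, |A i j - B i j| ≤ ε) : |A.det - B.det| ≤ n * n.factorial * ε := by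
  rw [Matrix.det_apply, Matrix.det_apply, ← Finset.sum_sub_distrib]
  calc |∑ σ : Equiv.Perm (Fin n), (Equiv.Perm.sign σ • ∏ i, A (σ i) i - Equiv.Perm.sign σ • ∏ i, B (σ i) i)|
      ≤ ∑ σ : Equiv.Perm (Fin n), |Equiv.Perm.sign σ • ∏ i, A (σ i) i - Equiv.Perm.sign σ • ∏ i, B (σ i) i| :=
        Finset.abs_sum_le_sum_abs _ _
    _ ≤ ∑ _σ : Equiv.Perm (Fin n), (n : ℝ) * ε := by
        refine Finset.sum_le_sum fun σ _ => ?_
        have h1 : |Equiv.Perm.sign σ • ∏ i, A (σ i) i - Equiv.Perm.sign σ • ∏ i, B (σ i) i|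
            = |∏ i, A (σ i) i - ∏ i, B (σ i) i| := by
          rcases Int.units_eq_one_or (Equiv.Perm.sign σ) with h | h
          · rw [h, one_smul, one_smul]
          · rw [h, Units.neg_smul, Units.neg_smul, one_smul, one_smul, neg_sub_neg, abs_sub_comm]
        rw [h1]
        calc |∏ i, A (σ i) i - ∏ i, B (σ i) i| ≤ ∑ i, |A (σ i) i - B (σ i) i| :=
              wk_prod_sub_le _ _ _ (fun i _ => hA _ _) (fun i _ => hB _ _)
          _ ≤ ∑ _i : Fin n, ε := Finset.sum_le_sum fun i _ => hAB _ _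
          _ = n * ε := by simp
    _ = n * n.factorial * ε := by
        rw [Finset.sum_const, Finset.card_univ, Fintype.card_perm, Fintype.card_fin, nsmul_eq_mul]
        ring

/-- the shear parameter -/
noncomputable def wkS (U₀ : ℝ) : ℝ := U₀ + 1

/-- the normalisation of the directions -/
noncomputable def wkSig (U₀ : ℝ) : ℝ := 1 / (2 * U₀ + 2)

/-- the mesh of the fine grid of velocities -/
noncomputable def wkDel (n : ℕ) (U₀ δ : ℝ) : ℝ := (wkSig U₀ * δ) ^ (n - 1) / (8 * n * (n + 1).factorial)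

theorem wk_sig_num (U₀ : ℝ) (hU : 1 ≤ U₀) : 0 < wkSig U₀ ∧ wkSig U₀ ≤ 1 ∧ wkSig U₀ * (2 * U₀ + 2) = 1 := by
  unfold wkSig
  have h0 : (0 : ℝ) < 2 * U₀ + 2 := by linarith
  refine ⟨by positivity, ?_, by field_simp⟩
  rw [div_le_one h0]
  linarith

theorem wk_del_num (n : ℕ) (hn : 2 ≤ n) (U₀ δ : ℝ) (hU : 1 ≤ U₀) (hδ : 0 < δ) (hδ1 : δ ≤ 1) :
    0 < wkDel n U₀ δ ∧ wkDel n U₀ δ ≤ δ ∧
      n * n.factorial * (wkSig U₀ * wkDel n U₀ δ) ≤ wkSig U₀ ^ n * δ ^ (n - 1) / 2 := by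
  obtain ⟨hσ0, hσ1, -⟩ := wk_sig_num U₀ hU
  obtain ⟨m, rfl⟩ : ∃ m, n = m + 2 := ⟨n - 2, by omega⟩
  have e1 : m + 2 - 1 = m + 1 := by omega
  unfold wkDel
  rw [e1]
  obtain ⟨σ, hσ⟩ : ∃ σ, σ = wkSig U₀ := ⟨_, rfl⟩
  rw [← hσ] at hσ0 hσ1 ⊢
  have hF : (0 : ℝ) < ((m + 2).factorial : ℝ) := by exact_mod_cast Nat.factorial_pos _
  have hF1 : (1 : ℝ) ≤ ((m + 2 + 1).factorial : ℝ) := by exact_mod_cast Nat.one_le_iff_ne_zero.2 (Nat.factorial_ne_zero _)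
  have hFs : ((m + 2 + 1).factorial : ℝ) = ((m : ℝ) + 3) * ((m + 2).factorial : ℝ) := by
    rw [Nat.factorial_succ]; push_cast; ring
  have hm : (0 : ℝ) ≤ m := Nat.cast_nonneg m
  have hn0 : (0 : ℝ) < ((m + 2 : ℕ) : ℝ) := by positivity
  have hden : (1 : ℝ) ≤ 8 * ((m + 2 : ℕ) : ℝ) * ((m + 2 + 1).factorial : ℝ) := by
    have : (1 : ℝ) ≤ 8 * ((m + 2 : ℕ) : ℝ) := by push_cast; linarith
    calc (1 : ℝ) = 1 * 1 := by norm_num
      _ ≤ _ := mul_le_mul this hF1 (by norm_num) (by positivity)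
  have hsd0 : 0 < σ * δ := by positivity
  have hsd1 : σ * δ ≤ δ := by nlinarith
  have hsd2 : σ * δ ≤ 1 := by linarith
  refine ⟨by positivity, ?_, ?_⟩
  · calc (σ * δ) ^ (m + 1) / (8 * ((m + 2 : ℕ) : ℝ) * ((m + 2 + 1).factorial : ℝ)) ≤ (σ * δ) ^ (m + 1) :=
          div_le_self (by positivity) hden
      _ ≤ (σ * δ) ^ 1 := pow_le_pow_of_le_one hsd0.le hsd2 (by omega)
      _ = σ * δ := pow_one _
      _ ≤ δ := hsd1
  · have e2 : ((m + 2 : ℕ) : ℝ) * ((m + 2).factorial : ℝ) * (σ * ((σ * δ) ^ (m + 1) / (8 * ((m + 2 : ℕ) : ℝ) * ((m + 2 + 1).factorial : ℝ))))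
        = σ ^ (m + 2) * δ ^ (m + 1) / (8 * ((m : ℝ) + 3)) := by
      rw [hFs, mul_pow]
      field_simp
      ring
    rw [e2]
    have hθ : 0 ≤ σ ^ (m + 2) * δ ^ (m + 1) := by positivity
    exact div_le_div_of_nonneg_left hθ (by norm_num) (by linarith)

theorem wk_entry {n : ℕ} (σ s : ℝ) (v : Fin n → ℝ) :
    (σ • wsh s (wqDir v)) (Fin.last n) = σ ∧ ∀ i : Fin n, (σ • wsh s (wqDir v)) i.castSucc = σ * (v i + s) := by
  rw [wsh_wqDir]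
  constructor
  · simp [wqDir]
  · intro i
    simp [wqDir]

theorem wk_entry_le {n : ℕ} (U₀ : ℝ) (hU : 1 ≤ U₀) (v : Fin n → ℝ) (hv : ∀ i, |v i| ≤ U₀ + 1) (j : Fin (n + 1)) :
    |(wkSig U₀ • wsh (wkS U₀) (wqDir v)) j| ≤ 1 := by
  obtain ⟨hσ0, hσ1, hσ2⟩ := wk_sig_num U₀ hU
  obtain ⟨e1, e2⟩ := wk_entry (wkSig U₀) (wkS U₀) v
  refine Fin.lastCases ?_ (fun i => ?_) j
  · rw [e1, abs_of_pos hσ0]; exact hσ1
  · rw [e2, abs_mul, abs_of_pos hσ0]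
    have h1 : |v i + wkS U₀| ≤ 2 * U₀ + 2 := by
      unfold wkS
      have := hv i
      rw [abs_le] at this ⊢
      constructor <;> linarith [this.1, this.2]
    calc wkSig U₀ * |v i + wkS U₀| ≤ wkSig U₀ * (2 * U₀ + 2) := mul_le_mul_of_nonneg_left h1 hσ0.le
      _ = 1 := hσ2

theorem wk_entry_diff {n : ℕ} (U₀ : ℝ) (hU : 1 ≤ U₀) (v v' : Fin n → ℝ) (e : ℝ) (he : 0 ≤ e) (hv : ∀ i, |v i - v' i| ≤ e) (j : Fin (n + 1)) :
    |(wkSig U₀ • wsh (wkS U₀) (wqDir v)) j - (wkSig U₀ • wsh (wkS U₀) (wqDir v')) j| ≤ wkSig U₀ * e := by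
  obtain ⟨hσ0, hσ1, hσ2⟩ := wk_sig_num U₀ hU
  obtain ⟨e1, e2⟩ := wk_entry (wkSig U₀) (wkS U₀) v
  obtain ⟨e1', e2'⟩ := wk_entry (wkSig U₀) (wkS U₀) v'
  refine Fin.lastCases ?_ (fun i => ?_) j
  · rw [e1, e1', sub_self, abs_zero]; positivity
  · rw [e2, e2']
    have : wkSig U₀ * (v i + wkS U₀) - wkSig U₀ * (v' i + wkS U₀) = wkSig U₀ * (v i - v' i) := by ring
    rw [this, abs_mul, abs_of_pos hσ0]
    exact mul_le_mul_of_nonneg_left (hv i) hσ0.le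

open Classical in
/-- **LEAF L-257-WK-FRAME: (H1) + (H2) ⟹ heavy fine bins with a robust tuple, for the sheared data, at one point `y`.**   `s = wkS U₀`, `σ = wkSig U₀`, `δ' = wkDel n U₀ δ ≤ δ`, `G = wtGrid n U₀ δ'`; `cls' α ∈ G` = a grid point within `δ'` of `u α`.
`hv' = {z | W / card G / 2 ≤ ∑ α, if cls' α = z ∧ y ∈ tube (a α) (wqDir (u α)) r0 then w α else 0}`.
(a) For `b ∈ hv`: `wt_pigeon` (`p α = cls α = b ∧ y ∈ tube ..`, `R α z = (cls' α = z)`, `W₁ = W/2`) gives `z ∈ G` with `W/2/card G ≤ ∑ [p ∧ R] w ≤ ∑ [cls' = z ∧ tube] w`, so `z ∈ hv'`; the sum is `> 0`, so some `α` has `cls α = b`, `cls' α = z`, whence `|cen b i - z i| ≤ δ + δ' ≤ 2δ`.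
(b) `NarrowA hv' δ` would give `NarrowA (cen '' hv) (3δ)` (`NarrowA.nbhd`); so `¬ NarrowA hv' δ`, and `¬ NarrowA ((· + s 𝟙) '' hv') δ` (`NarrowA.translate` by `-s 𝟙`, `Set.image_image`).
(c) `wt_tuple` (`h = δ`): `z_i ∈ hv'`, `l`, `δ^(n-1) ≤ |det (wqDir (z_i + s 𝟙)) (l.succAbove k)|`.   `c i = σ • wsh s (wqDir (z_i)) = σ • wqDir (z_i + s 𝟙)` (`wsh_wqDir`); the determinant is multiplied by `σ^n` (`Matrix.det_smul`, `Fintype.card_fin`): `|det c| ≥ θ = σ^n δ^(n-1)`.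
(d) labels `al i` of class `z_i`: all entries of `σ • wsh s (wqDir (u (al i)))` and of `c i` are `≤ 1` in modulus (`|u| ≤ U₀`, `|z| ≤ U₀ + δ' ≤ U₀ + 1` if `z ∈ G`), they differ by `≤ σ δ'`; `wk_det_lip`: the determinants differ by `≤ n n! σ δ' = θ/(8 (n+1)) ≤ θ/2`.
(e) weights: `ws_tube`; `Finset.sum_le_sum`, `hw`. -/
theorem wk_frame {n : ℕ} (hn : 2 ≤ n) (U₀ : ℝ) (hU : 1 ≤ U₀) {ι β : Type} [Fintype ι] (w : ι → ℝ) (hw : ∀ α, 0 ≤ w α)
    (a : ι → Fin (n + 1) → ℝ) (u : ι → Fin n → ℝ) (hu : ∀ α i, |u α i| ≤ U₀) (cls : ι → β) (cen : β → Fin n → ℝ)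
    (δ : ℝ) (hδ : 0 < δ) (hδ1 : δ ≤ 1) (hcen : ∀ α i, |u α i - cen (cls α) i| ≤ δ)
    (cls' : ι → Fin n → ℝ) (hcls' : ∀ α, cls' α ∈ wtGrid n U₀ (wkDel n U₀ δ) ∧ ∀ i, |u α i - cls' α i| ≤ wkDel n U₀ δ)
    (W r0 : ℝ) (hW : 0 < W) (y : Fin (n + 1) → ℝ) (hv : Set β)
    (H1 : ∀ b ∈ hv, W / 2 ≤ ∑ α, if cls α = b ∧ y ∈ MK.tube (a α) (wqDir (u α)) r0 then w α else 0)
    (H2 : ¬ NarrowA (cen '' hv) (3 * δ)) :
    ∃ b : Fin n → Fin n → ℝ,
      (∀ i, W / (wtGrid n U₀ (wkDel n U₀ δ)).card / 2 ≤ ∑ α, if cls' α = b i ∧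
        wsh (wkS U₀) y ∈ MK.tube (wsh (wkS U₀) (a α)) (wkSig U₀ • wsh (wkS U₀) (wqDir (u α))) ((1 + |wkS U₀|) * r0) then w α else 0) ∧
      ∃ l : Fin (n + 1), ∀ al : Fin n → ι, (∀ i, cls' (al i) = b i) →
        wkSig U₀ ^ n * δ ^ (n - 1) / 2 ≤
          |Matrix.det (Matrix.of fun i k => (wkSig U₀ • wsh (wkS U₀) (wqDir (u (al i)))) (l.succAbove k))| := by
  obtain ⟨hσ0, hσ1, hσ2⟩ := wk_sig_num U₀ hU
  obtain ⟨hd0, hd1, hd2⟩ := wk_del_num n hn U₀ δ hU hδ hδ1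
  obtain ⟨G, hG⟩ : ∃ G, G = wtGrid n U₀ (wkDel n U₀ δ) := ⟨_, rfl⟩
  obtain ⟨δ', hδ'⟩ : ∃ δ', δ' = wkDel n U₀ δ := ⟨_, rfl⟩
  have hGb : ∀ z ∈ G, ∀ i, |z i| ≤ U₀ + 1 := by
    intro z hz i
    rw [hG] at hz
    have := (wtGrid_spec n U₀ (wkDel n U₀ δ) (by linarith) hd0).2.2 z hz i
    linarith
  rw [← hG] at hcls' ⊢
  rw [← hδ'] at hcls' hd0 hd1 hd2
  obtain ⟨hv', hhv'⟩ : ∃ hv' : Set (Fin n → ℝ),
      hv' = {z | W / G.card / 2 ≤ ∑ α, if cls' α = z ∧ y ∈ MK.tube (a α) (wqDir (u α)) r0 then w α else 0} := ⟨_, rfl⟩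
  -- (a)
  have ha : ∀ c ∈ cen '' hv, ∃ c' ∈ hv', ∀ i, |c i - c' i| ≤ 2 * δ := by
    rintro _ ⟨b, hb, rfl⟩
    obtain ⟨z, hzG, hz⟩ := wt_pigeon G w hw (fun α => cls α = b ∧ y ∈ MK.tube (a α) (wqDir (u α)) r0) (fun α z => cls' α = z)
      (fun α _ => ⟨cls' α, (hcls' α).1, rfl⟩) (W / 2) (by positivity) (by convert H1 b hb)
    have hcard : (0 : ℝ) < G.card := by exact_mod_cast Finset.card_pos.2 ⟨z, hzG⟩
    have hpos : 0 < W / 2 / G.card := by positivity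
    refine ⟨z, ?_, ?_⟩
    · rw [hhv']
      show W / G.card / 2 ≤ _
      rw [div_right_comm]
      refine hz.trans (Finset.sum_le_sum fun α _ => ?_)
      by_cases h1 : (cls α = b ∧ y ∈ MK.tube (a α) (wqDir (u α)) r0) ∧ cls' α = z
      · rw [if_pos h1, if_pos ⟨h1.2, h1.1.2⟩]
      · rw [if_neg h1]
        split_ifs
        · exact hw α
        · exact le_rfl
    · have hex : ∃ α, (cls α = b ∧ y ∈ MK.tube (a α) (wqDir (u α)) r0) ∧ cls' α = z := by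
        by_contra hcon
        push Not at hcon
        refine lt_irrefl _ (hpos.trans_le (hz.trans (Finset.sum_nonpos fun α _ => ?_)))
        rw [if_neg (fun h => hcon α h.1 h.2)]
      obtain ⟨α, ⟨hα1, -⟩, hα2⟩ := hex
      intro i
      have h1 := hcen α i
      have h2 := (hcls' α).2 i
      rw [hα1] at h1
      rw [hα2] at h2
      have : cen b i - z i = -(u α i - cen b i) + (u α i - z i) := by ring
      rw [this]
      refine (abs_add_le _ _).trans ?_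
      rw [abs_neg]
      linarith
  -- (b)
  have hb1 : ¬ NarrowA hv' δ := by
    intro hN
    have := hN.nbhd ha
    have e : δ + 2 * δ = 3 * δ := by ring
    rw [e] at this
    exact H2 this
  have hb2 : ¬ NarrowA ((fun z : Fin n → ℝ => z + fun _ => wkS U₀) '' hv') δ := by
    intro hN
    have := hN.translate (fun _ => -wkS U₀)
    rw [Set.image_image] at this
    have e : (fun z : Fin n → ℝ => (z + fun _ => wkS U₀) + fun _ => -wkS U₀) '' hv' = hv' := by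
      have : (fun z : Fin n → ℝ => (z + fun _ => wkS U₀) + fun _ => -wkS U₀) = id := by
        funext z i
        simp
      rw [this, Set.image_id]
    rw [e] at this
    exact hb1 this
  -- (c)
  obtain ⟨c, hc, l, hl⟩ := wt_tuple (by omega) _ δ hδ hb2
  choose z hz hzc using hc
  refine ⟨z, fun i => ?_, l, fun al hal => ?_⟩
  · have h1 := hz i
    rw [hhv'] at h1
    refine le_trans h1 (Finset.sum_le_sum fun α _ => ?_)
    by_cases h2 : cls' α = z i ∧ y ∈ MK.tube (a α) (wqDir (u α)) r0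
    · rw [if_pos h2, if_pos ⟨h2.1, ws_tube _ _ _ hσ0.ne' _ _ _ h2.2⟩]
    · rw [if_neg h2]
      split_ifs
      · exact hw α
      · exact le_rfl
  · obtain ⟨A, hA⟩ : ∃ A : Matrix (Fin n) (Fin n) ℝ,
        A = Matrix.of fun i k => (wkSig U₀ • wsh (wkS U₀) (wqDir (u (al i)))) (l.succAbove k) := ⟨_, rfl⟩
    obtain ⟨B, hB⟩ : ∃ B : Matrix (Fin n) (Fin n) ℝ,
        B = Matrix.of fun i k => (wkSig U₀ • wsh (wkS U₀) (wqDir (z i))) (l.succAbove k) := ⟨_, rfl⟩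
    rw [← hA]
    have hBdet : wkSig U₀ ^ n * δ ^ (n - 1) ≤ |B.det| := by
      have e : B = wkSig U₀ • Matrix.of fun i k : Fin n => wqDir (c i) (l.succAbove k) := by
        rw [hB]
        ext i k
        have h1 : wsh (wkS U₀) (wqDir (z i)) = wqDir (c i) := by
          rw [wsh_wqDir, ← hzc i]
          rfl
        simp only [Matrix.of_apply, Matrix.smul_apply, Pi.smul_apply, h1]
      rw [e, Matrix.det_smul, Fintype.card_fin, abs_mul, abs_of_pos (pow_pos hσ0 n)]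
      exact mul_le_mul_of_nonneg_left hl (pow_pos hσ0 n).le
    have hzG : ∀ i, z i ∈ G := fun i => hal i ▸ (hcls' (al i)).1
    have hlip := wk_det_lip A B (wkSig U₀ * δ')
      (fun i j => by
        rw [hA]
        exact wk_entry_le U₀ hU _ (fun m => (hu (al i) m).trans (by linarith)) _)
      (fun i j => by
        rw [hB]
        exact wk_entry_le U₀ hU _ (hGb _ (hzG i)) _)
      (fun i j => by
        rw [hA, hB]
        refine wk_entry_diff U₀ hU _ _ δ' hd0.le (fun m => ?_) _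
        have := (hcls' (al i)).2 m
        rwa [hal i] at this)
    have h3 : |B.det| ≤ |A.det| + |A.det - B.det| := by
      have := abs_sub (A.det) (A.det - B.det)
      simpa using this
    linarith

theorem wk_num_aux (c : ℝ) (e : ℕ) : ∃ N : ℕ, ∀ K : ℝ, 2 ≤ K → c * K ^ e ≤ K ^ N := by
  obtain ⟨m, hm⟩ := pow_unbounded_of_one_lt c (one_lt_two : (1 : ℝ) < 2)
  refine ⟨m + e, fun K hK => ?_⟩
  rw [pow_add]
  refine mul_le_mul_of_nonneg_right ?_ (by positivity)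
  exact hm.le.trans (pow_le_pow_left₀ (by norm_num) hK m)

/-- **LEAF L-257-WK-NUM (numerology).**   Every left side is `≤ c K^e` with `c = c(n, U₀) ≥ 1`, `e = e(n) ∈ ℕ` (`1/δ, 1/τ ≤ K`; `1/δ' = 8 n (n+1)! (2U₀+2)^(n-1) (1/δ)^(n-1)`).   Choose `N` with `c ≤ 2^N` (`pow_unbounded_of_one_lt`) for the largest `c`; `C₁ = N + e_max`;
`c K^e ≤ 2^N K^e ≤ K^(N+e) ≤ K^C₁`.   (A calculus for "polynomially bounded in `K`": `WgNB` in `WG/Main.lean`, `WaP` in `Wall/AExit.lean`.) -/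
theorem wk_num (n : ℕ) (hn : 2 ≤ n) (U₀ : ℝ) (hU : 1 ≤ U₀) : ∃ C₁ : ℕ, 1 ≤ C₁ ∧ ∀ (K δ τ : ℝ), 2 ≤ K → 1 / K ≤ δ → δ ≤ 1 → 1 / K ≤ τ → τ ≤ 1 →
    K * (1 + |wkS U₀|) ^ n ≤ K ^ C₁ ∧ 2 * U₀ + 2 ≤ K ^ C₁ ∧ (1 + |wkS U₀|) * K ≤ K ^ C₁ ∧
    wqC n U₀ / (δ * τ) * (((n + 1 : ℕ) : ℝ) ^ 6 * (1 + wkS U₀) ^ 5 / wkSig U₀ ^ 2) ≤ K ^ C₁ ∧
    (2 * U₀ / wkDel n U₀ δ + 3) ^ n ≤ K ^ C₁ ∧ 1 / K ^ C₁ ≤ wkSig U₀ ^ n * δ ^ (n - 1) / 2 ∧ 1 + n * wkS U₀ ≤ K ^ C₁ := by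
  have hs : 0 < wkS U₀ := by unfold wkS; linarith
  have hσ : 0 < wkSig U₀ := by unfold wkSig; exact div_pos one_pos (by linarith)
  obtain ⟨s, hsdef⟩ : ∃ s, s = wkS U₀ := ⟨_, rfl⟩
  obtain ⟨σ, hσdef⟩ : ∃ σ, σ = wkSig U₀ := ⟨_, rfl⟩
  have hDel : ∀ δ, wkDel n U₀ δ = (σ * δ) ^ (n - 1) / (8 * n * (n + 1).factorial) := by
    intro δ; rw [hσdef]; rfl
  simp only [hDel]
  rw [← hsdef] at hs ⊢
  rw [← hσdef] at hσ ⊢
  have hnR : (0 : ℝ) < n := by exact_mod_cast (by omega : 0 < n)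
  have hfac : (0 : ℝ) < (n + 1).factorial := by exact_mod_cast Nat.factorial_pos _
  obtain ⟨D, hD⟩ : ∃ D : ℝ, D = 8 * n * (n + 1).factorial * (1 / σ) ^ (n - 1) := ⟨_, rfl⟩
  have hD0 : 0 < D := by rw [hD]; positivity
  obtain ⟨X, hX⟩ : ∃ X : ℝ, X = ((n + 1 : ℕ) : ℝ) ^ 6 * (1 + s) ^ 5 / σ ^ 2 := ⟨_, rfl⟩
  have hX0 : 0 ≤ X := by rw [hX]; positivity
  rw [← hX]
  obtain ⟨N1, h1⟩ := wk_num_aux ((1 + |s|) ^ n) 1
  obtain ⟨N2, h2⟩ := wk_num_aux (2 * U₀ + 2) 0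
  obtain ⟨N3, h3⟩ := wk_num_aux (1 + |s|) 1
  obtain ⟨N4, h4⟩ := wk_num_aux (|wqC n U₀| * X) 2
  obtain ⟨N5, h5⟩ := wk_num_aux ((2 * U₀ * D + 3) ^ n) ((n - 1) * n)
  obtain ⟨N6, h6⟩ := wk_num_aux (2 * (1 / σ) ^ n) (n - 1)
  obtain ⟨N7, h7⟩ := wk_num_aux (1 + n * s) 0
  obtain ⟨C₁, hC₁⟩ : ∃ C₁ : ℕ, C₁ = 1 + N1 + N2 + N3 + N4 + N5 + N6 + N7 := ⟨_, rfl⟩
  refine ⟨C₁, by omega, ?_⟩
  intro K δ τ hK hδ hδ1 hτ hτ1
  have hK0 : 0 < K := by linarith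
  have hK1 : 1 ≤ K := by linarith
  have hmono : ∀ N, N ≤ C₁ → K ^ N ≤ K ^ C₁ := fun N hN => pow_le_pow_right₀ hK1 hN
  have hδ0 : 0 < δ := lt_of_lt_of_le (by positivity) hδ
  have hτ0 : 0 < τ := lt_of_lt_of_le (by positivity) hτ
  have hδK : 1 / δ ≤ K := by
    rw [div_le_iff₀ hδ0]; rw [div_le_iff₀ hK0] at hδ; linarith
  have hτK : 1 / τ ≤ K := by
    rw [div_le_iff₀ hτ0]; rw [div_le_iff₀ hK0] at hτ; linarith
  have hδi0 : 0 < 1 / δ := by positivity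
  have hτi0 : 0 < 1 / τ := by positivity
  have hδpow : (1 / δ) ^ (n - 1) ≤ K ^ (n - 1) := pow_le_pow_left₀ hδi0.le hδK _
  refine ⟨?_, ?_, ?_, ?_, ?_, ?_, ?_⟩
  · have := h1 K hK
    rw [pow_one] at this
    calc K * (1 + |s|) ^ n = (1 + |s|) ^ n * K := mul_comm _ _
      _ ≤ K ^ N1 := this
      _ ≤ K ^ C₁ := hmono _ (by omega)
  · have := h2 K hK
    rw [pow_zero, mul_one] at this
    exact this.trans (hmono _ (by omega))
  · have := h3 K hK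
    rw [pow_one] at this
    exact this.trans (hmono _ (by omega))
  · have h := h4 K hK
    refine le_trans ?_ (h.trans (hmono _ (by omega)))
    have e1 : wqC n U₀ / (δ * τ) ≤ |wqC n U₀| * K ^ 2 := by
      calc wqC n U₀ / (δ * τ) ≤ |wqC n U₀| / (δ * τ) :=
            div_le_div_of_nonneg_right (le_abs_self _) (by positivity)
        _ = |wqC n U₀| * ((1 / δ) * (1 / τ)) := by field_simp
        _ ≤ |wqC n U₀| * (K * K) :=
            mul_le_mul_of_nonneg_left (mul_le_mul hδK hτK hτi0.le hK0.le) (abs_nonneg _)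
        _ = |wqC n U₀| * K ^ 2 := by ring
    calc wqC n U₀ / (δ * τ) * X ≤ |wqC n U₀| * K ^ 2 * X := mul_le_mul_of_nonneg_right e1 hX0
      _ = |wqC n U₀| * X * K ^ 2 := by ring
  · have h := h5 K hK
    refine le_trans ?_ (h.trans (hmono _ (by omega)))
    have hKp : 1 ≤ K ^ (n - 1) := one_le_pow₀ hK1
    have e1 : 2 * U₀ / ((σ * δ) ^ (n - 1) / (8 * n * (n + 1).factorial)) = 2 * U₀ * (D * (1 / δ) ^ (n - 1)) := by
      rw [hD, mul_pow, one_div_pow, one_div_pow]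
      field_simp
    have e2 : 2 * U₀ / ((σ * δ) ^ (n - 1) / (8 * n * (n + 1).factorial)) + 3 ≤ (2 * U₀ * D + 3) * K ^ (n - 1) := by
      rw [e1]
      have : 2 * U₀ * (D * (1 / δ) ^ (n - 1)) ≤ 2 * U₀ * (D * K ^ (n - 1)) :=
        mul_le_mul_of_nonneg_left (mul_le_mul_of_nonneg_left hδpow hD0.le) (by linarith)
      nlinarith
    have e3 : 0 ≤ 2 * U₀ / ((σ * δ) ^ (n - 1) / (8 * n * (n + 1).factorial)) + 3 := by
      have : 0 ≤ U₀ := by linarith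
      positivity
    calc (2 * U₀ / ((σ * δ) ^ (n - 1) / (8 * n * (n + 1).factorial)) + 3) ^ n
        ≤ ((2 * U₀ * D + 3) * K ^ (n - 1)) ^ n := pow_le_pow_left₀ e3 e2 n
      _ = (2 * U₀ * D + 3) ^ n * K ^ ((n - 1) * n) := by rw [mul_pow, ← pow_mul]
  · have h := (h6 K hK).trans (hmono _ (by omega))
    have hc : 0 < 2 * (1 / σ) ^ n * K ^ (n - 1) := by positivity
    calc 1 / K ^ C₁ ≤ 1 / (2 * (1 / σ) ^ n * K ^ (n - 1)) := one_div_le_one_div_of_le hc h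
      _ = σ ^ n * (1 / K) ^ (n - 1) / 2 := by
          rw [one_div_pow, one_div_pow]; field_simp
      _ ≤ σ ^ n * δ ^ (n - 1) / 2 := by
          have : (1 / K) ^ (n - 1) ≤ δ ^ (n - 1) := pow_le_pow_left₀ (by positivity) hδ _
          have h2 : σ ^ n * (1 / K) ^ (n - 1) ≤ σ ^ n * δ ^ (n - 1) :=
            mul_le_mul_of_nonneg_left this (by positivity)
          linarith
  · have := h7 K hK
    rw [pow_zero, mul_one] at this
    exact this.trans (hmono _ (by omega))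

open Classical in
/-- **THE EXIT OF THE WALL BLOCK** (statement) -/
def WcStmt (n : ℕ) (U₀ : ℝ) : Prop :=
  ∃ C : ℕ, ∀ (K L : ℝ), 2 ≤ K → K ^ C ≤ L →
    ∀ (ν : Measure (Fin (n + 1) → ℝ)) [IsFiniteMeasure ν],
    (∀ (z : Fin (n + 1) → ℝ) (r : ℝ), 1 ≤ r → ν (closedBall z r) ≤ ENNReal.ofReal (K * r ^ n)) →
    ∀ {ι β : Type} [Fintype ι] (w : ι → ℝ), (∀ α, 0 ≤ w α) → ∑ α, w α ≤ 1 →
    ∀ (a : ι → Fin (n + 1) → ℝ) (u : ι → Fin n → ℝ), (∀ α i, |u α i| ≤ U₀) →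
    ∀ (cls : ι → β) (cen : β → Fin n → ℝ) (δ τ : ℝ), 1 / K ≤ δ → δ ≤ 1 → 1 / K ≤ τ → τ ≤ 1 →
    (∀ α i, |u α i - cen (cls α) i| ≤ δ) →
    ∀ (Y : Set (Fin (n + 1) → ℝ)), Y ⊆ closedBall 0 (K * L) →
    ∀ (W : ℝ), 0 < W → ENNReal.ofReal (L / K) ≤ ENNReal.ofReal W * ν Y →
    ∀ (r0 : ℝ), 1 ≤ r0 → r0 ≤ K →
    ∀ (heavy : (Fin (n + 1) → ℝ) → Set β),
    (∀ y ∈ Y, ∀ b ∈ heavy y, W / 2 ≤ ∑ α, if cls α = b ∧ y ∈ MK.tube (a α) (wqDir (u α)) r0 then w α else 0) →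
    (∀ y ∈ Y, ¬ NarrowA (cen '' heavy y) (3 * δ)) →
    (∀ y ∈ Y, ¬ NarrowB (cen '' heavy y) (2 * δ) τ (wqK0 n U₀) (wqB0 n U₀)) →
    ENNReal.ofReal (L ^ n / K ^ C) ≤ ν Y ∧ WcPlates ν Y (K ^ C)

theorem wk_dir_castSucc {n : ℕ} (s σ : ℝ) (x : Fin n → ℝ) (i : Fin n) :
    (σ • wsh s (wqDir x)) i.castSucc = σ * (x i + s) := by
  simp [wsh_wqDir, wqDir]

theorem wk_dir_last {n : ℕ} (s σ : ℝ) (x : Fin n → ℝ) : (σ • wsh s (wqDir x)) (Fin.last n) = σ := by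
  simp [wsh_wqDir, wqDir]

open Classical in
/-- **LEAF L-257-WK-PAPER: assembly in paper coordinates.**   `Cc` from `wk_core n hn`, `C₁` from `wk_num`;  `C = C₁ (Cc + 1)`;  `K' = K^C₁`, `s = wkS U₀ = U₀ + 1 ≥ 0`, `σ = wkSig U₀`, `Θ = 1 + |s|`, `δ' = wkDel n U₀ δ > 0`, `G = wtGrid n U₀ δ'`.
Apply `wk_core` to `K', L`, `ν' = ν.map (wshE s)` (finite), `a' α = wsh s (a α)`, `v' α = σ • wsh s (wqDir (u α)) = σ • wqDir (u α + s 𝟙)`, `Y' = wsh s '' Y`, `W`, `r0' = Θ r0`, `cls`, `heavy' y' = heavy (wsh (-s) y')`;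
fine bins: `cls'` chosen by `wtGrid_spec` (`choose`), `heavyF y' = {z | W/card G/2 ≤ ∑ α, if cls' α = z ∧ y' ∈ tube (a' α) (v' α) r0' then w α else 0}`, `W' = W / card G`.
Checks:  balls `ws_ball` + hypothesis at radius `Θ r ≥ 1`;  `‖v' α‖ ≤ 1` (coordinates `σ (u α i + s) ∈ [σ, 1]`, last `σ`);  axis condition: `j = last`: `k = castSucc 0`, else `k = last`; both coordinates are `≥ σ ≥ 1/K'`;
`Y' ⊆ closedBall 0 (K' L)` (`wsh_norm_le`);  `ν' Y' = ν Y` (`ws_image`);  (H1) by `ws_tube` and monotonicity of the sums;  `WgQX`: `ws_qx` with `V b = {u α | cls α = b}`, rewrite the family, `WgQX.mono_const`;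
`W/K' ≤ W/card G` (`1 ≤ card G ≤ (2U₀/δ'+3)^n ≤ K'`; `G ≠ ∅` by the covering property);  fine (H1) holds by definition of `heavyF`;  tuple: `wk_frame` at every `y ∈ Y`, `1/K' ≤ σ^n δ^(n-1)/2`.
Back: `ws_plates`, `WcPlates.mono` (`(1 + n s) K'^Cc ≤ K'^(Cc+1)`). -/
theorem wall_main (n : ℕ) (hn : 2 ≤ n) (U₀ : ℝ) (hU : 1 ≤ U₀) : WcStmt n U₀ := by
  obtain ⟨Cc, hC⟩ := wk_core n hn
  obtain ⟨C₁, hC₁, hnum⟩ := wk_num n hn U₀ hU
  refine ⟨C₁ * (Cc + 1), ?_⟩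
  intro K L hK hL ν _ hball ι β _ w hw hw1 a u hu cls cen δ τ hδK hδ1 hτK hτ1 hcen Y hY W hW hWY r0 hr1 hrK heavy H1 H2 H3
  obtain ⟨N1, N2, N3, N4, N5, N6, N7⟩ := hnum K δ τ hK hδK hδ1 hτK hτ1
  have hK0 : 0 < K := by linarith
  have hδ0 : 0 < δ := lt_of_lt_of_le (by positivity) hδK
  have hτ0 : 0 < τ := lt_of_lt_of_le (by positivity) hτK
  obtain ⟨s, hs⟩ : ∃ s, s = wkS U₀ := ⟨_, rfl⟩
  obtain ⟨σ, hσ⟩ : ∃ σ, σ = wkSig U₀ := ⟨_, rfl⟩
  obtain ⟨δ', hδ'⟩ : ∃ δ', δ' = wkDel n U₀ δ := ⟨_, rfl⟩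
  obtain ⟨K', hK'⟩ : ∃ K', K' = K ^ C₁ := ⟨_, rfl⟩
  rw [← hs, ← hK'] at N1 N3 N7
  rw [← hK'] at N2
  rw [← hs, ← hσ, ← hK'] at N4
  rw [← hδ', ← hK'] at N5
  rw [← hσ, ← hK'] at N6
  have hsU : s = U₀ + 1 := by rw [hs, wkS]
  have hs0 : 0 ≤ s := by linarith
  have hsabs : |s| = s := abs_of_nonneg hs0
  have hσU : σ = 1 / (2 * U₀ + 2) := by rw [hσ, wkSig]
  have hσ0 : 0 < σ := by rw [hσU]; positivity
  have hσ1 : σ ≤ 1 := by
    rw [hσU, div_le_one (by positivity)]; linarith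
  have hδ'0 : 0 < δ' := by
    rw [hδ', wkDel, ← hσ]
    have : 0 < (n : ℝ) := by exact_mod_cast (by omega : 0 < n)
    positivity
  have hΘ1 : 1 ≤ 1 + |s| := by linarith [abs_nonneg s]
  have hKK' : K ≤ K' := by nlinarith
  have hK'0 : 0 < K' := by linarith
  have hσK' : 1 / K' ≤ σ := by
    rw [hσU]; exact one_div_le_one_div_of_le (by positivity) N2
  have hL0 : 0 < L := lt_of_lt_of_le (by positivity) hL
  have hpow : K ^ (C₁ * (Cc + 1)) = K' ^ Cc * K' := by rw [hK', pow_mul, pow_succ]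
  have hK'1 : 1 ≤ K' := by linarith
  have hK'c : 0 < K' ^ Cc := by positivity
  have hLK' : K' ^ Cc ≤ L := by
    refine le_trans ?_ hL
    rw [hpow]; exact le_mul_of_one_le_right hK'c.le hK'1
  -- the grid
  obtain ⟨G, hG⟩ : ∃ G, G = wtGrid n U₀ δ' := ⟨_, rfl⟩
  obtain ⟨hGcard, hGcov, -⟩ := wtGrid_spec n U₀ δ' (by linarith) hδ'0
  rw [← hG] at hGcard hGcov
  have hcl : ∀ α, ∃ z, z ∈ G ∧ ∀ i, |u α i - z i| ≤ δ' := fun α => by
    obtain ⟨z, hz, hz'⟩ := hGcov (u α) (hu α)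
    exact ⟨z, hz, hz'⟩
  choose cls' hcls' using hcl
  have hGpos : 0 < (G.card : ℝ) := by
    obtain ⟨z, hz, -⟩ := hGcov 0 (fun i => by simp; linarith)
    exact_mod_cast Finset.card_pos.2 ⟨z, hz⟩
  have hGK' : (G.card : ℝ) ≤ K' := hGcard.trans N5
  -- velocities
  have hu1 : ∀ α i, 1 ≤ u α i + s ∧ u α i + s ≤ 2 * U₀ + 1 := fun α i => by
    have := abs_le.1 (hu α i)
    constructor <;> linarith [this.1, this.2]
  have hcoord : ∀ α i, σ ≤ (σ • wsh s (wqDir (u α))) (Fin.castSucc i) ∧ (σ • wsh s (wqDir (u α))) (Fin.castSucc i) ≤ 1 := by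
    intro α i
    rw [wk_dir_castSucc]
    obtain ⟨h1, h2⟩ := hu1 α i
    refine ⟨by nlinarith, ?_⟩
    calc σ * (u α i + s) ≤ σ * (2 * U₀ + 2) := mul_le_mul_of_nonneg_left (by linarith) hσ0.le
      _ = 1 := by rw [hσU]; field_simp
  have h1 : ∀ (z : Fin (n + 1) → ℝ) (r : ℝ), 1 ≤ r → (ν.map (wshE s)) (closedBall z r) ≤ ENNReal.ofReal (K' * r ^ n) := by
    intro z r hr
    refine (ws_ball s ν z r).trans ((hball _ _ (one_le_mul_of_one_le_of_one_le hΘ1 hr)).trans (ENNReal.ofReal_le_ofReal ?_))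
    rw [mul_pow, ← mul_assoc]
    gcongr
  have h2 : ∀ α, ‖σ • wsh s (wqDir (u α))‖ ≤ 1 := by
    intro α
    refine (pi_norm_le_iff_of_nonneg zero_le_one).2 fun j => ?_
    refine Fin.lastCases ?_ (fun i => ?_) j
    · rw [wk_dir_last, Real.norm_eq_abs, abs_of_pos hσ0]; exact hσ1
    · rw [Real.norm_eq_abs, abs_of_nonneg (hσ0.le.trans (hcoord α i).1)]; exact (hcoord α i).2
  have h3 : ∀ (α : ι) (j : Fin (n + 1)), ∃ k, k ≠ j ∧ 1 / K' ≤ |(σ • wsh s (wqDir (u α))) k| := by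
    intro α j
    by_cases hj : j = Fin.last n
    · refine ⟨Fin.castSucc ⟨0, by omega⟩, ?_, ?_⟩
      · rw [hj]; exact (Fin.castSucc_lt_last _).ne
      · rw [abs_of_nonneg (hσ0.le.trans (hcoord α _).1)]
        exact hσK'.trans (hcoord α _).1
    · refine ⟨Fin.last n, fun h => hj h.symm, ?_⟩
      rw [wk_dir_last, abs_of_pos hσ0]; exact hσK'
  have h4 : wsh s '' Y ⊆ closedBall 0 (K' * L) := by
    rintro _ ⟨y, hy, rfl⟩
    have h1 := hY hy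
    rw [mem_closedBall, dist_zero_right] at h1 ⊢
    calc ‖wsh s y‖ ≤ (1 + |s|) * ‖y‖ := wsh_norm_le s y
      _ ≤ (1 + |s|) * (K * L) := by gcongr
      _ = ((1 + |s|) * K) * L := by ring
      _ ≤ K' * L := by gcongr
  have h5 : ENNReal.ofReal (L / K') ≤ ENNReal.ofReal W * (ν.map (wshE s)) (wsh s '' Y) := by
    rw [ws_image]
    refine le_trans (ENNReal.ofReal_le_ofReal ?_) hWY
    exact div_le_div_of_nonneg_left hL0.le hK0 hKK'
  have h6 : 1 ≤ (1 + |s|) * r0 := one_le_mul_of_one_le_of_one_le hΘ1 hr1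
  have h7 : (1 + |s|) * r0 ≤ K' := le_trans (by gcongr) N3
  have h8 : ∀ y' ∈ wsh s '' Y, ∀ b ∈ heavy (wsh (-s) y'), W / 2 ≤ ∑ α, if cls α = b ∧
      y' ∈ MK.tube (wsh s (a α)) (σ • wsh s (wqDir (u α))) ((1 + |s|) * r0) then w α else 0 := by
    rintro _ ⟨y, hy, rfl⟩ b hb
    rw [wsh_neg_wsh] at hb
    refine (H1 y hy b hb).trans (Finset.sum_le_sum fun α _ => ?_)
    by_cases h1 : cls α = b ∧ y ∈ MK.tube (a α) (wqDir (u α)) r0
    · rw [if_pos h1, if_pos ⟨h1.1, ws_tube s σ r0 hσ0.ne' _ _ _ h1.2⟩]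
    · rw [if_neg h1]
      split_ifs
      · exact hw α
      · exact le_rfl
  have h9 : ∀ y' ∈ wsh s '' Y, WgQX K' {V | ∃ b ∈ heavy (wsh (-s) y'), V = {x | ∃ α, cls α = b ∧ x = σ • wsh s (wqDir (u α))}} := by
    rintro _ ⟨y, hy, rfl⟩
    rw [wsh_neg_wsh]
    have hq := ws_qx n (by omega) U₀ (by linarith) s σ hs0 hσ0 hσ1 δ τ hδ0 hδ1 hτ0 hτ1 (heavy y) cen
      (fun b => {x | ∃ α, cls α = b ∧ x = u α})
      (by
        rintro b - x ⟨α, rfl, rfl⟩ i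
        exact ⟨hu α i, hcen α i⟩) (H3 y hy)
    have hq' := hq.mono_const N4
    have hset : {V : Set (Fin (n + 1) → ℝ) | ∃ b ∈ heavy y, V = {x | ∃ α, cls α = b ∧ x = σ • wsh s (wqDir (u α))}}
        = {S | ∃ b ∈ heavy y, S = (fun u => σ • wsh s (wqDir u)) '' {x | ∃ α, cls α = b ∧ x = u α}} := by
      have hb : ∀ b : β, {x : Fin (n + 1) → ℝ | ∃ α, cls α = b ∧ x = σ • wsh s (wqDir (u α))}
          = (fun u => σ • wsh s (wqDir u)) '' {x | ∃ α, cls α = b ∧ x = u α} := by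
        intro b
        ext x
        constructor
        · rintro ⟨α, h1, rfl⟩
          exact ⟨u α, ⟨α, h1, rfl⟩, rfl⟩
        · rintro ⟨_, ⟨α, h1, rfl⟩, rfl⟩
          exact ⟨α, h1, rfl⟩
      simp only [hb]
    rw [hset]
    exact hq'
  have h10 : W / K' ≤ W / G.card := div_le_div_of_nonneg_left hW.le hGpos hGK'
  obtain ⟨heavyF, hheavyF⟩ : ∃ heavyF : (Fin (n + 1) → ℝ) → Set (Fin n → ℝ), ∀ y' z, z ∈ heavyF y' ↔
      W / G.card / 2 ≤ ∑ α, if cls' α = z ∧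
        y' ∈ MK.tube (wsh s (a α)) (σ • wsh s (wqDir (u α))) ((1 + |s|) * r0) then w α else 0 :=
    ⟨fun y' => {z | W / G.card / 2 ≤ ∑ α, if cls' α = z ∧
        y' ∈ MK.tube (wsh s (a α)) (σ • wsh s (wqDir (u α))) ((1 + |s|) * r0) then w α else 0}, fun _ _ => Iff.rfl⟩
  have h11 : ∀ y' ∈ wsh s '' Y, ∀ b ∈ heavyF y', W / G.card / 2 ≤ ∑ α, if cls' α = b ∧
      y' ∈ MK.tube (wsh s (a α)) (σ • wsh s (wqDir (u α))) ((1 + |s|) * r0) then w α else 0 :=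
    fun y' _ b hb => (hheavyF y' b).1 hb
  have h12 : ∀ y' ∈ wsh s '' Y, ∃ b : Fin n → Fin n → ℝ, (∀ i, b i ∈ heavyF y') ∧ ∃ l : Fin (n + 1), ∀ al : Fin n → ι,
      (∀ i, cls' (al i) = b i) → 1 / K' ≤ |Matrix.det (Matrix.of fun i k => (σ • wsh s (wqDir (u (al i)))) (l.succAbove k))| := by
    rintro _ ⟨y, hy, rfl⟩
    obtain ⟨b, hb, l, hl⟩ := wk_frame hn U₀ hU w hw a u hu cls cen δ hδ0 hδ1 hcen cls'
      (by rw [← hδ', ← hG]; exact hcls') W r0 hW y (heavy y) (H1 y hy) (H2 y hy)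
    rw [← hs, ← hσ, ← hδ', ← hG] at hb
    rw [← hs, ← hσ] at hl
    exact ⟨b, fun i => (hheavyF _ _).2 (hb i), l, fun al hal => N6.trans (hl al hal)⟩
  have key := hC K' L (by linarith) hLK' (ν.map (wshE s)) h1 w hw hw1 (fun α => wsh s (a α))
    (fun α => σ • wsh s (wqDir (u α))) h2 h3 (wsh s '' Y) h4 W hW h5 ((1 + |s|) * r0) h6 h7
    cls (fun y' => heavy (wsh (-s) y')) h8 h9 cls' heavyF (W / G.card) h10
    (fun y' hy b hb => by convert h11 y' hy b hb) h12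
  obtain ⟨k1, k2⟩ := key
  rw [ws_image] at k1
  rw [hpow]
  refine ⟨le_trans (ENNReal.ofReal_le_ofReal ?_) k1, ?_⟩
  · exact div_le_div_of_nonneg_left (by positivity) hK'c (le_mul_of_one_le_right hK'c.le hK'1)
  · refine (ws_plates s hs0 ν Y _ hK'c.le k2).mono ?_
    rw [mul_comm]
    gcongr

end Claimed.Agent.R257
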