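import Claimed.Agent.R257.Wall.AVis

/-!
# R257/Wall, unit WALL-A, file 5: the smoothed measure, cell points and wall points            (architect helper18)
PAPER-FREE.  Every `sorry` is a leaf `L-WA-*`.  Statements are frozen (a FALSE statement: one line to helper18); auxiliary lemmas (prefix `wa_`) directly above your theorem; edit only your block.
-/

set_option autoImplicit false
open MeasureTheory Set Metric
open scoped BigOperators ENNReal

namespace Claimed.Agent.R257

open Claimed.Agent.MK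

/-- **LEAF L-WA-SM (1).**  The set `{(z, y) | dist y z ≤ r}` is closed, hence measurable; `measurable_measure_prodMk_left`. -/
theorem wa_sm_meas {d : ℕ} (ν : Measure (Fin d → ℝ)) [SFinite ν] (r : ℝ) : Measurable fun z : Fin d → ℝ => ν (closedBall z r) := by
  have hs : MeasurableSet {p : (Fin d → ℝ) × (Fin d → ℝ) | dist p.2 p.1 ≤ r} :=
    (isClosed_le (continuous_snd.dist continuous_fst) continuous_const).measurableSet
  have h := measurable_measure_prodMk_left (ν := ν) hs
  exact h

/-- **LEAF L-WA-SM (2).**  Same for `y ↦ volume (O ∩ closedBall y r)`. -/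
theorem wa_sm_meas' {d : ℕ} {O : Set (Fin d → ℝ)} (hO : MeasurableSet O) (r : ℝ) :
    Measurable fun y : Fin d → ℝ => (volume : Measure (Fin d → ℝ)) (O ∩ closedBall y r) := by
  have hs : MeasurableSet {p : (Fin d → ℝ) × (Fin d → ℝ) | p.2 ∈ O ∧ dist p.2 p.1 ≤ r} :=
    (measurable_snd hO).inter (isClosed_le (continuous_snd.dist continuous_fst) continuous_const).measurableSet
  have h := measurable_measure_prodMk_left (ν := (volume : Measure (Fin d → ℝ))) hs
  exact h

/-- **LEAF L-WA-SM (3).**  `withDensity_apply`, write both sides as double `lintegral`s of the indicator of `{(z,y) | z ∈ O ∧ dist z y ≤ r}`, Tonelli (`lintegral_lintegral_swap`). -/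
theorem wa_sm_apply {d : ℕ} (ν : Measure (Fin d → ℝ)) [SFinite ν] (r : ℝ) {O : Set (Fin d → ℝ)} (hO : MeasurableSet O) :
    waSm ν r O = ∫⁻ y, volume (O ∩ closedBall y r) ∂ν := by
  have hs : MeasurableSet {p : (Fin d → ℝ) × (Fin d → ℝ) | p.1 ∈ O ∧ dist p.1 p.2 ≤ r} :=
    (measurable_fst hO).inter (isClosed_le (continuous_fst.dist continuous_snd) continuous_const).measurableSet
  have h1 := Measure.prod_apply (μ := (volume : Measure (Fin d → ℝ))) (ν := ν) hs
  have h2 := Measure.prod_apply_symm (μ := (volume : Measure (Fin d → ℝ))) (ν := ν) hs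
  unfold waSm
  rw [withDensity_apply _ hO, ← lintegral_indicator hO]
  have e1 : (fun z => O.indicator (fun z => ν (closedBall z r)) z)
      = fun z => ν (Prod.mk z ⁻¹' {p : (Fin d → ℝ) × (Fin d → ℝ) | p.1 ∈ O ∧ dist p.1 p.2 ≤ r}) := by
    funext z
    by_cases hz : z ∈ O
    · rw [indicator_of_mem hz]
      congr 1
      ext y
      simp [hz, dist_comm]
    · rw [indicator_of_notMem hz]
      have : Prod.mk z ⁻¹' {p : (Fin d → ℝ) × (Fin d → ℝ) | p.1 ∈ O ∧ dist p.1 p.2 ≤ r} = ∅ := by
        ext y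
        simp [hz]
      rw [this, measure_empty]
  rw [e1, ← h1, h2]
  rfl

/-- **LEAF L-WA-SM (4).** -/
theorem wa_sm_ac {d : ℕ} (ν : Measure (Fin d → ℝ)) (r : ℝ) : waSm ν r ≪ volume := by
  exact withDensity_absolutelyContinuous _ _

/-- **LEAF L-WA-SM (5).**  `wa_sm_apply` for `univ`, `Real.volume_pi_closedBall`. -/
theorem wa_sm_univ {d : ℕ} (ν : Measure (Fin d → ℝ)) [SFinite ν] {r : ℝ} (hr : 0 ≤ r) :
    waSm ν r univ = ENNReal.ofReal ((2 * r) ^ d) * ν univ := by
  rw [wa_sm_apply ν r MeasurableSet.univ]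
  simp only [univ_inter, Real.volume_pi_closedBall _ hr, Fintype.card_fin, lintegral_const]

/-- **LEAF L-WA-CELLMASS.**  Markov (`mul_meas_ge_le_lintegral`) for `y ↦ volume (waCls P σ ∩ closedBall y r)` and `wa_sm_apply`. -/
theorem wa_cell_mass {d J : ℕ} (P : Fin J → MvPolynomial (Fin d) ℝ) (σ : Fin J → Bool) (ν : Measure (Fin d → ℝ)) [SFinite ν] (r η : ℝ) :
    ENNReal.ofReal ((1 - η) * (2 * r) ^ d) * ν (waCellPt P σ r η) ≤ waSm ν r (waCls P σ) := by
  have hO := (wa_cls_isOpen P σ).measurableSet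
  rw [wa_sm_apply ν r hO]
  exact mul_meas_ge_le_lintegral (wa_sm_meas' hO r) _

/-- **LEAF L-WA-CELLMEAS.** -/
theorem wa_cellPt_meas {d J : ℕ} (P : Fin J → MvPolynomial (Fin d) ℝ) (σ : Fin J → Bool) (r η : ℝ) : MeasurableSet (waCellPt P σ r η) := by
  exact measurableSet_le measurable_const (wa_sm_meas' (wa_cls_isOpen P σ).measurableSet r)

/-- **LEAF L-WA-DICH: every point is a wall point or a cell point.**
If `y` is not a wall point, for every `k` one of the two strict signs has volume `< (η/J) (2r)^d` in `Q = closedBall y r`; let `σ k` be the OTHER sign.   `Q \ waCls P σ ⊆ ⋃ k, (Q ∩ {wrong strict sign of P k}) ∪ {P k = 0}`,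
of volume `≤ J (η/J) (2r)^d = η (2r)^d` (`MK.poly_null`); `volume Q = ofReal ((2r)^d)`.   (`J = 0`: `waCls = univ`.) -/
theorem wa_cell_or_wall {d J : ℕ} (P : Fin J → MvPolynomial (Fin d) ℝ) (hP : ∀ k, P k ≠ 0) {r η : ℝ} (hr : 0 < r) (hη : 0 ≤ η)
    (y : Fin d → ℝ) : y ∈ waWallPt P r (η / J) ∨ ∃ σ, y ∈ waCellPt P σ r η := by
  classical
  by_cases hwall : y ∈ waWallPt P r (η / J)
  · exact Or.inl hwall
  right
  obtain ⟨V, hV⟩ : ∃ V : ℝ, V = (2 * r) ^ d := ⟨_, rfl⟩
  have hV0 : 0 ≤ V := by rw [hV]; positivity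
  have hnw : ∀ k, volume ({z | MvPolynomial.eval z (P k) < 0} ∩ closedBall y r) < ENNReal.ofReal (η / J * V) ∨
      volume ({z | 0 < MvPolynomial.eval z (P k)} ∩ closedBall y r) < ENNReal.ofReal (η / J * V) := by
    intro k
    by_contra h
    push Not at h
    exact hwall ⟨k, by rw [← hV]; exact h.2, by rw [← hV]; exact h.1⟩
  obtain ⟨σ, hσ⟩ : ∃ σ : Fin J → Bool, ∀ k, σ k = true ↔
      volume ({z | MvPolynomial.eval z (P k) < 0} ∩ closedBall y r) < ENNReal.ofReal (η / J * V) :=
    ⟨fun k => decide _, fun k => decide_eq_true_iff⟩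
  refine ⟨σ, ?_⟩
  obtain ⟨Wr, hWr⟩ : ∃ Wr : Fin J → Set (Fin d → ℝ), ∀ k, Wr k = if σ k = true
      then {z | MvPolynomial.eval z (P k) < 0} ∩ closedBall y r
      else {z | 0 < MvPolynomial.eval z (P k)} ∩ closedBall y r := ⟨_, fun _ => rfl⟩
  have hWv : ∀ k, volume (Wr k) ≤ ENNReal.ofReal (η / J * V) := by
    intro k
    rw [hWr]
    by_cases h : σ k = true
    · rw [if_pos h]; exact ((hσ k).1 h).le
    · rw [if_neg h]
      exact ((hnw k).resolve_left fun h' => h ((hσ k).2 h')).le
  have hsub : closedBall y r ⊆ (waCls P σ ∩ closedBall y r) ∪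
      ((⋃ k, Wr k) ∪ ⋃ k, {z | MvPolynomial.eval z (P k) = 0}) := by
    intro z hz
    by_cases hzc : z ∈ waCls P σ
    · exact Or.inl ⟨hzc, hz⟩
    · right
      simp only [waCls, Set.mem_ofPred_eq, not_forall] at hzc
      obtain ⟨k, hk⟩ := hzc
      by_cases h0 : MvPolynomial.eval z (P k) = 0
      · exact Or.inr (mem_iUnion.2 ⟨k, h0⟩)
      · left
        refine mem_iUnion.2 ⟨k, ?_⟩
        rw [hWr]
        by_cases h : σ k = true
        · rw [if_pos h] at hk ⊢
          exact ⟨lt_of_le_of_ne (not_lt.1 hk) h0, hz⟩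
        · rw [if_neg h] at hk ⊢
          exact ⟨lt_of_le_of_ne (not_lt.1 hk) (Ne.symm h0), hz⟩
  have hvol : volume (closedBall y r) = ENNReal.ofReal V := by
    rw [Real.volume_pi_closedBall y hr.le, Fintype.card_fin, hV]
  have hnull : volume (⋃ k, {z : Fin d → ℝ | MvPolynomial.eval z (P k) = 0}) = 0 :=
    measure_iUnion_null fun k => poly_null (P k) (hP k)
  have hbad : volume (⋃ k, Wr k) ≤ ENNReal.ofReal (η * V) := by
    calc volume (⋃ k, Wr k) ≤ ∑ k, volume (Wr k) := measure_iUnion_fintype_le _ _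
      _ ≤ ∑ _k : Fin J, ENNReal.ofReal (η / J * V) := Finset.sum_le_sum fun k _ => hWv k
      _ = ENNReal.ofReal (J * (η / J * V)) := by
          rw [Finset.sum_const, Finset.card_univ, Fintype.card_fin, nsmul_eq_mul,
            ENNReal.ofReal_mul (Nat.cast_nonneg J), ENNReal.ofReal_natCast]
      _ ≤ ENNReal.ofReal (η * V) := by
          refine ENNReal.ofReal_le_ofReal ?_
          rcases Nat.eq_zero_or_pos J with rfl | hJ
          · simp only [Nat.cast_zero, zero_mul]; positivity
          · have : (0 : ℝ) < J := by exact_mod_cast hJ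
            refine le_of_eq ?_
            field_simp
  have h1 : ENNReal.ofReal V ≤ volume (waCls P σ ∩ closedBall y r) + ENNReal.ofReal (η * V) := by
    rw [← hvol]
    calc volume (closedBall y r) ≤ volume ((waCls P σ ∩ closedBall y r) ∪
          ((⋃ k, Wr k) ∪ ⋃ k, {z | MvPolynomial.eval z (P k) = 0})) := measure_mono hsub
      _ ≤ volume (waCls P σ ∩ closedBall y r) + (volume (⋃ k, Wr k) +
          volume (⋃ k, {z : Fin d → ℝ | MvPolynomial.eval z (P k) = 0})) :=
          (measure_union_le _ _).trans (add_le_add le_rfl (measure_union_le _ _))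
      _ ≤ volume (waCls P σ ∩ closedBall y r) + ENNReal.ofReal (η * V) := by
          rw [hnull, add_zero]; exact add_le_add le_rfl hbad
  show ENNReal.ofReal ((1 - η) * (2 * r) ^ d) ≤ volume (waCls P σ ∩ closedBall y r)
  rw [← hV]
  have h2 : (1 - η) * V = V - η * V := by ring
  rw [h2, ENNReal.ofReal_sub _ (by positivity)]
  exact tsub_le_iff_right.2 h1

end Claimed.Agent.R257
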