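import Claimed.Agent.Lib.MK.Core

/-!
# R257/Wall, unit WALL-A, file 1: the COLUMN LEMMA (H wall.tex l.127-146)            (helper18)
PAPER-FREE.  `n` near-axis families of lines in `ℝ^{n+1}` (vertical slope `≤ Λ`), a finite weighted point set whose unit lattice boxes have
mass `≤ M`; every point sees weight `≥ W` from every family (sup-norm tubes of radius `1`).  Then the total mass is
`≤ M * cmk n * ((3Λ+4) E / W)^{n/(n-1)}`.   Input: `MK.mk_core` in the base `ℝ^n`, `MK.holder_n`.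
-/

set_option autoImplicit false
open MeasureTheory Set Metric
open scoped BigOperators

namespace Claimed.Agent.R257

open Claimed.Agent.MK

/-- drop the last coordinate -/
def waBase {n : ℕ} {β : Type*} (x : Fin (n + 1) → β) : Fin n → β := fun i => x i.castSucc

/-- the unit lattice box of a point -/
noncomputable def waBox {N : ℕ} (p : Fin N → ℝ) : Fin N → ℤ := fun c => ⌊p c⌋

/-- `∑ b^q ≤ (∑ b)^q` for `q ≥ 1`, `b ≥ 0`. -/
theorem wa_sum_rpow_le {κ : Type*} (S : Finset κ) (b : κ → ℝ) (hb : ∀ k ∈ S, 0 ≤ b k) (q : ℝ) (hq : 1 ≤ q) :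
    ∑ k ∈ S, (b k) ^ q ≤ (∑ k ∈ S, b k) ^ q := by
  classical
  induction S using Finset.induction_on with
  | empty => simp [Real.zero_rpow (by linarith : q ≠ 0)]
  | insert a s ha ih =>
    rw [Finset.sum_insert ha, Finset.sum_insert ha]
    have h1 : 0 ≤ b a := hb a (Finset.mem_insert_self _ _)
    have h2 : 0 ≤ ∑ k ∈ s, b k := Finset.sum_nonneg fun k hk => hb k (Finset.mem_insert_of_mem hk)
    have h3 := ih fun k hk => hb k (Finset.mem_insert_of_mem hk)
    have h4 : (b a) ^ q + (∑ k ∈ s, b k) ^ q ≤ (b a + ∑ k ∈ s, b k) ^ q := by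
      let x : NNReal := ⟨b a, h1⟩
      let y : NNReal := ⟨∑ k ∈ s, b k, h2⟩
      have h5 := NNReal.rpow_add_rpow_le_add x y hq
      have h6 : x ^ q + y ^ q ≤ (x + y) ^ q := by
        have h7 := NNReal.rpow_le_rpow h5 (by linarith : (0 : ℝ) ≤ q)
        rwa [← NNReal.rpow_mul, one_div, inv_mul_cancel₀ (by linarith : q ≠ 0), NNReal.rpow_one] at h7
      exact_mod_cast h6
    linarith

/-- Hölder with `n` factors of exponent `1/(n-1)` followed by `ℓ^1 ⊂ ℓ^{n/(n-1)}` (wall.tex l.136-140). -/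
theorem wa_seq_holder {n : ℕ} (hn : 2 ≤ n) {κ : Type*} (S : Finset κ) (b : κ → Fin n → ℝ)
    (hb : ∀ k ∈ S, ∀ j, 0 ≤ b k j) :
    ∑ k ∈ S, ∏ j, (b k j) ^ (1 / ((n : ℝ) - 1)) ≤ ∏ j, (∑ k ∈ S, b k j) ^ (1 / ((n : ℝ) - 1)) := by
  have hn' : (2 : ℝ) ≤ n := by exact_mod_cast hn
  have h1 : (0 : ℝ) < (n : ℝ) - 1 := by linarith
  have hq : 1 ≤ (n : ℝ) / ((n : ℝ) - 1) := by rw [le_div_iff₀ h1]; linarith
  have key := holder_n (by omega : 1 ≤ n) S (fun k j => (b k j) ^ ((n : ℝ) / ((n : ℝ) - 1)))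
    (fun k hk j => Real.rpow_nonneg (hb k hk j) _)
  have e1 : ∀ y : ℝ, 0 ≤ y → (y ^ ((n : ℝ) / ((n : ℝ) - 1))) ^ (1 / (n : ℝ)) = y ^ (1 / ((n : ℝ) - 1)) := by
    intro y hy
    rw [← Real.rpow_mul hy]
    congr 1
    field_simp
  calc ∑ k ∈ S, ∏ j, (b k j) ^ (1 / ((n : ℝ) - 1))
      = ∑ k ∈ S, ∏ j, ((b k j) ^ ((n : ℝ) / ((n : ℝ) - 1))) ^ (1 / (n : ℝ)) := by
        refine Finset.sum_congr rfl fun k hk => Finset.prod_congr rfl fun j _ => ?_
        rw [e1 _ (hb k hk j)]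
    _ ≤ ∏ j, (∑ k ∈ S, (b k j) ^ ((n : ℝ) / ((n : ℝ) - 1))) ^ (1 / (n : ℝ)) := key
    _ ≤ ∏ j, ((∑ k ∈ S, b k j) ^ ((n : ℝ) / ((n : ℝ) - 1))) ^ (1 / (n : ℝ)) := by
        refine Finset.prod_le_prod (fun j _ => Real.rpow_nonneg
          (Finset.sum_nonneg fun k hk => Real.rpow_nonneg (hb k hk j) _) _) fun j _ => ?_
        refine Real.rpow_le_rpow (Finset.sum_nonneg fun k hk => Real.rpow_nonneg (hb k hk j) _) ?_ (by positivity)
        exact wa_sum_rpow_le S (fun k => b k j) (fun k hk => hb k hk j) _ hq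
    _ = ∏ j, (∑ k ∈ S, b k j) ^ (1 / ((n : ℝ) - 1)) := by
        refine Finset.prod_congr rfl fun j _ => ?_
        rw [e1 _ (Finset.sum_nonneg fun k hk => hb k hk j)]

/-- the base point of a point of a tube lies in the base tube -/
theorem wa_base_tube {n : ℕ} {a v p : Fin (n + 1) → ℝ} {r : ℝ} (h : p ∈ tube a v r) :
    waBase p ∈ tube (waBase a) (waBase v) r := by
  obtain ⟨t, ht⟩ := h
  refine ⟨t, ?_⟩
  have hr : 0 ≤ r := (norm_nonneg _).trans ht
  rw [pi_norm_le_iff_of_nonneg hr] at ht ⊢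
  intro i
  exact ht i.castSucc

/-- a point lies in the closed cube of its lattice box -/
theorem wa_mem_cube {n : ℕ} (p : Fin n → ℝ) : p ∈ closedBall (ctr (waBox p)) (1 / 2) := by
  rw [mem_closedBall, dist_pi_le_iff (by norm_num)]
  intro i
  rw [Real.dist_eq, abs_le]
  have h1 := Int.floor_le (p i)
  have h2 := Int.lt_floor_add_one (p i)
  simp only [ctr, waBox]
  constructor <;> linarith

/-- the number of integers `⌊y⌋` with `|y - c| ≤ r` -/
theorem wa_card_floor {κ : Type*} (T : Finset κ) (f : κ → ℤ) (hinj : Set.InjOn f T) (y : κ → ℝ) (c r : ℝ)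
    (hr : 0 ≤ r) (hf : ∀ k ∈ T, f k = ⌊y k⌋) (hy : ∀ k ∈ T, |y k - c| ≤ r) : (T.card : ℝ) ≤ 2 * r + 2 := by
  classical
  have h1 : T.card = (T.image f).card := (Finset.card_image_of_injOn hinj).symm
  have h2 : T.image f ⊆ Finset.Icc ⌊c - r⌋ ⌊c + r⌋ := by
    intro z hz
    obtain ⟨k, hk, rfl⟩ := Finset.mem_image.1 hz
    have h3 := abs_le.1 (hy k hk)
    rw [Finset.mem_Icc, hf k hk]
    exact ⟨Int.floor_le_floor (by linarith), Int.floor_le_floor (by linarith)⟩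
  have h4 := Finset.card_le_card h2
  rw [Int.card_Icc] at h4
  have h5 : ⌊c - r⌋ ≤ ⌊c + r⌋ := Int.floor_le_floor (by linarith)
  have h6 : (((⌊c + r⌋ + 1 - ⌊c - r⌋).toNat : ℕ) : ℝ) = (⌊c + r⌋ : ℝ) + 1 - ⌊c - r⌋ := by
    have : (((⌊c + r⌋ + 1 - ⌊c - r⌋).toNat : ℕ) : ℤ) = ⌊c + r⌋ + 1 - ⌊c - r⌋ := Int.toNat_of_nonneg (by omega)
    have h7 : ((((⌊c + r⌋ + 1 - ⌊c - r⌋).toNat : ℕ) : ℤ) : ℝ) = ((⌊c + r⌋ + 1 - ⌊c - r⌋ : ℤ) : ℝ) := by rw [this]
    push_cast at h7
    exact h7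
  have h8 : (T.card : ℝ) ≤ (((⌊c + r⌋ + 1 - ⌊c - r⌋).toNat : ℕ) : ℝ) := by
    rw [h1]; exact_mod_cast h4
  have h9 := Int.floor_le (c + r)
  have h10 := Int.lt_floor_add_one (c - r)
  linarith

open Classical in
/-- **The column lemma.** -/
theorem wa_col {n : ℕ} (hn : 2 ≤ n) {ι α : Type*} (I : Finset ι) (pos : ι → Fin (n + 1) → ℝ) (m : ι → ℝ)
    (M : ℝ) (hM : 0 ≤ M)
    (hball : ∀ κ : Fin (n + 1) → ℤ, ∑ i ∈ I.filter (fun i => waBox (pos i) = κ), m i ≤ M)
    (A : Fin n → Finset α) (a v : α → Fin (n + 1) → ℝ) (w : α → ℝ) (hw : ∀ x, 0 ≤ w x)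
    (Λ : ℝ) (hΛ : 0 ≤ Λ)
    (hv : ∀ j, ∀ x ∈ A j, v x j.castSucc = 1 ∧ (∀ i : Fin n, i ≠ j → |v x i.castSucc| ≤ 1 / (4 * n)) ∧
      |v x (Fin.last n)| ≤ Λ)
    (E W : ℝ) (hW : 0 < W) (hE : ∀ j, ∑ x ∈ A j, w x ≤ E)
    (hinc : ∀ i ∈ I, ∀ j, W ≤ ∑ x ∈ (A j).filter (fun x => pos i ∈ tube (a x) (v x) 1), w x) :
    ∑ i ∈ I, m i ≤ M * (cmk n * ((3 * Λ + 4) * E / W) ^ ((n : ℝ) / ((n : ℝ) - 1))) := by
  have hn' : (2 : ℝ) ≤ n := by exact_mod_cast hn
  have hn1 : (0 : ℝ) < (n : ℝ) - 1 := by linarith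
  set p : ℝ := 1 / ((n : ℝ) - 1) with hp
  have hp0 : 0 < p := by positivity
  set q : ℝ := (n : ℝ) / ((n : ℝ) - 1) with hq
  have hnp : (n : ℝ) * p = q := by rw [hp, hq]; ring
  have hE0 : 0 ≤ E := (Finset.sum_nonneg fun x _ => hw x).trans (hE ⟨0, by omega⟩)
  -- occupied boxes
  set S : Finset (Fin (n + 1) → ℤ) := I.image (fun i => waBox (pos i)) with hS
  have h1 : ∑ i ∈ I, m i ≤ M * S.card := by
    rw [← Finset.sum_fiberwise_of_maps_to (s := I) (t := S) (g := fun i => waBox (pos i))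
      (fun i hi => Finset.mem_image_of_mem _ hi)]
    calc ∑ κ ∈ S, ∑ i ∈ I.filter (fun i => waBox (pos i) = κ), m i ≤ ∑ κ ∈ S, M :=
          Finset.sum_le_sum fun κ _ => hball κ
      _ = M * S.card := by rw [Finset.sum_const, nsmul_eq_mul, mul_comm]
  -- representatives
  have hrep : ∀ κ ∈ S, ∃ pt : Fin (n + 1) → ℝ, (∃ i ∈ I, pos i = pt) ∧ waBox pt = κ := fun κ hκ => by
    obtain ⟨i, hi, h⟩ := Finset.mem_image.1 hκ
    exact ⟨pos i, ⟨i, hi, rfl⟩, h⟩
  choose! rep hrepI hrepB using hrep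
  set b : (Fin (n + 1) → ℤ) → Fin n → ℝ :=
    fun κ j => ∑ x ∈ (A j).filter (fun x => rep κ ∈ tube (a x) (v x) 1), w x with hb
  have hbW : ∀ κ ∈ S, ∀ j, W ≤ b κ j := fun κ hκ j => by
    obtain ⟨i, hi, h⟩ := hrepI κ hκ
    have := hinc i hi j
    rw [h] at this
    exact this
  have hb0 : ∀ κ, ∀ j, 0 ≤ b κ j := fun κ j => Finset.sum_nonneg fun x _ => hw x
  -- lower bound
  have h2 : (S.card : ℝ) * W ^ q ≤ ∑ κ ∈ S, ∏ j, (b κ j) ^ p := by
    rw [← nsmul_eq_mul, ← Finset.sum_const]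
    refine Finset.sum_le_sum fun κ hκ => ?_
    calc W ^ q = ∏ _j : Fin n, W ^ p := by
          rw [Finset.prod_const, Finset.card_univ, Fintype.card_fin, ← Real.rpow_natCast, ← Real.rpow_mul hW.le,
            mul_comm, hnp]
      _ ≤ ∏ j, (b κ j) ^ p := Finset.prod_le_prod (fun j _ => Real.rpow_nonneg hW.le _)
          fun j _ => Real.rpow_le_rpow hW.le (hbW κ hκ j) hp0.le
  -- columns
  set K : Finset (Fin n → ℤ) := S.image (fun κ => waBase κ) with hK
  have h3 : ∑ κ ∈ S, ∏ j, (b κ j) ^ p ≤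
      ∑ k ∈ K, ∏ j, (∑ κ ∈ S.filter (fun κ => waBase κ = k), b κ j) ^ p := by
    rw [← Finset.sum_fiberwise_of_maps_to (s := S) (t := K) (g := fun κ => waBase κ)
      (fun κ hκ => Finset.mem_image_of_mem _ hκ)]
    exact Finset.sum_le_sum fun k _ => wa_seq_holder hn _ b fun κ _ j => hb0 κ j
  -- one column
  have h4 : ∀ k ∈ K, ∀ j, ∑ κ ∈ S.filter (fun κ => waBase κ = k), b κ j ≤
      (3 * Λ + 4) * Fk (A j) (fun x => waBase (a x)) (fun x => waBase (v x)) w k := by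
    intro k _ j
    have e1 : ∑ κ ∈ S.filter (fun κ => waBase κ = k), b κ j =
        ∑ x ∈ A j, w x * (((S.filter (fun κ => waBase κ = k)).filter
          (fun κ => rep κ ∈ tube (a x) (v x) 1)).card : ℝ) := by
      have e0 : ∀ κ, b κ j = ∑ x ∈ A j, if rep κ ∈ tube (a x) (v x) 1 then w x else 0 := fun κ => by
        simp only [hb, Finset.sum_filter]
      simp only [e0]
      rw [Finset.sum_comm]
      refine Finset.sum_congr rfl fun x _ => ?_
      rw [← Finset.sum_filter, Finset.sum_const, nsmul_eq_mul, mul_comm]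
    rw [e1, Fk, Finset.mul_sum]
    refine Finset.sum_le_sum fun x hx => ?_
    set T := (S.filter (fun κ => waBase κ = k)).filter (fun κ => rep κ ∈ tube (a x) (v x) 1) with hT
    have hTm : ∀ κ ∈ T, κ ∈ S ∧ waBase κ = k ∧ rep κ ∈ tube (a x) (v x) 1 := fun κ hκ => by
      rw [hT, Finset.mem_filter, Finset.mem_filter] at hκ
      exact ⟨hκ.1.1, hκ.1.2, hκ.2⟩
    rcases T.eq_empty_or_nonempty with hTe | ⟨κ0, hκ0⟩
    · rw [hTe, Finset.card_empty, Nat.cast_zero, mul_zero]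
      have : 0 ≤ 3 * Λ + 4 := by linarith
      split_ifs
      · exact mul_nonneg this (hw x)
      · simp
    · obtain ⟨hκS, hκk, hκt⟩ := hTm κ0 hκ0
      have hhit : hit (waBase (a x)) (waBase (v x)) k := by
        refine ⟨waBase (rep κ0), wa_base_tube hκt, ?_⟩
        have := wa_mem_cube (waBase (rep κ0))
        have e2 : waBox (waBase (rep κ0)) = k := by
          rw [← hκk]
          conv_rhs => rw [← hrepB κ0 hκS]
          rfl
        rwa [e2] at this
      rw [if_pos hhit, mul_comm]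
      refine mul_le_mul_of_nonneg_right ?_ (hw x)
      obtain ⟨hvj, -, hvL⟩ := hv j x hx
      have hc := wa_card_floor T (fun κ => κ (Fin.last n)) ?_ (fun κ => rep κ (Fin.last n))
        (a x (Fin.last n) + ((k j : ℝ) - a x j.castSucc + 1 / 2) * v x (Fin.last n)) (1 + 3 / 2 * Λ) (by positivity) ?_ ?_
      · linarith
      · intro κ hκ κ' hκ' h
        have h1 := (hTm κ hκ).2.1
        have h2 := (hTm κ' hκ').2.1
        funext c
        refine Fin.lastCases ?_ (fun i => ?_) c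
        · exact h
        · have := congrFun (h1.trans h2.symm) i
          exact this
      · intro κ hκ
        have := hrepB κ (hTm κ hκ).1
        exact (congrFun this (Fin.last n)).symm
      · intro κ hκ
        obtain ⟨hS', hk', t, ht⟩ := hTm κ hκ
        rw [pi_norm_le_iff_of_nonneg (by norm_num)] at ht
        have t1 := ht j.castSucc
        have t2 := ht (Fin.last n)
        simp only [Pi.sub_apply, Pi.smul_apply, smul_eq_mul, Real.norm_eq_abs, hvj, mul_one] at t1 t2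
        have hfl : (⌊rep κ j.castSucc⌋ : ℤ) = k j := by
          have e3 := congrFun (hrepB κ hS') j.castSucc
          have e4 := congrFun hk' j
          simp only [waBox] at e3
          simp only [waBase] at e4
          rw [e3, e4]
        have f1 := Int.floor_le (rep κ j.castSucc)
        have f2 := Int.lt_floor_add_one (rep κ j.castSucc)
        rw [hfl] at f1 f2
        have t1' := abs_le.1 t1
        have ht0 : |t - ((k j : ℝ) - a x j.castSucc + 1 / 2)| ≤ 3 / 2 := by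
          rw [abs_le]; constructor <;> linarith
        have e5 : rep κ (Fin.last n) - (a x (Fin.last n) + ((k j : ℝ) - a x j.castSucc + 1 / 2) * v x (Fin.last n)) =
            (rep κ (Fin.last n) - a x (Fin.last n) - t * v x (Fin.last n)) +
              (t - ((k j : ℝ) - a x j.castSucc + 1 / 2)) * v x (Fin.last n) := by ring
        rw [e5]
        refine (abs_add_le _ _).trans ?_
        rw [abs_mul]
        have := mul_le_mul ht0 hvL (abs_nonneg _) (by norm_num : (0 : ℝ) ≤ 3 / 2)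
        linarith
  -- Kakeya in the base
  have h5 := mk_core hn A (fun x => waBase (a x)) (fun x => waBase (v x)) w hw
    (fun j x hx => ⟨(hv j x hx).1, fun i hi => (hv j x hx).2.1 i hi⟩) K
  have hc0 : 0 ≤ 3 * Λ + 4 := by linarith
  have hFk0 : ∀ k j, 0 ≤ Fk (A j) (fun x => waBase (a x)) (fun x => waBase (v x)) w k := fun k j => by
    unfold Fk
    exact Finset.sum_nonneg fun x _ => by split_ifs <;> simp [hw x]
  have h6 : ∑ k ∈ K, ∏ j, (∑ κ ∈ S.filter (fun κ => waBase κ = k), b κ j) ^ p ≤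
      (3 * Λ + 4) ^ q * ∑ k ∈ K, ∏ j, (Fk (A j) (fun x => waBase (a x)) (fun x => waBase (v x)) w k) ^ p := by
    rw [Finset.mul_sum]
    refine Finset.sum_le_sum fun k hk => ?_
    calc ∏ j, (∑ κ ∈ S.filter (fun κ => waBase κ = k), b κ j) ^ p
        ≤ ∏ j, ((3 * Λ + 4) * Fk (A j) (fun x => waBase (a x)) (fun x => waBase (v x)) w k) ^ p :=
          Finset.prod_le_prod (fun j _ => Real.rpow_nonneg (Finset.sum_nonneg fun κ _ => hb0 κ j) _)
            fun j _ => Real.rpow_le_rpow (Finset.sum_nonneg fun κ _ => hb0 κ j) (h4 k hk j) hp0.le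
      _ = (3 * Λ + 4) ^ q * ∏ j, (Fk (A j) (fun x => waBase (a x)) (fun x => waBase (v x)) w k) ^ p := by
          simp only [Real.mul_rpow hc0 (hFk0 k _)]
          rw [Finset.prod_mul_distrib, Finset.prod_const, Finset.card_univ, Fintype.card_fin, ← Real.rpow_natCast,
            ← Real.rpow_mul hc0, mul_comm p, hnp]
  have hcmk : 0 ≤ cmk n := by
    unfold cmk
    have hcv : 0 ≤ cvis n := by unfold cvis; positivity
    exact Real.rpow_nonneg (div_nonneg (by positivity) (Real.rpow_nonneg hcv _)) _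
  have h7 : ∏ j, (∑ x ∈ A j, w x) ^ p ≤ E ^ q := by
    calc ∏ j, (∑ x ∈ A j, w x) ^ p ≤ ∏ _j : Fin n, E ^ p :=
          Finset.prod_le_prod (fun j _ => Real.rpow_nonneg (Finset.sum_nonneg fun x _ => hw x) _)
            fun j _ => Real.rpow_le_rpow (Finset.sum_nonneg fun x _ => hw x) (hE j) hp0.le
      _ = E ^ q := by
          rw [Finset.prod_const, Finset.card_univ, Fintype.card_fin, ← Real.rpow_natCast, ← Real.rpow_mul hE0,
            mul_comm, hnp]
  have hWq : 0 < W ^ q := Real.rpow_pos_of_pos hW _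
  have h8 : (S.card : ℝ) * W ^ q ≤ (3 * Λ + 4) ^ q * (cmk n * E ^ q) :=
    calc (S.card : ℝ) * W ^ q ≤ _ := h2
      _ ≤ _ := h3
      _ ≤ _ := h6
      _ ≤ (3 * Λ + 4) ^ q * (cmk n * ∏ j, (∑ x ∈ A j, w x) ^ p) :=
          mul_le_mul_of_nonneg_left h5 (Real.rpow_nonneg hc0 _)
      _ ≤ (3 * Λ + 4) ^ q * (cmk n * E ^ q) :=
          mul_le_mul_of_nonneg_left (mul_le_mul_of_nonneg_left h7 hcmk) (Real.rpow_nonneg hc0 _)
  have h9 : (S.card : ℝ) ≤ cmk n * ((3 * Λ + 4) * E / W) ^ q := by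
    rw [Real.div_rpow (mul_nonneg hc0 hE0) hW.le, Real.mul_rpow hc0 hE0, mul_div_assoc', le_div_iff₀ hWq]
    linarith
  exact h1.trans (mul_le_mul_of_nonneg_left h9 hM)

end Claimed.Agent.R257
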