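import Claimed.Agent.R257.Wall.ACol
import Claimed.Agent.R273.BuPart

/-!
# R257/Wall, unit WALL-A, file 2: definitions for the ROBUST WALL (H wall.tex l.148-186)            (architect helper18)
PAPER-FREE.  `E = Fin d → ℝ` (sup norm, Lebesgue measure), `d = n + 1`.
Plan of the unit (all constants explicit, no limiting argument, no connected components):
* smooth `ν|_S` at scale `r0`: `waSm ν r0 = volume.withDensity (z ↦ ν (closedBall z r0))`, absolutely continuous;
* `d * m` rounds of polynomial ham sandwich for `waSm` (`APart.lean`): `2^(d m)` OPEN sign classes `waCls P σ` of equal mass;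
* a point `y` is a CELL point of `σ` if `waCls P σ` fills `≥ 1 - η` of the cube `closedBall y r0`, a WALL point if some factor `P k` has both strict signs
  on a fraction `≥ θ` of that cube; every point is a wall point (`θ = η / J`) or a cell point (`ACell.lean`);
* `waPr O a v r` = probability that the translate by `b ∈ closedBall 0 r` of the line `a + ℝ v` visits `O`; a.e. translate visits `≤ ∑ deg + 1` classes (`AVis.lean`);
* in every class: the column lemma with the weights `w x * waPr ..` (`ALin.lean`, `AMain.lean`).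
-/

set_option autoImplicit false
open MeasureTheory Set Metric
open scoped BigOperators ENNReal

namespace Claimed.Agent.R257

/-- the OPEN sign class `σ` of the polynomials `P k` (`true` = positive) -/
def waCls {d J : ℕ} (P : Fin J → MvPolynomial (Fin d) ℝ) (σ : Fin J → Bool) : Set (Fin d → ℝ) :=
  {z | ∀ k, if σ k = true then 0 < MvPolynomial.eval z (P k) else MvPolynomial.eval z (P k) < 0}

/-- the measure `ν` smoothed at scale `r` (NOT normalised: total mass `(2 r)^d * ν univ`) -/
noncomputable def waSm {d : ℕ} (ν : Measure (Fin d → ℝ)) (r : ℝ) : Measure (Fin d → ℝ) :=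
  volume.withDensity fun z => ν (closedBall z r)

/-- cell points of the class `σ` -/
def waCellPt {d J : ℕ} (P : Fin J → MvPolynomial (Fin d) ℝ) (σ : Fin J → Bool) (r η : ℝ) : Set (Fin d → ℝ) :=
  {y | ENNReal.ofReal ((1 - η) * (2 * r) ^ d) ≤ volume (waCls P σ ∩ closedBall y r)}

/-- ROBUST WALL points: some factor has both strict signs on a fraction `≥ θ` of the cube `closedBall y r` -/
def waWallPt {d J : ℕ} (P : Fin J → MvPolynomial (Fin d) ℝ) (r θ : ℝ) : Set (Fin d → ℝ) :=
  {y | ∃ k, ENNReal.ofReal (θ * (2 * r) ^ d) ≤ volume ({z | 0 < MvPolynomial.eval z (P k)} ∩ closedBall y r) ∧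
    ENNReal.ofReal (θ * (2 * r) ^ d) ≤ volume ({z | MvPolynomial.eval z (P k) < 0} ∩ closedBall y r)}

/-- translations `b` for which the line `a + b + ℝ v` visits `O` -/
def waVisSet {d : ℕ} (O : Set (Fin d → ℝ)) (a v : Fin d → ℝ) : Set (Fin d → ℝ) :=
  {b | ∃ t : ℝ, a + b + t • v ∈ O}

/-- the probability that a translate by `b ∈ closedBall 0 r` of the line `a + ℝ v` visits `O` -/
noncomputable def waPr {d : ℕ} (O : Set (Fin d → ℝ)) (a v : Fin d → ℝ) (r : ℝ) : ℝ :=
  (volume (closedBall (0 : Fin d → ℝ) r ∩ waVisSet O a v)).toReal / (2 * r) ^ d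

open Classical in
/-- the sign classes visited by the line `a + ℝ v` -/
noncomputable def waVis {d J : ℕ} (P : Fin J → MvPolynomial (Fin d) ℝ) (a v : Fin d → ℝ) : Finset (Fin J → Bool) :=
  Finset.univ.filter fun σ => ∃ t : ℝ, a + t • v ∈ waCls P σ

end Claimed.Agent.R257
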