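import Claimed.Agent.R257.Wall.ADefs

/-!
# R257/Wall, unit WALL-A, file 6: the column lemma for a measure, after a linear change of variables            (architect helper18)
PAPER-FREE.  Every `sorry` is a leaf `L-WA-*`.  Statements are frozen (a FALSE statement: one line to helper18); auxiliary lemmas (prefix `wa_`) directly above your theorem; edit only your block.
-/

set_option autoImplicit false
open MeasureTheory Set Metric
open scoped BigOperators ENNReal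

namespace Claimed.Agent.R257

open Claimed.Agent.MK

/-- image of a tube under the rescaled linear map -/
theorem wa_lin_tube {N : ℕ} (T : (Fin N → ℝ) ≃ₗ[ℝ] (Fin N → ℝ)) (Θ ρ : ℝ) (hΘ : 0 < Θ) (hρ : 0 < ρ)
    (hT1 : ∀ x, ‖T x‖ ≤ Θ * ‖x‖) (a v p : Fin N → ℝ) (c : ℝ) (hc : c ≠ 0) (h : p ∈ tube a v ρ) :
    (Θ * ρ)⁻¹ • T p ∈ tube ((Θ * ρ)⁻¹ • T a) (c⁻¹ • T v) 1 := by
  obtain ⟨t, ht⟩ := h
  refine ⟨t * (Θ * ρ)⁻¹ * c, ?_⟩
  have h1 : (Θ * ρ)⁻¹ • T p - (Θ * ρ)⁻¹ • T a - (t * (Θ * ρ)⁻¹ * c) • c⁻¹ • T v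
      = (Θ * ρ)⁻¹ • T (p - a - t • v) := by
    rw [map_sub, map_sub, map_smul, smul_sub, smul_sub, smul_smul, smul_smul]
    congr 2
    field_simp
  have h2 : 0 < Θ * ρ := by positivity
  rw [h1, norm_smul, Real.norm_eq_abs, abs_of_pos (inv_pos.2 h2)]
  calc (Θ * ρ)⁻¹ * ‖T (p - a - t • v)‖ ≤ (Θ * ρ)⁻¹ * (Θ * ρ) := by
        refine mul_le_mul_of_nonneg_left ?_ (inv_pos.2 h2).le
        exact (hT1 _).trans (mul_le_mul_of_nonneg_left ht hΘ.le)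
    _ = 1 := inv_mul_cancel₀ h2.ne'

/-- two points of one unit lattice box -/
theorem wa_box_dist {N : ℕ} (q q' : Fin N → ℝ) (h : waBox q = waBox q') : ‖q - q'‖ ≤ 1 := by
  rw [pi_norm_le_iff_of_nonneg zero_le_one]
  intro c
  have hc : ⌊q c⌋ = ⌊q' c⌋ := congrFun h c
  exact (Int.abs_sub_lt_one_of_floor_eq_floor hc).le

/-- a bounded set meets finitely many unit lattice boxes -/
theorem wa_box_finite {N : ℕ} (B : Set (Fin N → ℝ)) (hB : Bornology.IsBounded B) : (waBox '' B).Finite := by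
  obtain ⟨R, hR⟩ := isBounded_iff_forall_norm_le.1 hB
  refine (Set.finite_Icc (fun _ : Fin N => ⌊-R⌋) (fun _ : Fin N => ⌊R⌋)).subset ?_
  rintro _ ⟨q, hq, rfl⟩
  have h1 : ∀ c, |q c| ≤ R := fun c => (norm_le_pi_norm q c).trans (hR q hq)
  exact ⟨fun c => Int.floor_mono (abs_le.1 (h1 c)).1, fun c => Int.floor_mono (abs_le.1 (h1 c)).2⟩

open Classical in
/-- **LEAF L-WA-LIN: column lemma, measure form.**   `S` need not be measurable.
PLAN.  `Φ p = (Θ ρ)⁻¹ • T p`.   `I` = the finite set of `κ : Fin (n+1) → ℤ` with `S ∩ Φ ⁻¹' {q | waBox q = κ}` nonempty (finite: `Φ '' S` is bounded, so the `κ` lie in a `Finset.Icc` / `Fintype.piFinset`);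
`pos κ = Φ p_κ` for a chosen `p_κ` in that set;  `m κ = (ν (S ∩ Φ ⁻¹' {waBox = κ})).toReal`.
Two points `p, p'` of the same piece: `‖Φ p - Φ p'‖ ≤ 1`, so `‖p - p'‖ ≤ Θ ‖T (p - p')‖ ≤ Θ² ρ`: the piece lies in `closedBall p_κ (Θ² ρ)`, mass `≤ C0 (Θ² ρ)^n =: M`.
Labels `Fin n × α`, `A' j = (A j).map (x ↦ (j, x))`, `a' (j,x) = Φ (a x)`, `v' (j,x) = (T (v x) j.castSucc)⁻¹ • T (v x)`, `w' (j,x) = w x`.
`p ∈ tube (a x) (v x) ρ` gives `Φ p ∈ tube (Φ (a x)) (v' (j,x)) 1` (rescale the time).   `wa_col` and `ν S ≤ ∑ κ ∈ I, ν (piece κ)` (`measure_biUnion_finset_le`). -/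
theorem wa_col_lin {n : ℕ} (hn : 2 ≤ n) {α : Type*} (ν : Measure (Fin (n + 1) → ℝ)) (S : Set (Fin (n + 1) → ℝ))
    (hSb : Bornology.IsBounded S) (C0 : ℝ) (hC0 : 0 ≤ C0)
    (hball : ∀ (z : Fin (n + 1) → ℝ) (r : ℝ), 1 ≤ r → ν (closedBall z r) ≤ ENNReal.ofReal (C0 * r ^ n))
    (T : (Fin (n + 1) → ℝ) ≃ₗ[ℝ] (Fin (n + 1) → ℝ)) (Θ : ℝ) (hΘ : 1 ≤ Θ) (hT1 : ∀ x, ‖T x‖ ≤ Θ * ‖x‖) (hT2 : ∀ x, ‖x‖ ≤ Θ * ‖T x‖)
    (A : Fin n → Finset α) (a v : α → Fin (n + 1) → ℝ) (w : α → ℝ) (hw : ∀ x, 0 ≤ w x) (Λ : ℝ) (hΛ : 0 ≤ Λ)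
    (hv : ∀ j, ∀ x ∈ A j, 0 < T (v x) j.castSucc ∧
      (∀ i : Fin n, i ≠ j → |T (v x) i.castSucc| ≤ 1 / (4 * n) * T (v x) j.castSucc) ∧
      |T (v x) (Fin.last n)| ≤ Λ * T (v x) j.castSucc)
    (ρ : ℝ) (hρ : 1 ≤ ρ) (E W : ℝ) (hW : 0 < W) (hE : ∀ j, ∑ x ∈ A j, w x ≤ E)
    (hinc : ∀ p ∈ S, ∀ j, W ≤ ∑ x ∈ (A j).filter (fun x => p ∈ tube (a x) (v x) ρ), w x) :
    ν S ≤ ENNReal.ofReal (C0 * (Θ ^ 2 * ρ) ^ n * (cmk n * ((3 * Λ + 4) * E / W) ^ ((n : ℝ) / ((n : ℝ) - 1)))) := by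
  have hΘ0 : 0 < Θ := by linarith
  have hρ0 : 0 < ρ := by linarith
  have hΘρ : 0 < Θ * ρ := by positivity
  obtain ⟨Φ, hΦ⟩ : ∃ Φ : (Fin (n + 1) → ℝ) → (Fin (n + 1) → ℝ), Φ = fun p => (Θ * ρ)⁻¹ • T p := ⟨_, rfl⟩
  obtain ⟨pc, hpc⟩ : ∃ pc : (Fin (n + 1) → ℤ) → Set (Fin (n + 1) → ℝ),
      pc = fun κ => S ∩ {p | waBox (Φ p) = κ} := ⟨_, rfl⟩
  obtain ⟨M, hMdef⟩ : ∃ M : ℝ, M = C0 * (Θ ^ 2 * ρ) ^ n := ⟨_, rfl⟩
  have hM : 0 ≤ M := by rw [hMdef]; positivity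
  -- finitely many occupied boxes
  have hbd : Bornology.IsBounded (Φ '' S) := by
    obtain ⟨R, hR⟩ := isBounded_iff_forall_norm_le.1 hSb
    refine isBounded_iff_forall_norm_le.2 ⟨(Θ * ρ)⁻¹ * (Θ * R), ?_⟩
    rintro _ ⟨p, hp, rfl⟩
    rw [hΦ]
    simp only
    rw [norm_smul, Real.norm_eq_abs, abs_of_pos (inv_pos.2 hΘρ)]
    exact mul_le_mul_of_nonneg_left ((hT1 p).trans (mul_le_mul_of_nonneg_left (hR p hp) hΘ0.le)) (inv_pos.2 hΘρ).le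
  have hfin := wa_box_finite _ hbd
  obtain ⟨I, hI⟩ : ∃ I : Finset (Fin (n + 1) → ℤ), I = hfin.toFinset := ⟨_, rfl⟩
  have hI1 : ∀ κ, κ ∈ I → ∃ p, p ∈ S ∧ waBox (Φ p) = κ := by
    intro κ hκ
    rw [hI, Set.Finite.mem_toFinset] at hκ
    obtain ⟨_, ⟨p, hp, rfl⟩, h⟩ := hκ
    exact ⟨p, hp, h⟩
  have hI2 : ∀ p ∈ S, waBox (Φ p) ∈ I := by
    intro p hp
    rw [hI, Set.Finite.mem_toFinset]
    exact ⟨_, ⟨p, hp, rfl⟩, rfl⟩
  choose! pt hpt using hI1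
  -- mass of a piece
  have hr1 : 1 ≤ Θ ^ 2 * ρ := by nlinarith
  have hpiece : ∀ κ ∈ I, ν (pc κ) ≤ ENNReal.ofReal M := by
    intro κ hκ
    rw [hMdef]
    refine (measure_mono ?_).trans (hball (pt κ) (Θ ^ 2 * ρ) hr1)
    rw [hpc]
    rintro p ⟨_, hp⟩
    have hp : waBox (Φ p) = κ := hp
    have h1 : ‖Φ p - Φ (pt κ)‖ ≤ 1 := wa_box_dist _ _ (by rw [hp, (hpt κ hκ).2])
    rw [hΦ] at h1
    simp only at h1
    rw [← smul_sub, ← map_sub, norm_smul, Real.norm_eq_abs, abs_of_pos (inv_pos.2 hΘρ),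
      inv_mul_le_iff₀ hΘρ, mul_one] at h1
    rw [mem_closedBall, dist_eq_norm]
    calc ‖p - pt κ‖ ≤ Θ * ‖T (p - pt κ)‖ := hT2 _
      _ ≤ Θ * (Θ * ρ) := mul_le_mul_of_nonneg_left h1 hΘ0.le
      _ = Θ ^ 2 * ρ := by ring
  -- the column lemma
  have hcol := wa_col hn I (fun κ => Φ (pt κ)) (fun κ => (ν (pc κ)).toReal) M hM
    (by
      intro κ
      by_cases hκ : κ ∈ I
      · have h1 : I.filter (fun i => waBox (Φ (pt i)) = κ) = {κ} := by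
          ext i
          simp only [Finset.mem_filter, Finset.mem_singleton]
          constructor
          · rintro ⟨hi, h⟩; rw [← h, (hpt i hi).2]
          · rintro rfl; exact ⟨hκ, (hpt i hκ).2⟩
        rw [h1, Finset.sum_singleton]
        exact ENNReal.toReal_le_of_le_ofReal hM (hpiece κ hκ)
      · have h1 : I.filter (fun i => waBox (Φ (pt i)) = κ) = ∅ := by
          ext i
          simp only [Finset.mem_filter, Finset.notMem_empty, iff_false, not_and]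
          intro hi h
          rw [(hpt i hi).2] at h
          exact hκ (h ▸ hi)
        rw [h1, Finset.sum_empty]; exact hM)
    (fun j => (A j).map (Function.Embedding.sectR j α))
    (fun y : Fin n × α => Φ (a y.2))
    (fun y : Fin n × α => (T (v y.2) y.1.castSucc)⁻¹ • T (v y.2))
    (fun y : Fin n × α => w y.2) (fun y => hw y.2) Λ hΛ
    (by
      intro j y hy
      rw [Finset.mem_map] at hy
      obtain ⟨x, hx, rfl⟩ := hy
      obtain ⟨h1, h2, h3⟩ := hv j x hx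
      simp only [Function.Embedding.sectR_apply, Pi.smul_apply, smul_eq_mul]
      refine ⟨inv_mul_cancel₀ h1.ne', fun i hi => ?_, ?_⟩
      · rw [abs_mul, abs_of_pos (inv_pos.2 h1), inv_mul_le_iff₀ h1, mul_comm]
        exact h2 i hi
      · rw [abs_mul, abs_of_pos (inv_pos.2 h1), inv_mul_le_iff₀ h1, mul_comm]
        exact h3)
    E W hW
    (by
      intro j
      rw [Finset.sum_map]
      exact hE j)
    (by
      intro κ hκ j
      rw [Finset.filter_map, Finset.sum_map]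
      refine (hinc (pt κ) (hpt κ hκ).1 j).trans ?_
      refine Finset.sum_le_sum_of_subset_of_nonneg ?_ (fun x _ _ => hw x)
      intro x hx
      rw [Finset.mem_filter] at hx ⊢
      refine ⟨hx.1, ?_⟩
      simp only [Function.comp, Function.Embedding.sectR_apply]
      rw [hΦ]
      exact wa_lin_tube T Θ ρ hΘ0 hρ0 hT1 _ _ _ _ (hv j x hx.1).1.ne' hx.2)
  -- sum up
  have hcov : S ⊆ ⋃ κ ∈ I, pc κ := by
    intro p hp
    simp only [Set.mem_iUnion]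
    refine ⟨waBox (Φ p), hI2 p hp, ?_⟩
    rw [hpc]; exact ⟨hp, rfl⟩
  calc ν S ≤ ν (⋃ κ ∈ I, pc κ) := measure_mono hcov
    _ ≤ ∑ κ ∈ I, ν (pc κ) := measure_biUnion_finset_le _ _
    _ = ∑ κ ∈ I, ENNReal.ofReal ((ν (pc κ)).toReal) := by
        refine Finset.sum_congr rfl fun κ hκ => ?_
        rw [ENNReal.ofReal_toReal ((hpiece κ hκ).trans_lt ENNReal.ofReal_lt_top).ne]
    _ = ENNReal.ofReal (∑ κ ∈ I, (ν (pc κ)).toReal) :=
        (ENNReal.ofReal_sum_of_nonneg fun κ _ => ENNReal.toReal_nonneg).symm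
    _ ≤ _ := by
        rw [← hMdef]; exact ENNReal.ofReal_le_ofReal hcol

end Claimed.Agent.R257
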