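import Claimed.Agent.R257.Wall.APart
import Claimed.Agent.R257.Wall.ACell
import Claimed.Agent.R257.Wall.ALin

/-!
# R257/Wall, unit WALL-A, file 7: incidence mass and the ROBUST WALL, abstract form            (architect helper18)
PAPER-FREE (H wall.tex l.99-186).   Data: a measure `ν` on `ℝ^{n+1}` with `ν (cube of radius r) ≤ C0 r^n`; a bounded set `S`; labelled lines `a x + ℝ v x` with weights `w x`; finitely many TYPES `t : τ`
(= `n`-tuples of fine direction bins), each with a normalising linear map `T t` (norms `≤ Θ`) which makes the family `Fam t j` near-parallel to the `j`-th axis; every `p ∈ S` has a type `t` such that `p` sees weight `≥ W`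
from each family `Fam t j` in tubes of radius `ρ`.
Exits: `wa_inc_mass` (first half of w:eq-incidence-mass), `wa_wall_abs` (most of `S` consists of robust wall points).
Every `sorry` is a leaf `L-WA-*`.  Statements are frozen (a FALSE statement: one line to helper18); auxiliary lemmas (prefix `wa_`) directly above your theorem; edit only your block.
-/

set_option autoImplicit false
open MeasureTheory Set Metric
open scoped BigOperators ENNReal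

namespace Claimed.Agent.R257

open Claimed.Agent.MK

open Classical in
/-- **LEAF L-WA-INC: incidence mass.**   `S = ⋃ t, S_t`, `S_t = {p ∈ S | ∀ j, W ≤ ..}`; `measure_iUnion_le`/`measure_biUnion_finset_le`, `wa_col_lin` for every `S_t`; `∑_t ofReal B = ofReal (card τ * B)`
(`ENNReal.ofReal_mul` with the nonnegative factor `card τ`, `Finset.sum_const`, `nsmul_eq_mul`). -/
theorem wa_inc_mass {n : ℕ} (hn : 2 ≤ n) {α τ : Type*} [Fintype τ] (ν : Measure (Fin (n + 1) → ℝ)) (S : Set (Fin (n + 1) → ℝ))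
    (hSb : Bornology.IsBounded S) (C0 : ℝ) (hC0 : 0 ≤ C0)
    (hball : ∀ (z : Fin (n + 1) → ℝ) (r : ℝ), 1 ≤ r → ν (closedBall z r) ≤ ENNReal.ofReal (C0 * r ^ n))
    (T : τ → (Fin (n + 1) → ℝ) ≃ₗ[ℝ] (Fin (n + 1) → ℝ)) (Θ : ℝ) (hΘ : 1 ≤ Θ)
    (hT1 : ∀ t x, ‖T t x‖ ≤ Θ * ‖x‖) (hT2 : ∀ t x, ‖x‖ ≤ Θ * ‖T t x‖)
    (Fam : τ → Fin n → Finset α) (a v : α → Fin (n + 1) → ℝ) (w : α → ℝ) (hw : ∀ x, 0 ≤ w x) (Λ : ℝ) (hΛ : 0 ≤ Λ)
    (hv : ∀ t j, ∀ x ∈ Fam t j, 0 < T t (v x) j.castSucc ∧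
      (∀ i : Fin n, i ≠ j → |T t (v x) i.castSucc| ≤ 1 / (4 * n) * T t (v x) j.castSucc) ∧
      |T t (v x) (Fin.last n)| ≤ Λ * T t (v x) j.castSucc)
    (ρ : ℝ) (hρ : 1 ≤ ρ) (E W : ℝ) (hW : 0 < W) (hE : ∀ t j, ∑ x ∈ Fam t j, w x ≤ E)
    (hinc : ∀ p ∈ S, ∃ t, ∀ j, W ≤ ∑ x ∈ (Fam t j).filter (fun x => p ∈ tube (a x) (v x) ρ), w x) :
    ν S ≤ ENNReal.ofReal (Fintype.card τ *
      (C0 * (Θ ^ 2 * ρ) ^ n * (cmk n * ((3 * Λ + 4) * E / W) ^ ((n : ℝ) / ((n : ℝ) - 1))))) := by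
  have hsub : S ⊆ ⋃ t : τ, {p | p ∈ S ∧ ∀ j, W ≤ ∑ x ∈ (Fam t j).filter (fun x => p ∈ tube (a x) (v x) ρ), w x} := by
    intro p hp
    obtain ⟨t, ht⟩ := hinc p hp
    exact mem_iUnion.2 ⟨t, hp, ht⟩
  refine (measure_mono hsub).trans ((measure_iUnion_fintype_le _ _).trans ?_)
  have hone : ∀ t : τ, ν {p | p ∈ S ∧ ∀ j, W ≤ ∑ x ∈ (Fam t j).filter (fun x => p ∈ tube (a x) (v x) ρ), w x}
      ≤ ENNReal.ofReal (C0 * (Θ ^ 2 * ρ) ^ n * (cmk n * ((3 * Λ + 4) * E / W) ^ ((n : ℝ) / ((n : ℝ) - 1)))) := by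
    intro t
    exact wa_col_lin hn ν _ (hSb.subset fun p hp => hp.1) C0 hC0 hball (T t) Θ hΘ (hT1 t) (hT2 t) (Fam t) a v w hw Λ hΛ (hv t)
      ρ hρ E W hW (hE t) (fun p hp => hp.2)
  refine (Finset.sum_le_sum fun t _ => hone t).trans (le_of_eq ?_)
  rw [Finset.sum_const, nsmul_eq_mul, ENNReal.ofReal_mul (Nat.cast_nonneg _), ENNReal.ofReal_natCast]
  rfl

/-- the energy of the open set `O`: labels weighted by the probability that a translate of the line visits `O` -/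
noncomputable def waEn {d : ℕ} {α : Type*} (All : Finset α) (a v : α → Fin d → ℝ) (w : α → ℝ) (r : ℝ) (O : Set (Fin d → ℝ)) : ℝ :=
  ∑ x ∈ All, w x * waPr O (a x) (v x) r

/-- **LEAF L-WA-ENSUM.**   Exchange the sums, `wa_pr_sum` for every label, `hw`. -/
theorem wa_en_sum {d J : ℕ} {α : Type*} (P : Fin J → MvPolynomial (Fin d) ℝ) (hP : ∀ k, P k ≠ 0) (All : Finset α) (a v : α → Fin d → ℝ)
    (w : α → ℝ) (hw : ∀ x, 0 ≤ w x) {r : ℝ} (hr : 0 < r) :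
    ∑ σ : Fin J → Bool, waEn All a v w r (waCls P σ) ≤ ((∑ k, (P k).totalDegree : ℕ) + 1) * ∑ x ∈ All, w x := by
  unfold waEn
  rw [Finset.sum_comm, Finset.mul_sum]
  refine Finset.sum_le_sum fun x _ => ?_
  rw [← Finset.mul_sum, mul_comm]
  exact mul_le_mul_of_nonneg_right (wa_pr_sum P hP (a x) (v x) hr) (hw x)

open Classical in
/-- **LEAF L-WA-CELLB: the column lemma inside one sign class.**   `wa_inc_mass` for `S ∩ waCellPt P σ r0 (1/2)`, weights `w' x = w x * waPr (waCls P σ) (a x) (v x) (r0 + ρ)` (`≥ 0` by `wa_pr_nonneg_le`),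
`E = waEn ..` (`Finset.sum_le_sum_of_subset_of_nonneg`, `hsub`), `W' = W / 2^(n+2)`:  for `p` in the set and `x` with `p ∈ tube (a x) (v x) ρ`, `wa_pr_low` with `c = 1/2` gives
`waPr .. ≥ (1/2) (r0/(r0+ρ))^(n+1) ≥ (1/2) (1/2)^(n+1)` since `ρ ≤ r0`. -/
theorem wa_cell_bound {n : ℕ} (hn : 2 ≤ n) {α τ : Type*} [Fintype τ] (ν : Measure (Fin (n + 1) → ℝ)) (S : Set (Fin (n + 1) → ℝ))
    (hSb : Bornology.IsBounded S) (C0 : ℝ) (hC0 : 0 ≤ C0)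
    (hball : ∀ (z : Fin (n + 1) → ℝ) (r : ℝ), 1 ≤ r → ν (closedBall z r) ≤ ENNReal.ofReal (C0 * r ^ n))
    (T : τ → (Fin (n + 1) → ℝ) ≃ₗ[ℝ] (Fin (n + 1) → ℝ)) (Θ : ℝ) (hΘ : 1 ≤ Θ)
    (hT1 : ∀ t x, ‖T t x‖ ≤ Θ * ‖x‖) (hT2 : ∀ t x, ‖x‖ ≤ Θ * ‖T t x‖)
    (All : Finset α) (Fam : τ → Fin n → Finset α) (hsub : ∀ t j, Fam t j ⊆ All)
    (a v : α → Fin (n + 1) → ℝ) (w : α → ℝ) (hw : ∀ x, 0 ≤ w x) (Λ : ℝ) (hΛ : 0 ≤ Λ)
    (hv : ∀ t j, ∀ x ∈ Fam t j, 0 < T t (v x) j.castSucc ∧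
      (∀ i : Fin n, i ≠ j → |T t (v x) i.castSucc| ≤ 1 / (4 * n) * T t (v x) j.castSucc) ∧
      |T t (v x) (Fin.last n)| ≤ Λ * T t (v x) j.castSucc)
    (ρ : ℝ) (hρ : 1 ≤ ρ) (W : ℝ) (hW : 0 < W)
    (hinc : ∀ p ∈ S, ∃ t, ∀ j, W ≤ ∑ x ∈ (Fam t j).filter (fun x => p ∈ tube (a x) (v x) ρ), w x)
    {J : ℕ} (P : Fin J → MvPolynomial (Fin (n + 1)) ℝ) (σ : Fin J → Bool) (r0 : ℝ) (hr0 : ρ ≤ r0) :
    ν (S ∩ waCellPt P σ r0 (1 / 2)) ≤ ENNReal.ofReal (Fintype.card τ *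
      (C0 * (Θ ^ 2 * ρ) ^ n * (cmk n * ((3 * Λ + 4) * waEn All a v w (r0 + ρ) (waCls P σ) / (W / 2 ^ (n + 2))) ^ ((n : ℝ) / ((n : ℝ) - 1))))) := by

  have hρ0 : 0 < ρ := by linarith
  have hr00 : 0 < r0 := by linarith
  have hrρ : 0 < r0 + ρ := by linarith
  have hpr0 : ∀ x, 0 ≤ waPr (waCls P σ) (a x) (v x) (r0 + ρ) := fun x => (wa_pr_nonneg_le _ _ _ hrρ).1
  refine wa_inc_mass hn ν (S ∩ waCellPt P σ r0 (1 / 2)) (hSb.subset inter_subset_left) C0 hC0 hball T Θ hΘ hT1 hT2 Fam a v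
    (fun x => w x * waPr (waCls P σ) (a x) (v x) (r0 + ρ)) (fun x => mul_nonneg (hw x) (hpr0 x)) Λ hΛ hv ρ hρ
    (waEn All a v w (r0 + ρ) (waCls P σ)) (W / 2 ^ (n + 2)) (by positivity) ?_ ?_
  · intro t j
    exact Finset.sum_le_sum_of_subset_of_nonneg (hsub t j) (fun x _ _ => mul_nonneg (hw x) (hpr0 x))
  · rintro p ⟨hpS, hpC⟩
    obtain ⟨t, ht⟩ := hinc p hpS
    refine ⟨t, fun j => ?_⟩
    have hpC' : ENNReal.ofReal (1 / 2 * (2 * r0) ^ (n + 1)) ≤ volume (waCls P σ ∩ closedBall p r0) := by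
      have h : ENNReal.ofReal ((1 - 1 / 2) * (2 * r0) ^ (n + 1)) ≤ volume (waCls P σ ∩ closedBall p r0) := hpC
      have e : (1 - 1 / 2 : ℝ) = 1 / 2 := by norm_num
      rwa [e] at h
    have hlow : ∀ x, p ∈ tube (a x) (v x) ρ → 1 / 2 ^ (n + 2) ≤ waPr (waCls P σ) (a x) (v x) (r0 + ρ) := by
      intro x hx
      have h1 := wa_pr_low (waCls P σ) (a x) (v x) p hr00 hρ0.le (by norm_num : (0 : ℝ) ≤ 1 / 2) hx hpC'
      refine le_trans ?_ h1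
      have h2 : (1 / 2 : ℝ) ≤ r0 / (r0 + ρ) := by
        rw [div_le_div_iff₀ (by norm_num) hrρ]
        linarith
      have h3 : (1 / 2 : ℝ) ^ (n + 1) ≤ (r0 / (r0 + ρ)) ^ (n + 1) := pow_le_pow_left₀ (by norm_num) h2 _
      calc (1 : ℝ) / 2 ^ (n + 2) = 1 / 2 * (1 / 2) ^ (n + 1) := by
            rw [one_div_pow, pow_succ 2 (n + 1)]
            field_simp
        _ ≤ 1 / 2 * (r0 / (r0 + ρ)) ^ (n + 1) := mul_le_mul_of_nonneg_left h3 (by norm_num)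
    calc W / 2 ^ (n + 2)
        ≤ (∑ x ∈ (Fam t j).filter (fun x => p ∈ tube (a x) (v x) ρ), w x) / 2 ^ (n + 2) :=
          div_le_div_of_nonneg_right (ht j) (by positivity)
      _ = ∑ x ∈ (Fam t j).filter (fun x => p ∈ tube (a x) (v x) ρ), w x * (1 / 2 ^ (n + 2)) := by
          rw [Finset.sum_div]
          exact Finset.sum_congr rfl fun x _ => by rw [mul_one_div]
      _ ≤ _ := by
          refine Finset.sum_le_sum fun x hx => ?_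
          exact mul_le_mul_of_nonneg_left (hlow x (Finset.mem_filter.1 hx).2) (hw x)

/-- **LEAF L-WA-CELLS: every class has few cell points.**   `ν' = ν.restrict S`; `ν (S ∩ Cell) = ν' Cell` (`Measure.restrict_apply (wa_cellPt_meas ..)`, `inter_comm`);  `wa_cell_mass` for `ν'`, `hpart`, `wa_sm_univ`:
`ofReal ((1/2)(2 r0)^d) * ν' Cell * 2^J ≤ ofReal ((2 r0)^d) * ν S`; cancel the finite positive factor. -/
theorem wa_cell_small {d J : ℕ} (ν : Measure (Fin d → ℝ)) [IsFiniteMeasure ν] (S : Set (Fin d → ℝ)) (P : Fin J → MvPolynomial (Fin d) ℝ)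
    {r0 : ℝ} (hr0 : 0 < r0) (hpart : ∀ σ : Fin J → Bool, waSm (ν.restrict S) r0 (waCls P σ) * 2 ^ J ≤ waSm (ν.restrict S) r0 univ)
    (σ : Fin J → Bool) : ν (S ∩ waCellPt P σ r0 (1 / 2)) ≤ ENNReal.ofReal (2 * (ν S).toReal / 2 ^ J) := by

  have hc : 0 < (2 * r0) ^ d := by positivity
  have e1 : ν (S ∩ waCellPt P σ r0 (1 / 2)) = (ν.restrict S) (waCellPt P σ r0 (1 / 2)) := by
    rw [Measure.restrict_apply (wa_cellPt_meas P σ r0 (1 / 2)), inter_comm]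
  have h1 := wa_cell_mass P σ (ν.restrict S) r0 (1 / 2)
  have h2 := hpart σ
  rw [wa_sm_univ (ν.restrict S) hr0.le, Measure.restrict_apply_univ] at h2
  rw [← e1] at h1
  have h3 : ENNReal.ofReal ((1 - 1 / 2) * (2 * r0) ^ d) * ν (S ∩ waCellPt P σ r0 (1 / 2)) * 2 ^ J
      ≤ ENNReal.ofReal ((2 * r0) ^ d) * ν S := (mul_le_mul_left h1 _).trans h2
  have hfin : ENNReal.ofReal ((2 * r0) ^ d) * ν S ≠ ⊤ := ENNReal.mul_ne_top ENNReal.ofReal_ne_top (measure_ne_top _ _)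
  have h4 := ENNReal.toReal_mono hfin h3
  rw [ENNReal.toReal_mul, ENNReal.toReal_mul, ENNReal.toReal_mul, ENNReal.toReal_pow,
    ENNReal.toReal_ofReal (by positivity), ENNReal.toReal_ofReal hc.le] at h4
  rw [ENNReal.le_ofReal_iff_toReal_le (measure_ne_top _ _) (by positivity)]
  have h5 : (2 : ℝ≥0∞).toReal = 2 := by simp
  rw [h5] at h4
  have h6 : (0 : ℝ) < 2 ^ J := by positivity
  rw [le_div_iff₀ h6]
  have h7 : (2 * r0) ^ d * ((ν (S ∩ waCellPt P σ r0 (1 / 2))).toReal * 2 ^ J) ≤ (2 * r0) ^ d * (2 * (ν S).toReal) := by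
    nlinarith
  exact le_of_mul_le_mul_left h7 hc

/-- **LEAF L-WA-NUM: rich and poor classes** (pure finite real inequality).   `rich = {s | es < e s}`: `card rich * es ≤ ∑ e ≤ 𝔇`, each term `≤ A`.   Poor: `(e s)^q = e s * (e s)^(q-1) ≤ e s * es^(q-1)`
(`Real.rpow_le_rpow`, `Real.rpow_add'`/`Real.rpow_sub_one`; `e s = 0` separately). -/
theorem wa_rich_poor {κ : Type*} (I : Finset κ) (e μ : κ → ℝ) (he : ∀ s ∈ I, 0 ≤ e s) (𝔇 A K q es : ℝ) (hq : 1 < q) (hes : 0 < es)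
    (hA : 0 ≤ A) (hK : 0 ≤ K) (hsum : ∑ s ∈ I, e s ≤ 𝔇) (h1 : ∀ s ∈ I, μ s ≤ A) (h2 : ∀ s ∈ I, μ s ≤ K * (e s) ^ q) :
    ∑ s ∈ I, μ s ≤ 𝔇 / es * A + K * es ^ (q - 1) * 𝔇 := by
  classical
  rw [← Finset.sum_filter_add_sum_filter_not I (fun s => es < e s)]
  have hp0 : 0 ≤ es ^ (q - 1) := Real.rpow_nonneg hes.le _
  refine add_le_add ?_ ?_
  · have hc : ((I.filter fun s => es < e s).card : ℝ) * es ≤ 𝔇 := by
      calc ((I.filter fun s => es < e s).card : ℝ) * es = ∑ s ∈ I.filter (fun s => es < e s), es := by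
            rw [Finset.sum_const, nsmul_eq_mul]
        _ ≤ ∑ s ∈ I.filter (fun s => es < e s), e s := Finset.sum_le_sum fun s hs => (Finset.mem_filter.1 hs).2.le
        _ ≤ ∑ s ∈ I, e s := Finset.sum_le_sum_of_subset_of_nonneg (Finset.filter_subset _ _) fun s hs _ => he s hs
        _ ≤ 𝔇 := hsum
    calc ∑ s ∈ I.filter (fun s => es < e s), μ s ≤ ∑ s ∈ I.filter (fun s => es < e s), A :=
          Finset.sum_le_sum fun s hs => h1 s (Finset.mem_filter.1 hs).1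
      _ = ((I.filter fun s => es < e s).card : ℝ) * A := by rw [Finset.sum_const, nsmul_eq_mul]
      _ ≤ 𝔇 / es * A := mul_le_mul_of_nonneg_right ((le_div_iff₀ hes).2 hc) hA
  · have hterm : ∀ s ∈ I.filter (fun s => ¬ es < e s), μ s ≤ K * es ^ (q - 1) * e s := by
      intro s hs
      obtain ⟨hsI, hse⟩ := Finset.mem_filter.1 hs
      rw [not_lt] at hse
      refine (h2 s hsI).trans ?_
      have hpow : (e s) ^ q ≤ es ^ (q - 1) * e s := by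
        rcases (he s hsI).eq_or_lt with h0 | h0
        · rw [← h0, Real.zero_rpow (by linarith), mul_zero]
        · have : (e s) ^ q = (e s) ^ (q - 1) * e s := by
            conv_lhs => rw [show q = (q - 1) + 1 by ring]
            rw [Real.rpow_add h0, Real.rpow_one]
          rw [this]
          exact mul_le_mul_of_nonneg_right (Real.rpow_le_rpow h0.le hse (by linarith)) h0.le
      calc K * (e s) ^ q ≤ K * (es ^ (q - 1) * e s) := mul_le_mul_of_nonneg_left hpow hK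
        _ = K * es ^ (q - 1) * e s := by ring
    calc ∑ s ∈ I.filter (fun s => ¬ es < e s), μ s ≤ ∑ s ∈ I.filter (fun s => ¬ es < e s), K * es ^ (q - 1) * e s :=
          Finset.sum_le_sum hterm
      _ = K * es ^ (q - 1) * ∑ s ∈ I.filter (fun s => ¬ es < e s), e s := by rw [Finset.mul_sum]
      _ ≤ K * es ^ (q - 1) * 𝔇 := by
          refine mul_le_mul_of_nonneg_left ?_ (mul_nonneg hK hp0)
          exact (Finset.sum_le_sum_of_subset_of_nonneg (Finset.filter_subset _ _) fun s hs _ => he s hs).trans hsum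

/-- the energy of a set is nonnegative -/
theorem wa_en_nonneg {d : ℕ} {α : Type*} (All : Finset α) (a v : α → Fin d → ℝ) (w : α → ℝ) (hw : ∀ x, 0 ≤ w x) {r : ℝ}
    (hr : 0 < r) (O : Set (Fin d → ℝ)) : 0 ≤ waEn All a v w r O :=
  Finset.sum_nonneg fun x _ => mul_nonneg (hw x) (wa_pr_nonneg_le O (a x) (v x) hr).1

/-- pull the constants out of the power -/
theorem wa_wall_rpow (L W e q : ℝ) (k : ℕ) (hL : 0 ≤ L) (hW : 0 < W) (he : 0 ≤ e) :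
    (L * e / (W / 2 ^ k)) ^ q = (L * 2 ^ k / W) ^ q * e ^ q := by
  rw [← Real.mul_rpow (by positivity) he]
  congr 1
  field_simp

open Classical in
/-- **LEAF L-WA-WALL: THE ROBUST WALL, abstract form.**
PLAN.  `μ = waSm (ν.restrict S) r0` is finite (`wa_sm_univ`) and `≪ volume` (`wa_sm_ac`); `wa_partition μ m` gives `P`.   `S \ wall ⊆ ⋃ σ, S ∩ waCellPt P σ r0 (1/2)` (`wa_cell_or_wall`, `η = 1/2`).
`μ' σ = (ν (S ∩ Cell σ)).toReal`;  `wa_cell_small` (`A = 2 ν(S) / 2^J`), `wa_cell_bound` (pull the constants out of the `rpow`: `Real.mul_rpow`, `K = card τ * C0 (Θ²ρ)^n * cmk n * ((3Λ+4) 2^(n+2) / W)^q`),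
`wa_en_sum` with `hw1` (`𝔇 = 2 (n+1)^2 2^m + 1`), `wa_rich_poor`. -/
theorem wa_wall_abs {n : ℕ} (hn : 2 ≤ n) {α τ : Type*} [Fintype τ] (ν : Measure (Fin (n + 1) → ℝ)) [IsFiniteMeasure ν]
    (S : Set (Fin (n + 1) → ℝ)) (hSb : Bornology.IsBounded S) (C0 : ℝ) (hC0 : 0 ≤ C0)
    (hball : ∀ (z : Fin (n + 1) → ℝ) (r : ℝ), 1 ≤ r → ν (closedBall z r) ≤ ENNReal.ofReal (C0 * r ^ n))
    (T : τ → (Fin (n + 1) → ℝ) ≃ₗ[ℝ] (Fin (n + 1) → ℝ)) (Θ : ℝ) (hΘ : 1 ≤ Θ)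
    (hT1 : ∀ t x, ‖T t x‖ ≤ Θ * ‖x‖) (hT2 : ∀ t x, ‖x‖ ≤ Θ * ‖T t x‖)
    (All : Finset α) (Fam : τ → Fin n → Finset α) (hsub : ∀ t j, Fam t j ⊆ All)
    (a v : α → Fin (n + 1) → ℝ) (w : α → ℝ) (hw : ∀ x, 0 ≤ w x) (hw1 : ∑ x ∈ All, w x ≤ 1) (Λ : ℝ) (hΛ : 0 ≤ Λ)
    (hv : ∀ t j, ∀ x ∈ Fam t j, 0 < T t (v x) j.castSucc ∧
      (∀ i : Fin n, i ≠ j → |T t (v x) i.castSucc| ≤ 1 / (4 * n) * T t (v x) j.castSucc) ∧
      |T t (v x) (Fin.last n)| ≤ Λ * T t (v x) j.castSucc)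
    (ρ : ℝ) (hρ : 1 ≤ ρ) (W : ℝ) (hW : 0 < W)
    (hinc : ∀ p ∈ S, ∃ t, ∀ j, W ≤ ∑ x ∈ (Fam t j).filter (fun x => p ∈ tube (a x) (v x) ρ), w x)
    (m : ℕ) (r0 : ℝ) (hr0 : ρ ≤ r0) (es : ℝ) (hes : 0 < es) :
    ∃ P : Fin ((n + 1) * m) → MvPolynomial (Fin (n + 1)) ℝ, (∀ k, P k ≠ 0) ∧
      ∑ k, (P k).totalDegree ≤ 2 * (n + 1) ^ 2 * 2 ^ m ∧
      ν (S \ waWallPt P r0 (1 / 2 / (((n + 1) * m : ℕ) : ℝ))) ≤ ENNReal.ofReal (
        (2 * ((n : ℝ) + 1) ^ 2 * 2 ^ m + 1) / es * (2 * (ν S).toReal / 2 ^ ((n + 1) * m)) +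
        Fintype.card τ * (C0 * (Θ ^ 2 * ρ) ^ n * (cmk n * ((3 * Λ + 4) * 2 ^ (n + 2) / W) ^ ((n : ℝ) / ((n : ℝ) - 1)))) *
          es ^ ((n : ℝ) / ((n : ℝ) - 1) - 1) * (2 * ((n : ℝ) + 1) ^ 2 * 2 ^ m + 1)) := by
  have hρ0 : 0 < ρ := by linarith
  have hr00 : 0 < r0 := by linarith
  have hrρ : 0 < r0 + ρ := by linarith
  have hΘ0 : 0 < Θ := by linarith
  have hn' : (2 : ℝ) ≤ n := by exact_mod_cast hn
  have hn1 : (0 : ℝ) < (n : ℝ) - 1 := by linarith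
  obtain ⟨q, hq⟩ : ∃ q : ℝ, q = (n : ℝ) / ((n : ℝ) - 1) := ⟨_, rfl⟩
  have hq1 : 1 < q := by rw [hq, lt_div_iff₀ hn1]; linarith
  have hcmk : 0 ≤ cmk n := by unfold cmk cvis; positivity
  -- the smoothed measure
  have hfinμ : IsFiniteMeasure (waSm (ν.restrict S) r0) := by
    refine ⟨?_⟩
    rw [wa_sm_univ _ hr00.le]
    exact ENNReal.mul_lt_top ENNReal.ofReal_lt_top (measure_lt_top _ _)
  obtain ⟨P, hP0, hPdeg, hpart⟩ := wa_partition (waSm (ν.restrict S) r0) (wa_sm_ac _ _) m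
  refine ⟨P, hP0, hPdeg, ?_⟩
  rw [← hq]
  obtain ⟨e, he⟩ : ∃ e : (Fin ((n + 1) * m) → Bool) → ℝ,
      e = fun σ => waEn All a v w (r0 + ρ) (waCls P σ) := ⟨_, rfl⟩
  obtain ⟨μ', hμ'⟩ : ∃ μ' : (Fin ((n + 1) * m) → Bool) → ℝ,
      μ' = fun σ => (ν (S ∩ waCellPt P σ r0 (1 / 2))).toReal := ⟨_, rfl⟩
  obtain ⟨𝔇, h𝔇⟩ : ∃ 𝔇 : ℝ, 𝔇 = 2 * ((n : ℝ) + 1) ^ 2 * 2 ^ m + 1 := ⟨_, rfl⟩
  obtain ⟨A, hA⟩ : ∃ A : ℝ, A = 2 * (ν S).toReal / 2 ^ ((n + 1) * m) := ⟨_, rfl⟩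
  obtain ⟨K, hK⟩ : ∃ K : ℝ, K = Fintype.card τ * (C0 * (Θ ^ 2 * ρ) ^ n *
      (cmk n * ((3 * Λ + 4) * 2 ^ (n + 2) / W) ^ q)) := ⟨_, rfl⟩
  rw [← h𝔇, ← hA, ← hK]
  have he0 : ∀ σ, 0 ≤ e σ := fun σ => by rw [he]; exact wa_en_nonneg All a v w hw hrρ _
  have hA0 : 0 ≤ A := by rw [hA]; positivity
  have hK0 : 0 ≤ K := by rw [hK]; positivity
  have hsum : ∑ σ, e σ ≤ 𝔇 := by
    have h1 := wa_en_sum P hP0 All a v w hw hrρ
    rw [he]
    refine h1.trans ?_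
    have h2 : (((∑ k, (P k).totalDegree : ℕ) : ℝ) + 1) ≤ 𝔇 := by
      rw [h𝔇]
      have : ((∑ k, (P k).totalDegree : ℕ) : ℝ) ≤ ((2 * (n + 1) ^ 2 * 2 ^ m : ℕ) : ℝ) := by exact_mod_cast hPdeg
      push_cast at this ⊢
      linarith
    have h3 : 0 ≤ ∑ x ∈ All, w x := Finset.sum_nonneg fun x _ => hw x
    have h4 : (0 : ℝ) ≤ ((∑ k, (P k).totalDegree : ℕ) : ℝ) + 1 := by positivity
    calc (((∑ k, (P k).totalDegree : ℕ) : ℝ) + 1) * ∑ x ∈ All, w x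
        ≤ (((∑ k, (P k).totalDegree : ℕ) : ℝ) + 1) * 1 := mul_le_mul_of_nonneg_left hw1 h4
      _ ≤ 𝔇 := by rw [mul_one]; exact h2
  have hb1 : ∀ σ, μ' σ ≤ A := by
    intro σ
    rw [hμ', hA]
    exact ENNReal.toReal_le_of_le_ofReal (by positivity) (wa_cell_small ν S P hr00 hpart σ)
  have hb2 : ∀ σ, μ' σ ≤ K * (e σ) ^ q := by
    intro σ
    have h1 := wa_cell_bound hn ν S hSb C0 hC0 hball T Θ hΘ hT1 hT2 All Fam hsub a v w hw Λ hΛ hv ρ hρ W hW hinc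
      P σ r0 hr0
    rw [← hq, wa_wall_rpow (3 * Λ + 4) W _ q (n + 2) (by positivity) hW (wa_en_nonneg All a v w hw hrρ _)] at h1
    have h2 : K * (e σ) ^ q = Fintype.card τ * (C0 * (Θ ^ 2 * ρ) ^ n * (cmk n *
        (((3 * Λ + 4) * 2 ^ (n + 2) / W) ^ q * waEn All a v w (r0 + ρ) (waCls P σ) ^ q))) := by
      rw [hK, he]; ring
    rw [hμ', h2]
    refine ENNReal.toReal_le_of_le_ofReal ?_ h1
    have := Real.rpow_nonneg (wa_en_nonneg All a v w hw hrρ (waCls P σ)) q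
    positivity
  have hrp := wa_rich_poor Finset.univ e μ' (fun σ _ => he0 σ) 𝔇 A K q es hq1 hes hA0 hK0 hsum
    (fun σ _ => hb1 σ) (fun σ _ => hb2 σ)
  have hcov : S \ waWallPt P r0 (1 / 2 / (((n + 1) * m : ℕ) : ℝ)) ⊆ ⋃ σ, S ∩ waCellPt P σ r0 (1 / 2) := by
    rintro y ⟨hyS, hyW⟩
    rcases wa_cell_or_wall P hP0 hr00 (by norm_num : (0 : ℝ) ≤ 1 / 2) y with h | ⟨σ, h⟩
    · exact absurd h hyW
    · exact mem_iUnion.2 ⟨σ, hyS, h⟩
  calc ν (S \ waWallPt P r0 (1 / 2 / (((n + 1) * m : ℕ) : ℝ)))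
      ≤ ν (⋃ σ, S ∩ waCellPt P σ r0 (1 / 2)) := measure_mono hcov
    _ ≤ ∑ σ, ν (S ∩ waCellPt P σ r0 (1 / 2)) := measure_iUnion_fintype_le _ _
    _ = ∑ σ, ENNReal.ofReal (μ' σ) := by
        refine Finset.sum_congr rfl fun σ _ => ?_
        rw [hμ', ENNReal.ofReal_toReal (measure_ne_top _ _)]
    _ = ENNReal.ofReal (∑ σ, μ' σ) :=
        (ENNReal.ofReal_sum_of_nonneg fun σ _ => by rw [hμ']; exact ENNReal.toReal_nonneg).symm
    _ ≤ _ := ENNReal.ofReal_le_ofReal hrp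

end Claimed.Agent.R257
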