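import Claimed.Agent.R257.Wall.ADefs

/-!
# R257/Wall, unit WALL-A, file 3: polynomial partitioning of an absolutely continuous finite measure            (architect helper18)
PAPER-FREE.  Model: `R273/BuPart.lean` (finite sets); here NO clamp/limit argument is needed since zero sets are null.
Every `sorry` is a leaf `L-WA-*`.  Statements are frozen (a FALSE statement: one line to helper18); auxiliary lemmas (prefix `wa_`) directly above your theorem; edit only your block.
-/

set_option autoImplicit false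
open MeasureTheory Set Metric
open scoped BigOperators ENNReal

namespace Claimed.Agent.R257

open Claimed.Agent.MK


theorem wa_ham_sign_int {d : ℕ} (ν : Measure (Fin d → ℝ)) [IsFiniteMeasure ν] (f : (Fin d → ℝ) → ℝ)
    (hf : Measurable f) :
    ∫ z, Real.sign (f z) ∂ν = (ν {z | 0 < f z}).toReal - (ν {z | f z < 0}).toReal := by
  have hp : MeasurableSet {z | 0 < f z} := measurableSet_lt measurable_const hf
  have hn : MeasurableSet {z | f z < 0} := measurableSet_lt hf measurable_const
  have e : (fun z => Real.sign (f z)) = fun z => ({z | 0 < f z}.indicator (fun _ => (1 : ℝ)) z)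
      - ({z | f z < 0}.indicator (fun _ => (1 : ℝ)) z) := by
    funext z
    rcases lt_trichotomy (f z) 0 with h | h | h
    · have h1 : z ∉ {z | 0 < f z} := fun h' : 0 < f z => lt_asymm h h'
      have h2 : z ∈ {z | f z < 0} := h
      rw [Real.sign_of_neg h, indicator_of_notMem h1, indicator_of_mem h2]
      norm_num
    · have h1 : z ∉ {z | 0 < f z} := fun h' : 0 < f z => by rw [h] at h'; exact lt_irrefl 0 h'
      have h2 : z ∉ {z | f z < 0} := fun h' : f z < 0 => by rw [h] at h'; exact lt_irrefl 0 h'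
      rw [h, Real.sign_zero, indicator_of_notMem h1, indicator_of_notMem h2]
      norm_num
    · have h1 : z ∈ {z | 0 < f z} := h
      have h2 : z ∉ {z | f z < 0} := fun h' : f z < 0 => lt_asymm h h'
      rw [Real.sign_of_pos h, indicator_of_mem h1, indicator_of_notMem h2]
      norm_num
  rw [e, integral_sub ((integrable_const 1).indicator hp) ((integrable_const 1).indicator hn),
    integral_indicator hp, integral_indicator hn]
  simp [Measure.real]

/-- **LEAF L-WA-HAM: polynomial ham sandwich for absolutely continuous finite measures.**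
PLAN.  `ι` from `R273.bu_exists_inj (V := (Fin d → Fin (D+1)) → ℝ) N` (finrank `= (D+1)^d`, see `MK.poly_family`), `p c = R273.buPolyL d D (ι c)`.
`φ c i = ∫ z, Real.sign (eval z (p c)) ∂(μ i)`; odd (`Real.sign_neg`, `map_neg`); continuous on the sphere: copy `MK.cont_dct`/`MK.cont_signInt` with `μ i` in place of
`volume.restrict A` (dominating function `1`, `μ i` finite; `μ i`-a.e. `eval z (p c₀) ≠ 0` by `MK.poly_null` and `hac`; `MK.cont_sign_eventually`).
`R273.bu_borsuk_ulam N` gives `c ≠ 0` with all `φ c i = 0`;  `∫ sign = (μ {0<}).toReal - (μ {<0}).toReal`. -/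
theorem wa_ham {d D N : ℕ} (hN : N < (D + 1) ^ d) (μ : Fin N → Measure (Fin d → ℝ)) [∀ i, IsFiniteMeasure (μ i)]
    (hac : ∀ i, μ i ≪ volume) :
    ∃ p : MvPolynomial (Fin d) ℝ, p ≠ 0 ∧ p.totalDegree ≤ d * D ∧
      ∀ i, μ i {z | 0 < MvPolynomial.eval z p} = μ i {z | MvPolynomial.eval z p < 0} := by

  classical
  have hfr : N < Module.finrank ℝ ((Fin d → Fin (D + 1)) → ℝ) := by
    rw [Module.finrank_fintype_fun_eq_card]
    simpa using hN
  obtain ⟨ι, hι⟩ := R273.bu_exists_inj (V := (Fin d → Fin (D + 1)) → ℝ) N hfr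
  obtain ⟨F, hF⟩ : ∃ F : (Fin (N + 1) → ℝ) →ₗ[ℝ] ((Fin d → ℝ) → ℝ),
      ∀ c x, F c x = MvPolynomial.eval x (R273.buPolyL d D (ι c)) :=
    ⟨LinearMap.pi fun x => (MvPolynomial.aeval x : MvPolynomial (Fin d) ℝ →ₐ[ℝ] ℝ).toLinearMap ∘ₗ
      R273.buPolyL d D ∘ₗ ι, fun c x => by simp [MvPolynomial.aeval_eq_eval]⟩
  have hne : ∀ c, c ≠ 0 → R273.buPolyL d D (ι c) ≠ 0 := fun c hc =>
    R273.buPolyL_ne_zero d D fun h => hc (hι (by rw [h, map_zero]))
  have hmF : ∀ c, Measurable (F c) := fun c => by
    have : F c = fun z => MvPolynomial.eval z (R273.buPolyL d D (ι c)) := funext (hF c)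
    rw [this]
    exact (MvPolynomial.continuous_eval _).measurable
  have hmeas : ∀ c, Measurable fun z => Real.sign (F c z) := fun c => MK.cont_measurable_sign.comp (hmF c)
  have hsph : ∀ c ∈ Metric.sphere (0 : Fin (N + 1) → ℝ) 1, c ≠ 0 := by
    intro c hc h
    rw [h] at hc
    simp at hc
  have hcont : ContinuousOn (fun c => fun i => ∫ z, Real.sign (F c z) ∂(μ i))
      (Metric.sphere (0 : Fin (N + 1) → ℝ) 1) := by
    rw [continuousOn_pi]
    intro i c₀ hc₀
    refine ContinuousAt.continuousWithinAt ?_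
    refine tendsto_integral_filter_of_dominated_convergence (fun _ => (1 : ℝ)) ?_ ?_ ?_ ?_
    · exact Filter.Eventually.of_forall fun c => (hmeas c).aestronglyMeasurable
    · exact Filter.Eventually.of_forall fun c => Filter.Eventually.of_forall fun z => by
        rw [Real.norm_eq_abs]
        rcases Real.sign_apply_eq (F c z) with h | h | h <;> rw [h] <;> norm_num
    · exact integrable_const 1
    · have hae : ∀ᵐ z ∂(μ i), F c₀ z ≠ 0 := by
        rw [ae_iff]
        refine hac i ?_
        have := MK.poly_null _ (hne c₀ (hsph c₀ hc₀))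
        simpa [hF] using this
      filter_upwards [hae] with z hz
      exact tendsto_nhds_of_eventually_eq (MK.cont_sign_eventually F z c₀ hz)
  obtain ⟨c, hc, hc0⟩ := R273.bu_borsuk_ulam N (fun c => fun i => ∫ z, Real.sign (F c z) ∂(μ i)) hcont (by
    intro x _
    funext i
    simp only [map_neg, Pi.neg_apply, Real.sign_neg, integral_neg])
  refine ⟨R273.buPolyL d D (ι c), hne c (hsph c hc), R273.buPolyL_totalDegree d D _, fun i => ?_⟩
  have h1 := congrFun hc0 i
  simp only [Pi.zero_apply] at h1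
  rw [wa_ham_sign_int (μ i) (F c) (hmF c)] at h1
  have h2 : (μ i {z | 0 < F c z}).toReal = (μ i {z | F c z < 0}).toReal := by linarith
  have h3 := (ENNReal.toReal_eq_toReal_iff' (measure_ne_top _ _) (measure_ne_top _ _)).1 h2
  simpa only [hF] using h3

/-- the state after `J` rounds of bisection with total degree `≤ D` -/
def WaRounds {d : ℕ} (μ : Measure (Fin d → ℝ)) (J D : ℕ) : Prop :=
  ∃ P : Fin J → MvPolynomial (Fin d) ℝ, (∀ k, P k ≠ 0) ∧ ∑ k, (P k).totalDegree ≤ D ∧
    ∀ σ : Fin J → Bool, μ (waCls P σ) * 2 ^ J ≤ μ univ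


theorem wa_cls_measurable {d J : ℕ} (P : Fin J → MvPolynomial (Fin d) ℝ) (σ : Fin J → Bool) :
    MeasurableSet (waCls P σ) := by
  have : waCls P σ = ⋂ k, {z | if σ k = true then 0 < MvPolynomial.eval z (P k)
      else MvPolynomial.eval z (P k) < 0} := by
    ext z
    simp [waCls]
  rw [this]
  refine MeasurableSet.iInter fun k => ?_
  by_cases hk : σ k = true
  · simp only [hk, if_true]
    exact measurableSet_lt measurable_const (MvPolynomial.continuous_eval _).measurable
  · simp only [hk, if_false]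
    exact measurableSet_lt (MvPolynomial.continuous_eval _).measurable measurable_const

/-- **LEAF L-WA-STEP.**  Copy of `R273.bu_rounds_step`: apply `wa_ham` to the `2^J` measures `μ.restrict (waCls P (e.symm i))` (finite, `≪ volume`), `Fin.snoc P g`;
`waCls (Fin.snoc P g) σ = waCls P σ0 ∩ {sign of g}`; the two halves are disjoint measurable (open) subsets of `waCls P σ0` of equal `μ`-mass, so `2 * μ (half) ≤ μ (waCls P σ0)`. -/
theorem wa_rounds_step {d : ℕ} {μ : Measure (Fin d → ℝ)} [IsFiniteMeasure μ] (hac : μ ≪ volume) {J D : ℕ}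
    (h : WaRounds μ J D) (m : ℕ) (hm : 2 ^ J < (m + 1) ^ d) : WaRounds μ (J + 1) (D + d * m) := by

  obtain ⟨P, h1, h2, h3⟩ := h
  have hcard : Fintype.card (Fin J → Bool) = 2 ^ J := by simp
  let e : (Fin J → Bool) ≃ Fin (2 ^ J) := Fintype.equivFinOfCardEq hcard
  obtain ⟨g, hg0, hgd, hg⟩ := wa_ham hm (fun i => μ.restrict (waCls P (e.symm i)))
    (fun i => Measure.restrict_le_self.absolutelyContinuous.trans hac)
  refine ⟨Fin.snoc P g, ?_, ?_, ?_⟩
  · intro j
    refine Fin.lastCases ?_ (fun j' => ?_) j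
    · simpa using hg0
    · simpa using h1 j'
  · rw [Fin.sum_univ_castSucc]
    simp only [Fin.snoc_castSucc, Fin.snoc_last]
    omega
  · intro σ
    obtain ⟨σ0, hσ0⟩ : ∃ σ0 : Fin J → Bool, σ0 = fun j => σ j.castSucc := ⟨_, rfl⟩
    have hmC := wa_cls_measurable P σ0
    have hpos : MeasurableSet {z : Fin d → ℝ | 0 < MvPolynomial.eval z g} :=
      measurableSet_lt measurable_const (MvPolynomial.continuous_eval _).measurable
    have hneg : MeasurableSet {z : Fin d → ℝ | MvPolynomial.eval z g < 0} :=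
      measurableSet_lt (MvPolynomial.continuous_eval _).measurable measurable_const
    have hb := hg (e σ0)
    simp only [Equiv.symm_apply_apply] at hb
    rw [Measure.restrict_apply hpos, Measure.restrict_apply hneg] at hb
    have hcell : waCls (Fin.snoc P g : Fin (J + 1) → MvPolynomial (Fin d) ℝ) σ
        = {z | if σ (Fin.last J) = true then 0 < MvPolynomial.eval z g else MvPolynomial.eval z g < 0}
          ∩ waCls P σ0 := by
      ext z
      rw [hσ0]
      constructor
      · intro h
        refine ⟨?_, fun j => ?_⟩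
        · have := h (Fin.last J)
          simpa using this
        · have := h j.castSucc
          simpa using this
      · rintro ⟨h4, h5⟩ j
        refine Fin.lastCases ?_ (fun j' => ?_) j
        · simpa using h4
        · simpa using h5 j'
    have hdisj : Disjoint ({z : Fin d → ℝ | 0 < MvPolynomial.eval z g} ∩ waCls P σ0)
        ({z : Fin d → ℝ | MvPolynomial.eval z g < 0} ∩ waCls P σ0) := by
      rw [Set.disjoint_left]
      rintro z ⟨h4, -⟩ ⟨h5, -⟩
      exact lt_asymm (show 0 < MvPolynomial.eval z g from h4) (show MvPolynomial.eval z g < 0 from h5)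
    have hsum : μ ({z : Fin d → ℝ | 0 < MvPolynomial.eval z g} ∩ waCls P σ0)
        + μ ({z : Fin d → ℝ | MvPolynomial.eval z g < 0} ∩ waCls P σ0) ≤ μ (waCls P σ0) := by
      rw [← measure_union hdisj (hneg.inter hmC)]
      exact measure_mono (union_subset inter_subset_right inter_subset_right)
    have h2c : 2 * μ (waCls (Fin.snoc P g : Fin (J + 1) → MvPolynomial (Fin d) ℝ) σ) ≤ μ (waCls P σ0) := by
      rw [hcell, two_mul]
      cases hσ : σ (Fin.last J)
      · simp only [Bool.false_eq_true, if_false]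
        calc _ = μ ({z : Fin d → ℝ | 0 < MvPolynomial.eval z g} ∩ waCls P σ0)
              + μ ({z : Fin d → ℝ | MvPolynomial.eval z g < 0} ∩ waCls P σ0) := by rw [hb]
          _ ≤ _ := hsum
      · simp only [if_true]
        calc _ = μ ({z : Fin d → ℝ | 0 < MvPolynomial.eval z g} ∩ waCls P σ0)
              + μ ({z : Fin d → ℝ | MvPolynomial.eval z g < 0} ∩ waCls P σ0) := by rw [← hb]
          _ ≤ _ := hsum
    calc μ (waCls (Fin.snoc P g : Fin (J + 1) → MvPolynomial (Fin d) ℝ) σ) * 2 ^ (J + 1)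
        = (2 * μ (waCls (Fin.snoc P g : Fin (J + 1) → MvPolynomial (Fin d) ℝ) σ)) * 2 ^ J := by
          rw [pow_succ]
          ring
      _ ≤ μ (waCls P σ0) * 2 ^ J := mul_le_mul' h2c le_rfl
      _ ≤ μ univ := h3 σ0


theorem wa_rounds_mono {d : ℕ} {μ : Measure (Fin d → ℝ)} {J D D' : ℕ} (h : WaRounds μ J D) (hD : D ≤ D') :
    WaRounds μ J D' := by
  obtain ⟨f, h1, h2, h3⟩ := h
  exact ⟨f, h1, h2.trans hD, h3⟩

theorem wa_rounds_zero {d : ℕ} (μ : Measure (Fin d → ℝ)) : WaRounds μ 0 0 := by
  refine ⟨fun j => j.elim0, fun j => j.elim0, by simp, ?_⟩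
  intro σ
  simp only [pow_zero, mul_one]
  exact measure_mono (subset_univ _)

theorem wa_rounds_block {d : ℕ} {μ : Measure (Fin d → ℝ)} [IsFiniteMeasure μ] (hac : μ ≪ volume) {t D : ℕ}
    (h : WaRounds μ (d * t) D) : ∀ s, s ≤ d → WaRounds μ (d * t + s) (D + s * (d * (2 ^ (t + 1) - 1))) := by
  intro s
  induction s with
  | zero => intro _; simpa using h
  | succ s ih =>
    intro hs
    have h1 := ih (by omega)
    have hpos : 1 ≤ 2 ^ (t + 1) := Nat.one_le_two_pow
    have hm : 2 ^ (d * t + s) < (2 ^ (t + 1) - 1 + 1) ^ d := by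
      rw [Nat.sub_add_cancel hpos, ← pow_mul]
      apply Nat.pow_lt_pow_right (by norm_num)
      have : (t + 1) * d = d * t + d := by ring
      omega
    have h2 := wa_rounds_step hac h1 (2 ^ (t + 1) - 1) hm
    have e : D + s * (d * (2 ^ (t + 1) - 1)) + d * (2 ^ (t + 1) - 1) =
        D + (s + 1) * (d * (2 ^ (t + 1) - 1)) := by ring
    rw [e] at h2
    exact h2

theorem wa_rounds_all {d : ℕ} (μ : Measure (Fin d → ℝ)) [IsFiniteMeasure μ] (hac : μ ≪ volume) (t : ℕ) :
    WaRounds μ (d * t) (2 * d ^ 2 * 2 ^ t) := by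
  induction t with
  | zero => exact wa_rounds_mono (by simpa using wa_rounds_zero μ) (Nat.zero_le _)
  | succ t ih =>
    have h1 := wa_rounds_block hac ih d le_rfl
    have e : d * t + d = d * (t + 1) := by ring
    rw [e] at h1
    apply wa_rounds_mono h1
    have h2 : d * (d * (2 ^ (t + 1) - 1)) ≤ d * (d * 2 ^ (t + 1)) :=
      Nat.mul_le_mul_left _ (Nat.mul_le_mul_left _ (Nat.sub_le _ _))
    calc 2 * d ^ 2 * 2 ^ t + d * (d * (2 ^ (t + 1) - 1))
        ≤ 2 * d ^ 2 * 2 ^ t + d * (d * 2 ^ (t + 1)) := Nat.add_le_add_left h2 _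
      _ = 2 * d ^ 2 * 2 ^ (t + 1) := by ring

/-- **LEAF L-WA-PART: polynomial partitioning**, `d * m` rounds.   Copy of `R273.bu_rounds_zero/_mono/_block/_all` on top of `wa_rounds_step`. -/
theorem wa_partition {d : ℕ} (μ : Measure (Fin d → ℝ)) [IsFiniteMeasure μ] (hac : μ ≪ volume) (m : ℕ) :
    ∃ P : Fin (d * m) → MvPolynomial (Fin d) ℝ, (∀ k, P k ≠ 0) ∧ ∑ k, (P k).totalDegree ≤ 2 * d ^ 2 * 2 ^ m ∧
      ∀ σ : Fin (d * m) → Bool, μ (waCls P σ) * 2 ^ (d * m) ≤ μ univ := by

  exact wa_rounds_all μ hac m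

end Claimed.Agent.R257
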