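import Claimed.Agent.R257.Wall.ADefs

/-!
# R257/Wall, unit WALL-A, file 4: lines and sign classes            (architect helper18)
PAPER-FREE.  Every `sorry` is a leaf `L-WA-*`.  Statements are frozen (a FALSE statement: one line to helper18); auxiliary lemmas (prefix `wa_`) directly above your theorem; edit only your block.
-/

set_option autoImplicit false
open MeasureTheory Set Metric
open scoped BigOperators ENNReal

namespace Claimed.Agent.R257

open Claimed.Agent.MK

/-- **LEAF L-WA-CLS (1).**  Finite intersection of open sets (`MvPolynomial.continuous_eval`, `isOpen_lt`, `isOpen_iInter_of_finite`; split on `σ k`). -/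
theorem wa_cls_isOpen {d J : ℕ} (P : Fin J → MvPolynomial (Fin d) ℝ) (σ : Fin J → Bool) : IsOpen (waCls P σ) := by
  have e : waCls P σ = ⋂ k, {z | if σ k = true then 0 < MvPolynomial.eval z (P k)
      else MvPolynomial.eval z (P k) < 0} := by
    ext z
    simp [waCls]
  rw [e]
  refine isOpen_iInter_of_finite fun k => ?_
  have hc : Continuous fun z : Fin d → ℝ => MvPolynomial.eval z (P k) := MvPolynomial.continuous_eval (P k)
  by_cases h : σ k = true
  · simp only [h, if_true]
    exact isOpen_lt continuous_const hc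
  · simp only [h]
    exact isOpen_lt hc continuous_const

/-- **LEAF L-WA-CLS (2).** -/
theorem wa_cls_disjoint {d J : ℕ} (P : Fin J → MvPolynomial (Fin d) ℝ) {σ σ' : Fin J → Bool} (h : σ ≠ σ') :
    Disjoint (waCls P σ) (waCls P σ') := by
  rw [Set.disjoint_left]
  intro z hz hz'
  obtain ⟨k, hk⟩ := Function.ne_iff.1 h
  have h1 := hz k
  have h2 := hz' k
  cases hσ : σ k <;> cases hσ' : σ' k
  · exact hk (hσ.trans hσ'.symm)
  · simp only [hσ, hσ', if_true, Bool.false_eq_true, if_false] at h1 h2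
    linarith
  · simp only [hσ, hσ', if_true, Bool.false_eq_true, if_false] at h1 h2
    linarith
  · exact hk (hσ.trans hσ'.symm)

/-- **LEAF L-WA-CLS (3).**  `waVisSet O a v = ⋃ t, (fun b => a + b + t • v) ⁻¹' O`. -/
theorem wa_visSet_isOpen {d : ℕ} {O : Set (Fin d → ℝ)} (hO : IsOpen O) (a v : Fin d → ℝ) : IsOpen (waVisSet O a v) := by
  have e : waVisSet O a v = ⋃ t : ℝ, (fun b => a + b + t • v) ⁻¹' O := by
    ext b
    simp [waVisSet]
  rw [e]
  refine isOpen_iUnion fun t => hO.preimage ?_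
  fun_prop

/-- **LEAF L-WA-SEP.**  Induction on `T.card`: remove `t = T.max'`; if `T.erase t` is nonempty with maximum `s`, take `z ∈ Z` with `s < z < t` and apply the induction hypothesis to `T.erase t`, `Z.erase z`
(a separator of two points `≤ s` is `< s < z`). -/
theorem wa_sep_card (T Z : Finset ℝ) (h : ∀ s ∈ T, ∀ t ∈ T, s < t → ∃ z ∈ Z, s < z ∧ z < t) : T.card ≤ Z.card + 1 := by
  induction hn : T.card generalizing T Z with
  | zero => omega
  | succ n ih =>
    have hT : T.Nonempty := Finset.card_pos.1 (by omega)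
    have htT := T.max'_mem hT
    by_cases hE : (T.erase (T.max' hT)).Nonempty
    · have hsT := Finset.max'_mem _ hE
      have hst : (T.erase (T.max' hT)).max' hE < T.max' hT :=
        lt_of_le_of_ne (T.le_max' _ (Finset.mem_of_mem_erase hsT)) (Finset.ne_of_mem_erase hsT)
      obtain ⟨z, hz, hsz, hzt⟩ := h _ (Finset.mem_of_mem_erase hsT) _ htT hst
      have key := ih (T.erase (T.max' hT)) (Z.erase z) (by
        intro s' hs' t' ht' hlt
        obtain ⟨z', hz', h1, h2⟩ := h s' (Finset.mem_of_mem_erase hs') t' (Finset.mem_of_mem_erase ht') hlt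
        refine ⟨z', Finset.mem_erase.2 ⟨?_, hz'⟩, h1, h2⟩
        have h3 : t' ≤ (T.erase (T.max' hT)).max' hE := Finset.le_max' _ _ ht'
        intro he
        rw [he] at h2
        linarith) (by rw [Finset.card_erase_of_mem htT]; omega)
      rw [Finset.card_erase_of_mem hz] at key
      have hZ : 0 < Z.card := Finset.card_pos.2 ⟨z, hz⟩
      omega
    · rw [Finset.not_nonempty_iff_eq_empty] at hE
      have h0 : (T.erase (T.max' hT)).card = 0 := by rw [hE]; rfl
      rw [Finset.card_erase_of_mem htT] at h0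
      omega

/-- **LEAF L-WA-VIS.**  `MK.poly_line (P k) le_rfl a v` : the first alternative is excluded by `hne`, so the zeros of `t ↦ eval (a + t • v) (P k)` lie in `Z k`, `card ≤ totalDegree`;  `Z = univ.biUnion Z k` (`Finset.card_biUnion_le`).
For `σ ∈ waVis` choose a time `τ σ`;  `τ` is injective on `waVis` (classes are disjoint);  for `τ σ < τ σ'`, `σ k ≠ σ' k`: opposite strict signs of the continuous function `t ↦ eval (a + t • v) (P k)`, IVT
(`intermediate_value_Icc`/`'`) gives a zero strictly between.   `wa_sep_card` for `T = (waVis ..).image τ`. -/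
theorem wa_vis_card {d J : ℕ} (P : Fin J → MvPolynomial (Fin d) ℝ) (a v : Fin d → ℝ)
    (hne : ∀ k, ∃ t : ℝ, MvPolynomial.eval (a + t • v) (P k) ≠ 0) :
    (waVis P a v).card ≤ ∑ k, (P k).totalDegree + 1 := by
  classical
  have hZ : ∀ k, ∃ Z : Finset ℝ, Z.card ≤ (P k).totalDegree ∧
      ∀ t : ℝ, MvPolynomial.eval (a + t • v) (P k) = 0 → t ∈ Z := by
    intro k
    rcases MK.poly_line (P k) le_rfl a v with h | h
    · obtain ⟨t, ht⟩ := hne k
      exact absurd (h t) ht
    · exact h
  choose Z hZc hZm using hZ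
  have hmem : ∀ σ ∈ waVis P a v, ∃ t : ℝ, a + t • v ∈ waCls P σ := by
    intro σ hσ
    unfold waVis at hσ
    exact (Finset.mem_filter.1 hσ).2
  obtain ⟨τ, hτ⟩ : ∃ τ : (Fin J → Bool) → ℝ, ∀ σ ∈ waVis P a v, a + τ σ • v ∈ waCls P σ := by
    refine ⟨fun σ => if h : ∃ t : ℝ, a + t • v ∈ waCls P σ then h.choose else 0, fun σ hσ => ?_⟩
    have h := hmem σ hσ
    simp only [h, dif_pos]
    exact h.choose_spec
  have hinj : Set.InjOn τ (waVis P a v : Set (Fin J → Bool)) := by
    intro σ hσ σ' hσ' he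
    by_contra hne'
    have h1 := hτ σ hσ
    have h2 := hτ σ' hσ'
    rw [← he] at h2
    exact Set.disjoint_left.1 (wa_cls_disjoint P hne') h1 h2
  have hcard : ((waVis P a v).image τ).card = (waVis P a v).card := Finset.card_image_of_injOn hinj
  have hsep := wa_sep_card ((waVis P a v).image τ) (Finset.univ.biUnion Z) (by
    intro s hs t ht hst
    obtain ⟨σ, hσ, rfl⟩ := Finset.mem_image.1 hs
    obtain ⟨σ', hσ', rfl⟩ := Finset.mem_image.1 ht
    have hσσ : σ ≠ σ' := by
      rintro rfl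
      exact lt_irrefl _ hst
    obtain ⟨k, hk⟩ := Function.ne_iff.1 hσσ
    have h1 := hτ σ hσ k
    have h2 := hτ σ' hσ' k
    have hc : Continuous fun u : ℝ => MvPolynomial.eval (a + u • v) (P k) :=
      (MvPolynomial.continuous_eval (P k)).comp (by fun_prop)
    have hz : ∃ z ∈ Icc (τ σ) (τ σ'), MvPolynomial.eval (a + z • v) (P k) = 0 := by
      cases e1 : σ k <;> cases e2 : σ' k
      · exact absurd (e1.trans e2.symm) hk
      · simp only [e1, e2, if_true, Bool.false_eq_true, if_false] at h1 h2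
        exact intermediate_value_Icc hst.le hc.continuousOn ⟨h1.le, h2.le⟩
      · simp only [e1, e2, if_true, Bool.false_eq_true, if_false] at h1 h2
        exact intermediate_value_Icc' hst.le hc.continuousOn ⟨h2.le, h1.le⟩
      · exact absurd (e1.trans e2.symm) hk
    obtain ⟨z, hzI, hz0⟩ := hz
    have nz : ∀ (b : Bool) (x : ℝ), (if b = true then 0 < x else x < 0) → x ≠ 0 := by
      intro b x hx
      cases b
      · simp only [Bool.false_eq_true, if_false] at hx
        exact hx.ne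
      · simp only [if_true] at hx
        exact hx.ne'
    have n1 := nz _ _ h1
    have n2 := nz _ _ h2
    refine ⟨z, Finset.mem_biUnion.2 ⟨k, Finset.mem_univ k, hZm k z hz0⟩, lt_of_le_of_ne hzI.1 ?_,
      lt_of_le_of_ne hzI.2 ?_⟩
    · intro he
      rw [he] at n1
      exact n1 hz0
    · intro he
      rw [← he] at n2
      exact n2 hz0)
  rw [hcard] at hsep
  have hb : (Finset.univ.biUnion Z).card ≤ ∑ k, (P k).totalDegree :=
    Finset.card_biUnion_le.trans (Finset.sum_le_sum fun k _ => hZc k)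
  omega

/-- **LEAF L-WA-VISAE.**  For a.e. `b`, all `k`: `eval (a + b) (P k) ≠ 0` (`MK.poly_null`, translation invariance `measure_preimage_add`, `ae_all_iff`); take `t = 0` in `wa_vis_card`. -/
theorem wa_vis_ae {d J : ℕ} (P : Fin J → MvPolynomial (Fin d) ℝ) (hP : ∀ k, P k ≠ 0) (a v : Fin d → ℝ) :
    ∀ᵐ b ∂(volume : Measure (Fin d → ℝ)), (waVis P (a + b) v).card ≤ ∑ k, (P k).totalDegree + 1 := by
  have h1 : ∀ᵐ b ∂(volume : Measure (Fin d → ℝ)), ∀ k, MvPolynomial.eval (a + b) (P k) ≠ 0 := by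
    rw [ae_all_iff]
    intro k
    rw [ae_iff]
    have e : {b : Fin d → ℝ | ¬ MvPolynomial.eval (a + b) (P k) ≠ 0}
        = (fun b => a + b) ⁻¹' {x : Fin d → ℝ | MvPolynomial.eval x (P k) = 0} := by
      ext b
      simp
    rw [e, measure_preimage_add]
    exact MK.poly_null (P k) (hP k)
  filter_upwards [h1] with b hb
  exact wa_vis_card P (a + b) v fun k => ⟨0, by simpa using hb k⟩

/-- **LEAF L-WA-PR (1).**  `volume (closedBall 0 r) = ofReal ((2 r)^d)` (`Real.volume_pi_closedBall`). -/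
theorem wa_pr_nonneg_le {d : ℕ} (O : Set (Fin d → ℝ)) (a v : Fin d → ℝ) {r : ℝ} (hr : 0 < r) :
    0 ≤ waPr O a v r ∧ waPr O a v r ≤ 1 := by
  have hp : (0 : ℝ) < (2 * r) ^ d := by positivity
  unfold waPr
  refine ⟨by positivity, ?_⟩
  rw [div_le_one hp]
  have h1 : volume (closedBall (0 : Fin d → ℝ) r ∩ waVisSet O a v) ≤ ENNReal.ofReal ((2 * r) ^ d) := by
    refine (measure_mono inter_subset_left).trans ?_
    rw [Real.volume_pi_closedBall _ hr.le, Fintype.card_fin]
  exact ENNReal.toReal_le_of_le_ofReal hp.le h1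

/-- **LEAF L-WA-PRSUM.**  `∑_σ volume (Q ∩ waVisSet (waCls P σ) a v) = ∫⁻ b in Q, (waVis P (a + b) v).card ≤ (∑ deg + 1) * volume Q`  (`Q = closedBall 0 r`; indicators, `lintegral_finset_sum`, measurability from
`wa_visSet_isOpen`, `wa_cls_isOpen`; `wa_vis_ae`);  all terms finite, pass to `toReal` and divide by `(2 r)^d`. -/
theorem wa_pr_sum {d J : ℕ} (P : Fin J → MvPolynomial (Fin d) ℝ) (hP : ∀ k, P k ≠ 0) (a v : Fin d → ℝ) {r : ℝ} (hr : 0 < r) :
    ∑ σ : Fin J → Bool, waPr (waCls P σ) a v r ≤ (∑ k, (P k).totalDegree : ℕ) + 1 := by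
  classical
  have hp : (0 : ℝ) < (2 * r) ^ d := by positivity
  have hQ : volume (closedBall (0 : Fin d → ℝ) r) = ENNReal.ofReal ((2 * r) ^ d) := by
    rw [Real.volume_pi_closedBall _ hr.le, Fintype.card_fin]
  have hm : ∀ σ, MeasurableSet (waVisSet (waCls P σ) a v) := fun σ =>
    (wa_visSet_isOpen (wa_cls_isOpen P σ) a v).measurableSet
  have h1 : ∀ σ, volume (closedBall (0 : Fin d → ℝ) r ∩ waVisSet (waCls P σ) a v)
      = ∫⁻ b in closedBall (0 : Fin d → ℝ) r, (waVisSet (waCls P σ) a v).indicator (fun _ => (1 : ℝ≥0∞)) b := by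
    intro σ
    rw [lintegral_indicator (hm σ), setLIntegral_const, one_mul, Measure.restrict_apply (hm σ), inter_comm]
  have h2 : ∑ σ : Fin J → Bool, volume (closedBall (0 : Fin d → ℝ) r ∩ waVisSet (waCls P σ) a v)
      ≤ ((∑ k, (P k).totalDegree + 1 : ℕ) : ℝ≥0∞) * ENNReal.ofReal ((2 * r) ^ d) := by
    simp only [h1]
    rw [← lintegral_finsetSum _ fun σ _ => measurable_const.indicator (hm σ), ← hQ, ← setLIntegral_const]
    refine lintegral_mono_ae ?_
    filter_upwards [ae_restrict_of_ae (wa_vis_ae P hP a v)] with b hb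
    have e : ∑ σ : Fin J → Bool, (waVisSet (waCls P σ) a v).indicator (fun _ => (1 : ℝ≥0∞)) b
        = ((waVis P (a + b) v).card : ℝ≥0∞) := by
      unfold waVis
      rw [Finset.card_filter]
      push_cast
      refine Finset.sum_congr rfl fun σ _ => ?_
      by_cases hb' : b ∈ waVisSet (waCls P σ) a v
      · rw [indicator_of_mem hb']
        exact (if_pos hb').symm
      · rw [indicator_of_notMem hb']
        exact (if_neg hb').symm
    rw [e]
    exact_mod_cast hb
  have hfin : ∀ σ, volume (closedBall (0 : Fin d → ℝ) r ∩ waVisSet (waCls P σ) a v) ≠ ∞ := fun σ =>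
    ((measure_mono inter_subset_left).trans_lt (by rw [hQ]; exact ENNReal.ofReal_lt_top)).ne
  unfold waPr
  rw [← Finset.sum_div, div_le_iff₀ hp, ← ENNReal.toReal_sum fun σ _ => hfin σ]
  have h3 := ENNReal.toReal_mono (ENNReal.mul_ne_top (ENNReal.natCast_ne_top _) ENNReal.ofReal_ne_top) h2
  rw [ENNReal.toReal_mul, ENNReal.toReal_ofReal hp.le, ENNReal.toReal_natCast] at h3
  push_cast at h3 ⊢
  exact h3

/-- **LEAF L-WA-PRLOW.**  `‖y - a - t • v‖ ≤ ρ`, `p = a + t • v`.   `{b ∈ closedBall 0 (r0+ρ) | p + b ∈ O} ⊆ closedBall 0 (r0+ρ) ∩ waVisSet O a v`, and its volume is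
`volume (O ∩ closedBall p (r0+ρ)) ≥ volume (O ∩ closedBall y r0)` (translation invariance; `closedBall y r0 ⊆ closedBall p (r0+ρ)`). -/
theorem wa_pr_low {d : ℕ} (O : Set (Fin d → ℝ)) (a v y : Fin d → ℝ) {r0 ρ c : ℝ} (hr0 : 0 < r0) (hρ : 0 ≤ ρ) (hc : 0 ≤ c)
    (hy : y ∈ tube a v ρ) (hO : ENNReal.ofReal (c * (2 * r0) ^ d) ≤ volume (O ∩ closedBall y r0)) :
    c * (r0 / (r0 + ρ)) ^ d ≤ waPr O a v (r0 + ρ) := by
  obtain ⟨t, ht⟩ := hy
  have hR : 0 < r0 + ρ := by linarith
  have hp : (0 : ℝ) < (2 * (r0 + ρ)) ^ d := by positivity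
  have hsub : (fun b => (a + t • v) + b) ⁻¹' (O ∩ closedBall y r0)
      ⊆ closedBall (0 : Fin d → ℝ) (r0 + ρ) ∩ waVisSet O a v := by
    intro b hb
    obtain ⟨hb1, hb2⟩ := hb
    refine ⟨?_, t, ?_⟩
    · rw [mem_closedBall_zero_iff]
      rw [mem_closedBall, dist_eq_norm] at hb2
      have e : b = ((a + t • v) + b - y) + (y - a - t • v) := by abel
      rw [e]
      exact (norm_add_le _ _).trans (add_le_add hb2 ht)
    · have e : a + b + t • v = (a + t • v) + b := by abel
      rw [e]
      exact hb1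
  have h1 : ENNReal.ofReal (c * (2 * r0) ^ d) ≤ volume (closedBall (0 : Fin d → ℝ) (r0 + ρ) ∩ waVisSet O a v) := by
    refine hO.trans ?_
    rw [← measure_preimage_add volume (a + t • v) (O ∩ closedBall y r0)]
    exact measure_mono hsub
  have hfin : volume (closedBall (0 : Fin d → ℝ) (r0 + ρ) ∩ waVisSet O a v) ≠ ∞ :=
    ((measure_mono inter_subset_left).trans_lt measure_closedBall_lt_top).ne
  have h2 := (ENNReal.ofReal_le_iff_le_toReal hfin).1 h1
  unfold waPr
  rw [le_div_iff₀ hp]
  refine le_trans (le_of_eq ?_) h2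
  rw [div_pow, mul_pow, mul_pow]
  field_simp

end Claimed.Agent.R257
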