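import Claimed.Agent.R257.Wall.QX
import Claimed.Agent.R257.Ang.Defs

/-!
# R257 / Wall / Conv : the narrow sets of WALL (`NarrowA`, `NarrowB`: velocities, coordinates, sup norm) are narrow sets of ANGULAR (`Strip2`, `QHyp`: frequencies, `EuclideanSpace`)      (WALL captain helper185)      CONTRACT
PAPER-FREE, linear algebra.  Every `sorry` is a leaf `L-257-WV-*`.  Statements are frozen (a FALSE statement: one line to helper185); auxiliary lemmas (prefix `wv_`) directly above your theorem; edit only your block.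

EXIT FOR THE ADAPTER: `wv_conv`: `¬ Narrow Cw Cq cq R T` (the form of `WHOut.broad`, `T` = frequency centres)  ⟹  (H2), (H3) of `WcStmt` for the velocity centres `wvVel '' T`, `δ = 1/R`, `τ = R⁻⁴`.
-/

set_option autoImplicit false
open scoped BigOperators InnerProductSpace

namespace Claimed.Agent.R257

/-- the velocity `2ω` of the frequency `ω`, in coordinates -/
def wvVel {n : ℕ} (ω : E n) : Fin n → ℝ := fun i => 2 * ω i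

/-- **LEAF L-257-WV-NORM.**   `EuclideanSpace.norm_eq`, `Real.sqrt_le_sqrt`, `∑ x i² ≤ n h²`, `Real.sqrt_mul_self`. -/
theorem wv_norm_le {n : ℕ} (x : E n) (h : ℝ) (hh : 0 ≤ h) (hx : ∀ i, |x i| ≤ h) : ‖x‖ ≤ Real.sqrt n * h := by
  have h1 : ‖x‖ ^ 2 ≤ (Real.sqrt n * h) ^ 2 := by
    rw [EuclideanSpace.norm_sq_eq, mul_pow, Real.sq_sqrt (Nat.cast_nonneg n)]
    calc ∑ i, ‖x i‖ ^ 2 ≤ ∑ _i : Fin n, h ^ 2 := by
          refine Finset.sum_le_sum fun i _ => ?_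
          rw [Real.norm_eq_abs]
          exact pow_le_pow_left₀ (abs_nonneg _) (hx i) 2
      _ = n * h ^ 2 := by simp
  exact (pow_le_pow_iff_left₀ (norm_nonneg _) (by positivity) two_ne_zero).1 h1

/-- **LEAF L-257-WV-PAIR (an orthonormal pair orthogonal to `n-2` vectors).**   `V = Submodule.span ℝ (Set.range d)`, `finrank V ≤ n - 2` (`finrank_range_le_card`/`finrank_span_le_card`), `finrank V + finrank Vᗮ = n` (`Submodule.finrank_add_finrank_orthogonal`, `finrank_euclideanSpace_fin`),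
so `2 ≤ finrank Vᗮ`; `stdOrthonormalBasis ℝ Vᗮ` at the indices `0, 1`; membership in `Vᗮ` (`Submodule.mem_orthogonal`, `Submodule.subset_span`). -/
theorem wv_pair {n : ℕ} (hn : 2 ≤ n) (d : Fin (n - 2) → E n) :
    ∃ e₁ e₂ : E n, ‖e₁‖ = 1 ∧ ‖e₂‖ = 1 ∧ ⟪e₁, e₂⟫_ℝ = 0 ∧ ∀ k, ⟪e₁, d k⟫_ℝ = 0 ∧ ⟪e₂, d k⟫_ℝ = 0 := by
  set V : Submodule ℝ (E n) := Submodule.span ℝ (Set.range d) with hV
  have h1 : Module.finrank ℝ V ≤ n - 2 := by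
    have := finrank_range_le_card (R := ℝ) d
    rw [Fintype.card_fin] at this
    exact this
  have h2 : Module.finrank ℝ V + Module.finrank ℝ Vᗮ = n := by
    rw [Submodule.finrank_add_finrank_orthogonal, finrank_euclideanSpace_fin]
  have h3 : 2 ≤ Module.finrank ℝ Vᗮ := by omega
  have hon := (stdOrthonormalBasis ℝ Vᗮ).orthonormal
  have hne : (⟨0, by omega⟩ : Fin (Module.finrank ℝ Vᗮ)) ≠ ⟨1, by omega⟩ := by
    simp [Fin.ext_iff]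
  have hmem : ∀ (i : Fin (Module.finrank ℝ Vᗮ)) k, ⟪((stdOrthonormalBasis ℝ Vᗮ) i : E n), d k⟫_ℝ = 0 := by
    intro i k
    have hm := ((stdOrthonormalBasis ℝ Vᗮ) i).2
    rw [Submodule.mem_orthogonal] at hm
    rw [real_inner_comm]
    exact hm _ (Submodule.subset_span ⟨k, rfl⟩)
  refine ⟨((stdOrthonormalBasis ℝ Vᗮ) ⟨0, by omega⟩ : E n), ((stdOrthonormalBasis ℝ Vᗮ) ⟨1, by omega⟩ : E n),
    ?_, ?_, ?_, fun k => ⟨hmem _ k, hmem _ k⟩⟩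
  · rw [← Submodule.coe_norm]
    exact hon.1 ⟨0, by omega⟩
  · rw [← Submodule.coe_norm]
    exact hon.1 ⟨1, by omega⟩
  · rw [← Submodule.coe_inner]
    exact hon.2 hne

theorem wv_convA_aux {n : ℕ} (e v C₀ : E n) (he : ‖e‖ = 1) (d' : Fin (n - 2) → E n)
    (hd : ∀ k, ⟪e, d' k⟫_ℝ = 0) (μ : Fin (n - 2) → ℝ) (h : ℝ) (hh : 0 ≤ h)
    (hρ : ∀ i, |((2 : ℝ) • v - C₀ - ∑ k, μ k • d' k) i| ≤ h) :
    |⟪e, v⟫_ℝ - ⟪e, C₀⟫_ℝ / 2| ≤ Real.sqrt n * h / 2 := by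
  have h1 := wv_norm_le _ h hh hρ
  have h2 : ⟪e, (2 : ℝ) • v - C₀ - ∑ k, μ k • d' k⟫_ℝ = 2 * (⟪e, v⟫_ℝ - ⟪e, C₀⟫_ℝ / 2) := by
    rw [inner_sub_right, inner_sub_right, inner_smul_right, inner_sum]
    have : ∑ k, ⟪e, μ k • d' k⟫_ℝ = 0 :=
      Finset.sum_eq_zero fun k _ => by rw [inner_smul_right, hd k, mul_zero]
    rw [this]
    ring
  have h3 := abs_real_inner_le_norm e ((2 : ℝ) • v - C₀ - ∑ k, μ k • d' k)
  rw [h2, he, one_mul, abs_mul, abs_two] at h3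
  linarith

/-- **LEAF L-257-WV-CONVA.**   `e₁, e₂` from `wv_pair` for `d' k = toLp (d k)`; `c_j = ⟪e_j, toLp c₀⟫ / 2`.   For `v ∈ T`: `ρ = 2 • v - toLp c₀ - ∑ μ k • d' k` has `|ρ i| ≤ h`, `‖ρ‖ ≤ √n h` (`wv_norm_le`; `0 ≤ h` from the hypothesis at `v`, `n ≥ 1`),
`⟪e_j, v⟫ - c_j = ⟪e_j, ρ⟫ / 2`, Cauchy-Schwarz (`abs_real_inner_le_norm`). -/
theorem wv_convA {n : ℕ} (hn : 2 ≤ n) (T : Set (E n)) (h : ℝ) (H : NarrowA (wvVel '' T) h) : Strip2 (Real.sqrt n * h / 2) T := by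
  obtain ⟨c₀, d, H⟩ := H
  obtain ⟨e₁, e₂, h1, h2, h12, hd⟩ := wv_pair hn (fun k => (WithLp.toLp 2 (d k) : E n))
  refine ⟨e₁, e₂, ⟪e₁, (WithLp.toLp 2 c₀ : E n)⟫_ℝ / 2, ⟪e₂, (WithLp.toLp 2 c₀ : E n)⟫_ℝ / 2, h1, h2, h12, fun v hv => ?_⟩
  obtain ⟨μ, hμ⟩ := H (wvVel v) ⟨v, hv, rfl⟩
  have hh : 0 ≤ h := (abs_nonneg _).trans (hμ ⟨0, by omega⟩)
  have hρ : ∀ i, |((2 : ℝ) • v - (WithLp.toLp 2 c₀ : E n) - ∑ k, μ k • (WithLp.toLp 2 (d k) : E n)) i| ≤ h := by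
    intro i
    have := hμ i
    simpa [wvVel] using this
  exact ⟨wv_convA_aux e₁ v _ h1 _ (fun k => (hd k).1) μ h hh hρ, wv_convA_aux e₂ v _ h2 _ (fun k => (hd k).2) μ h hh hρ⟩

theorem wv_inner {n : ℕ} (x y : E n) : ⟪x, y⟫_ℝ = ∑ i, x i * y i := by
  simp [PiLp.inner_apply, mul_comm]

theorem wv_op {n : ℕ} (M : Fin n → Fin n → ℝ) : ∃ A : E n →L[ℝ] E n, ∀ w i, A w i = ∑ k, M i k * w k := by
  refine ⟨(Matrix.toEuclideanLin (Matrix.of M)).toContinuousLinearMap, fun w i => ?_⟩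
  simp [Matrix.toLpLin_apply, Matrix.mulVec, dotProduct]

/-- **LEAF L-257-WV-TAYLOR (a polynomial of degree 2 around `o`, inner product form).**   `S₁` = the operator of the matrix `M i k = 2 (S i k + S k i)` (`Matrix.toEuclideanCLM` / `(Matrix.toEuclideanLin M).toContinuousLinearMap`; or `∑ i k, M i k • (innerSL e_k).smulRight e_i`),
`g i = 2 b i + 4 ∑ k, (S i k + S k i) o k`.   All inner products are `∑ i, x i * y i` (`EuclideanSpace.inner_eq_star_dotProduct` / `PiLp.inner_apply`); expand `wqPoly`, `Finset.sum_add_distrib`, `Finset.mul_sum`, `Finset.sum_comm`, `ring`. -/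
theorem wv_taylor {n : ℕ} (S : Fin n → Fin n → ℝ) (b : Fin n → ℝ) (c0 : ℝ) (o : E n) :
    ∃ (S₁ : E n →L[ℝ] E n) (g : E n), (∀ v w, ⟪S₁ v, w⟫_ℝ = ⟪v, S₁ w⟫_ℝ) ∧
      ∀ w : E n, wqPoly S b c0 (wvVel (o + w)) = ⟪S₁ w, w⟫_ℝ + ⟪g, w⟫_ℝ + wqPoly S b c0 (wvVel o) := by
  obtain ⟨A, hA⟩ := wv_op (fun i k => 2 * (S i k + S k i))
  refine ⟨A, WithLp.toLp 2 (fun i => 2 * b i + 4 * ∑ k, (S i k + S k i) * o k), fun v w => ?_, fun w => ?_⟩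
  · rw [wv_inner, wv_inner]
    simp only [hA, Finset.sum_mul, Finset.mul_sum]
    rw [Finset.sum_comm]
    refine Finset.sum_congr rfl fun i _ => Finset.sum_congr rfl fun k _ => ?_
    ring
  · have hsw : ∀ x y : Fin n → ℝ, ∑ i, ∑ k, S k i * x k * y i = ∑ i, ∑ k, S i k * x i * y k :=
      fun x y => Finset.sum_comm
    have e1 : ⟪A w, w⟫_ℝ = 4 * ∑ i, ∑ k, S i k * w i * w k := by
      rw [wv_inner]
      simp only [hA]
      have : ∑ i, (∑ k, 2 * (S i k + S k i) * w k) * w i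
          = 2 * ∑ i, ∑ k, S i k * w i * w k + 2 * ∑ i, ∑ k, S k i * w k * w i := by
        simp only [Finset.mul_sum, Finset.sum_mul, ← Finset.sum_add_distrib]
        refine Finset.sum_congr rfl fun i _ => Finset.sum_congr rfl fun k _ => ?_
        ring
      rw [this, hsw (fun i => w i) (fun i => w i)]
      ring
    have e2 : ⟪(WithLp.toLp 2 (fun i => 2 * b i + 4 * ∑ k, (S i k + S k i) * o k) : E n), w⟫_ℝ
        = 2 * ∑ i, b i * w i + 4 * ∑ i, ∑ k, S i k * w i * o k + 4 * ∑ i, ∑ k, S i k * o i * w k := by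
      rw [wv_inner]
      have : ∑ i, (2 * b i + 4 * ∑ k, (S i k + S k i) * o k) * w i
          = 2 * ∑ i, b i * w i + 4 * ∑ i, ∑ k, S i k * w i * o k + 4 * ∑ i, ∑ k, S k i * o k * w i := by
        simp only [Finset.mul_sum, Finset.sum_mul, add_mul, ← Finset.sum_add_distrib]
        refine Finset.sum_congr rfl fun i _ => ?_
        simp only [add_assoc, ← Finset.sum_add_distrib]
        congr 1
        · ring
        · refine Finset.sum_congr rfl fun k _ => ?_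
          ring
      rw [← hsw (fun i => o i) (fun i => w i)]
      exact this
    have e3 : wqPoly S b c0 (wvVel (o + w)) = 4 * ∑ i, ∑ k, S i k * w i * w k
        + (2 * ∑ i, b i * w i + 4 * ∑ i, ∑ k, S i k * w i * o k + 4 * ∑ i, ∑ k, S i k * o i * w k)
        + wqPoly S b c0 (wvVel o) := by
      unfold wqPoly wvVel
      simp only [PiLp.add_apply]
      have h1 : ∑ i, ∑ k, S i k * (2 * (o i + w i)) * (2 * (o k + w k))
          = 4 * ∑ i, ∑ k, S i k * w i * w k + 4 * ∑ i, ∑ k, S i k * w i * o k + 4 * ∑ i, ∑ k, S i k * o i * w k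
            + ∑ i, ∑ k, S i k * (2 * o i) * (2 * o k) := by
        simp only [Finset.mul_sum, ← Finset.sum_add_distrib]
        refine Finset.sum_congr rfl fun i _ => Finset.sum_congr rfl fun k _ => ?_
        ring
      have h2 : ∑ i, b i * (2 * (o i + w i)) = 2 * ∑ i, b i * w i + ∑ i, b i * (2 * o i) := by
        simp only [Finset.mul_sum, ← Finset.sum_add_distrib]
        refine Finset.sum_congr rfl fun i _ => ?_
        ring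
      rw [h1, h2]
      ring
    rw [e1, e2, e3]

/-- a symmetric operator is bounded by its quadratic form -/
theorem wv_sym_norm {n : ℕ} (T : E n →L[ℝ] E n) (hT : ∀ v w, ⟪T v, w⟫_ℝ = ⟪v, T w⟫_ℝ) (M : ℝ) (hM : 0 ≤ M)
    (h : ∀ z, |⟪T z, z⟫_ℝ| ≤ M * ‖z‖ ^ 2) : ‖T‖ ≤ M := by
  have hpol : ∀ v w : E n, 4 * ⟪T v, w⟫_ℝ ≤ 2 * M * (‖v‖ ^ 2 + ‖w‖ ^ 2) := by
    intro v w
    have e1 : 4 * ⟪T v, w⟫_ℝ = ⟪T (v + w), v + w⟫_ℝ - ⟪T (v - w), v - w⟫_ℝ := by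
      simp only [map_add, map_sub, inner_add_left, inner_add_right, inner_sub_left, inner_sub_right]
      rw [hT w v, real_inner_comm (T v) w]
      ring
    have e2 := parallelogram_law_with_norm ℝ v w
    have e3 := (abs_le.1 (h (v + w))).2
    have e4 := (abs_le.1 (h (v - w))).1
    rw [e1]
    nlinarith
  refine ContinuousLinearMap.opNorm_le_bound _ hM fun v => ?_
  by_cases hv : v = 0
  · simp [hv]
  by_cases hTv : T v = 0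
  · rw [hTv, norm_zero]
    positivity
  have ha : 0 < ‖v‖ := norm_pos_iff.2 hv
  have hb : 0 < ‖T v‖ := norm_pos_iff.2 hTv
  have h1 := hpol v ((‖v‖ / ‖T v‖) • T v)
  rw [inner_smul_right, real_inner_self_eq_norm_sq, norm_smul, mul_pow, Real.norm_eq_abs, sq_abs, div_pow] at h1
  have e5 : ‖v‖ ^ 2 / ‖T v‖ ^ 2 * ‖T v‖ ^ 2 = ‖v‖ ^ 2 := by field_simp
  have e6 : ‖v‖ / ‖T v‖ * ‖T v‖ ^ 2 = ‖v‖ * ‖T v‖ := by field_simp
  rw [e5, e6] at h1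
  have h2 : ‖v‖ * ‖T v‖ ≤ ‖v‖ * (M * ‖v‖) := by nlinarith
  exact le_of_mul_le_mul_left h2 ha

/-- **LEAF L-257-WV-PROJECT (coefficients tangent to the hyperplane, norms from values).**   `P w = w - ⟪e, w⟫ • e` (a continuous linear map, symmetric, `P e = 0`, `P w = w` if `w ⟂ e`, `‖P w‖ ≤ ‖w‖`, `⟪e, P w⟫ = 0`);  `S₂ = P ∘L S₁ ∘L P`, `l = P g`.
Norm of `S₂`: `|⟪S₂ z, z⟫| = |⟪S₁ (P z), P z⟫| ≤ M ‖P z‖² ≤ M ‖z‖²` (normalise `P z`; `P z = 0` trivial);  polarisation (`S₂` symmetric): `⟪S₂ v, w⟫ = (⟪S₂ (v+w), v+w⟫ - ⟪S₂ (v-w), v-w⟫)/4`, parallelogram law: `|⟪S₂ v, w⟫| ≤ M (‖v‖² + ‖w‖²)/2`;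
for `v ≠ 0`, `S₂ v ≠ 0` apply it to `v/‖v‖`, `S₂ v/‖S₂ v‖`: `‖S₂ v‖ ≤ M ‖v‖`;  `ContinuousLinearMap.opNorm_le_bound`.    Norm of `l`: `l = 0` trivial; else `w = l/‖l‖`, `⟪g, w⟫ = ⟪l, w⟫ = ‖l‖`. -/
theorem wv_project {n : ℕ} (e : E n) (he : ‖e‖ = 1) (S₁ : E n →L[ℝ] E n) (hS : ∀ v w, ⟪S₁ v, w⟫_ℝ = ⟪v, S₁ w⟫_ℝ) (g : E n) :
    ∃ (S₂ : E n →L[ℝ] E n) (l : E n), (∀ v w, ⟪S₂ v, w⟫_ℝ = ⟪v, S₂ w⟫_ℝ) ∧ S₂ e = 0 ∧ ⟪l, e⟫_ℝ = 0 ∧
      (∀ w, ⟪e, w⟫_ℝ = 0 → ⟪S₂ w, w⟫_ℝ = ⟪S₁ w, w⟫_ℝ ∧ ⟪l, w⟫_ℝ = ⟪g, w⟫_ℝ) ∧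
      (∀ M : ℝ, 0 ≤ M → (∀ w, ⟪e, w⟫_ℝ = 0 → ‖w‖ = 1 → |⟪S₁ w, w⟫_ℝ| ≤ M) → ‖S₂‖ ≤ M) ∧
      (∀ M : ℝ, 0 ≤ M → (∀ w, ⟪e, w⟫_ℝ = 0 → ‖w‖ = 1 → |⟪g, w⟫_ℝ| ≤ M) → ‖l‖ ≤ M) := by
  set P : E n →L[ℝ] E n := ContinuousLinearMap.id ℝ (E n) - (innerSL ℝ e).smulRight e with hPdef
  have hP : ∀ w, P w = w - ⟪e, w⟫_ℝ • e := by
    intro w
    simp [hPdef]
  have hee : ⟪e, e⟫_ℝ = 1 := by rw [real_inner_self_eq_norm_sq, he]; norm_num
  have hPe : P e = 0 := by rw [hP, hee, one_smul, sub_self]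
  have hPs : ∀ v w, ⟪P v, w⟫_ℝ = ⟪v, P w⟫_ℝ := by
    intro v w
    rw [hP, hP, inner_sub_left, inner_sub_right, inner_smul_left, inner_smul_right, real_inner_comm e v]
    simp only [RCLike.conj_to_real]
    ring
  have hPf : ∀ w, ⟪e, w⟫_ℝ = 0 → P w = w := by
    intro w hw
    rw [hP, hw, zero_smul, sub_zero]
  have hPo : ∀ w, ⟪e, P w⟫_ℝ = 0 := by
    intro w
    rw [hP, inner_sub_right, inner_smul_right, hee, mul_one, sub_self]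
  have hPn : ∀ w, ‖P w‖ ≤ ‖w‖ := by
    intro w
    have h1 : ‖P w‖ ^ 2 ≤ ‖w‖ ^ 2 := by
      rw [← real_inner_self_eq_norm_sq, ← real_inner_self_eq_norm_sq, hPs, hPf _ (hPo w), hP, inner_sub_right,
        inner_smul_right, real_inner_comm e w]
      nlinarith [sq_nonneg ⟪e, w⟫_ℝ]
    exact (pow_le_pow_iff_left₀ (norm_nonneg _) (norm_nonneg _) two_ne_zero).1 h1
  have hval : ∀ z, ⟪(P ∘L S₁ ∘L P) z, z⟫_ℝ = ⟪S₁ (P z), P z⟫_ℝ := by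
    intro z
    simp only [ContinuousLinearMap.comp_apply]
    rw [hPs]
  have hsym : ∀ v w, ⟪(P ∘L S₁ ∘L P) v, w⟫_ℝ = ⟪v, (P ∘L S₁ ∘L P) w⟫_ℝ := by
    intro v w
    simp only [ContinuousLinearMap.comp_apply]
    rw [hPs, hS, ← hPs]
  have hl : ∀ w, ⟪e, w⟫_ℝ = 0 → ⟪P g, w⟫_ℝ = ⟪g, w⟫_ℝ := by
    intro w hw
    rw [hPs, hPf w hw]
  refine ⟨P ∘L S₁ ∘L P, P g, hsym, ?_, ?_, fun w hw => ⟨?_, hl w hw⟩, fun M hM h => ?_, fun M hM h => ?_⟩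
  · simp only [ContinuousLinearMap.comp_apply, hPe, map_zero]
  · rw [real_inner_comm]
    exact hPo g
  · rw [hval, hPf w hw]
  · refine wv_sym_norm _ hsym M hM fun z => ?_
    rw [hval]
    by_cases hy : P z = 0
    · rw [hy, map_zero, inner_zero_left, abs_zero]
      positivity
    have hy0 : 0 < ‖P z‖ := norm_pos_iff.2 hy
    have h1 := h (‖P z‖⁻¹ • P z) (by rw [inner_smul_right, hPo, mul_zero])
      (by rw [norm_smul, norm_inv, norm_norm, inv_mul_cancel₀ hy0.ne'])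
    rw [map_smul, inner_smul_left, inner_smul_right] at h1
    simp only [RCLike.conj_to_real] at h1
    rw [← mul_assoc, abs_mul, abs_of_pos (by positivity : 0 < ‖P z‖⁻¹ * ‖P z‖⁻¹)] at h1
    have h2 : |⟪S₁ (P z), P z⟫_ℝ| ≤ M * ‖P z‖ ^ 2 := by
      have e : |⟪S₁ (P z), P z⟫_ℝ| = (‖P z‖⁻¹ * ‖P z‖⁻¹ * |⟪S₁ (P z), P z⟫_ℝ|) * ‖P z‖ ^ 2 := by
        field_simp
      rw [e]
      exact mul_le_mul_of_nonneg_right h1 (by positivity)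
    refine h2.trans ?_
    have := hPn z
    gcongr
  · by_cases hy : P g = 0
    · rw [hy, norm_zero]
      exact hM
    have hy0 : 0 < ‖P g‖ := norm_pos_iff.2 hy
    have hw0 : ⟪e, ‖P g‖⁻¹ • P g⟫_ℝ = 0 := by rw [inner_smul_right, hPo, mul_zero]
    have h1 := h (‖P g‖⁻¹ • P g) hw0 (by rw [norm_smul, norm_inv, norm_norm, inv_mul_cancel₀ hy0.ne'])
    rw [← hl _ hw0, inner_smul_right, real_inner_self_eq_norm_sq] at h1
    have e : ‖P g‖⁻¹ * ‖P g‖ ^ 2 = ‖P g‖ := by field_simp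
    rw [e, abs_of_pos hy0] at h1
    exact h1

theorem wv_vel_half {n : ℕ} (u : Fin n → ℝ) : wvVel ((1 / 2 : ℝ) • (WithLp.toLp 2 u : E n)) = u := by
  funext i
  simp [wvVel]

theorem wv_sum_vel {n : ℕ} (a : Fin n → ℝ) (ω : E n) :
    ∑ i, a i * wvVel ω i = 2 * ⟪(WithLp.toLp 2 a : E n), ω⟫_ℝ := by
  rw [wv_inner, Finset.mul_sum]
  refine Finset.sum_congr rfl fun i _ => ?_
  simp only [wvVel]
  ring

theorem wv_sqrt_le {n : ℕ} (hn : 1 ≤ n) : Real.sqrt n ≤ n := by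
  have hn' : (1 : ℝ) ≤ n := by exact_mod_cast hn
  exact Real.sqrt_le_iff.2 ⟨by positivity, by nlinarith⟩

theorem wv_half_norm {n : ℕ} (u : Fin n → ℝ) (B : ℝ) (hB : 0 ≤ B) (hu : ∀ i, |u i| ≤ B) :
    ‖(1 / 2 : ℝ) • (WithLp.toLp 2 u : E n)‖ ≤ Real.sqrt n * B / 2 := by
  have h1 := wv_norm_le (WithLp.toLp 2 u : E n) B hB hu
  rw [norm_smul, Real.norm_eq_abs, abs_of_pos (by norm_num : (0 : ℝ) < 1 / 2)]
  linarith

/-- **LEAF L-257-WV-CONVB.**   Data `a, c, S, b, c0` of `NarrowB`.   `e = toLp a` (`‖e‖ = 1`), `h = c/2`, `o = (c/2) • e`;  `p ω = wqPoly S b c0 (wvVel ω)`;  `⟪e, ω⟫ = c/2 ⟺ ∑ a i * wvVel ω i = c`.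
`S₁, g` from `wv_taylor` at `o`, `S₂, l` from `wv_project`;  `Q = ⟨e, c/2, o, S₂, l, p o⟩`;  `Q.val x = p x` if `⟪e, x⟫ = c/2` (`w = x - o ⟂ e`).
Values: for a unit `w ⟂ e` the velocities of `o, o ± w` are `c a, c a ± 2 w`, of sup norm `≤ |c| + 2 ≤ B₀` (`|a i| ≤ 1`, `|w i| ≤ ‖w‖`: `PiLp.norm_apply_le`/`EuclideanSpace.norm_eq`), on the hyperplane; so `|p| ≤ 1` there:
`⟪S₁ w, w⟫ = (p (o+w) + p (o-w))/2 - p o` (`≤ 2`), `⟪g, w⟫ = (p (o+w) - p (o-w))/2` (`≤ 1`), `|p o| ≤ 1`.   Hence `‖S₂‖ ≤ 2`, `‖l‖ ≤ 1`, `|q| ≤ 1`, `‖o‖ = |c|/2 ≤ B₀`: all `≤ Cq = 2 + n B₀`.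
Lower bound: `x₀ = (1/2) • toLp u₀`, `w = x₀ - o`, `‖w‖ ≤ √n B₀/2 + B₀/2 ≤ n B₀` (`wv_norm_le`, `√n ≤ n`, `1 ≤ n`): `κ₀ ≤ |Q.val x₀| ≤ ‖S₂‖ ‖w‖² + ‖l‖ ‖w‖ + |q| ≤ (‖S₂‖ + ‖l‖ + |q|) (1 + n B₀)²`.
Neighbourhood: `v ∈ T`, `u'` from `NarrowB` for `wvVel v`, `x = (1/2) • toLp u'`: `‖x‖ ≤ √n B₀/2 ≤ Cq`, `|Q.val x| = |q u'| ≤ τ`, `‖v - x‖ ≤ √n δ₂/2`. -/
theorem wv_convB {n : ℕ} (hn : 1 ≤ n) (T : Set (E n)) (δ₂ τ κ₀ B₀ : ℝ) (hδ : 0 ≤ δ₂) (H : NarrowB (wvVel '' T) δ₂ τ κ₀ B₀) :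
    ∃ Q : QHyp n, Q.Ok (2 + n * B₀) (κ₀ / (1 + n * B₀) ^ 2) ∧ T ⊆ Q.nbhd (2 + n * B₀) (Real.sqrt n * δ₂ / 2) τ := by
  obtain ⟨a, c, S, b, c0, ha, hc, H1, ⟨u₀, hu₀c, hu₀B, hu₀κ⟩, H3⟩ := H
  have hn' : (1 : ℝ) ≤ n := by exact_mod_cast hn
  have hB2 : 2 ≤ B₀ := by linarith [abs_nonneg c]
  have hB0 : 0 ≤ B₀ := by linarith
  have hsq : Real.sqrt n ≤ n := wv_sqrt_le hn
  have hsq0 : 0 ≤ Real.sqrt n := Real.sqrt_nonneg _
  have hnB : B₀ ≤ n * B₀ := by nlinarith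
  have hsB : Real.sqrt n * B₀ ≤ n * B₀ := mul_le_mul_of_nonneg_right hsq hB0
  set e : E n := WithLp.toLp 2 a with he
  have hee : ⟪e, e⟫_ℝ = 1 := by
    rw [wv_inner, ← ha]
    refine Finset.sum_congr rfl fun i _ => ?_
    simp only [he]
    ring
  have hen : ‖e‖ = 1 := by
    have h1 : ‖e‖ ^ 2 = 1 := by rw [← real_inner_self_eq_norm_sq, hee]
    exact (pow_eq_one_iff_of_nonneg (norm_nonneg e) two_ne_zero).1 h1
  set o : E n := (c / 2) • e with ho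
  have heo : ⟪e, o⟫_ℝ = c / 2 := by rw [ho, inner_smul_right, hee, mul_one]
  have hon : ‖o‖ = |c| / 2 := by rw [ho, norm_smul, hen, mul_one, Real.norm_eq_abs, abs_div, abs_two]
  set p : E n → ℝ := fun ω => wqPoly S b c0 (wvVel ω) with hp
  obtain ⟨S₁, g, hS₁, hTay⟩ := wv_taylor S b c0 o
  obtain ⟨S₂, l, hS₂, hS₂e, hle, hrestr, hnS, hnl⟩ := wv_project e hen S₁ hS₁ g
  have hval : ∀ x : E n, ⟪e, x⟫_ℝ = c / 2 → ⟪S₂ (x - o), x - o⟫_ℝ + ⟪l, x - o⟫_ℝ + p o = p x := by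
    intro x hx
    have hw : ⟪e, x - o⟫_ℝ = 0 := by rw [inner_sub_right, hx, heo, sub_self]
    obtain ⟨r1, r2⟩ := hrestr _ hw
    rw [r1, r2]
    have := hTay (x - o)
    rw [add_sub_cancel] at this
    exact this.symm
  have hpb : ∀ w : E n, ⟪e, w⟫_ℝ = 0 → ‖w‖ ≤ 1 → |p (o + w)| ≤ 1 := by
    intro w hw hw1
    refine H1 _ ?_ fun i => ?_
    · rw [wv_sum_vel, inner_add_right, hw, heo]
      ring
    · have h1 : |a i| ≤ 1 := by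
        have := PiLp.norm_apply_le e i
        rwa [hen] at this
      have h2 : |w i| ≤ 1 := (PiLp.norm_apply_le w i).trans hw1
      have e1 : wvVel (o + w) i = c * a i + 2 * w i := by
        simp only [wvVel, ho, he, PiLp.add_apply, PiLp.smul_apply, smul_eq_mul]
        ring
      rw [e1]
      calc |c * a i + 2 * w i| ≤ |c * a i| + |2 * w i| := abs_add_le _ _
        _ ≤ |c| * 1 + 2 * 1 := by
            rw [abs_mul, abs_mul, abs_two]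
            gcongr
        _ ≤ B₀ := by linarith
  have hq : |p o| ≤ 1 := by
    have := hpb 0 (inner_zero_right _) (by simp)
    rwa [add_zero] at this
  have hq' := abs_le.1 hq
  have hAG : ∀ w : E n, ⟪e, w⟫_ℝ = 0 → ‖w‖ = 1 → |⟪S₁ w, w⟫_ℝ| ≤ 2 ∧ |⟪g, w⟫_ℝ| ≤ 1 := by
    intro w hw hw1
    have t1 := hTay w
    have t2 := hTay (-w)
    rw [map_neg, inner_neg_neg, inner_neg_right] at t2
    have b1 := abs_le.1 (hpb w hw hw1.le)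
    have b2 := abs_le.1 (hpb (-w) (by rw [inner_neg_right, hw, neg_zero]) (by rw [norm_neg]; exact hw1.le))
    simp only [hp] at b1 b2 hq'
    constructor
    · rw [abs_le]
      constructor <;> linarith [b1.1, b1.2, b2.1, b2.2, hq'.1, hq'.2]
    · rw [abs_le]
      constructor <;> linarith [b1.1, b1.2, b2.1, b2.2, hq'.1, hq'.2]
  have hS2n : ‖S₂‖ ≤ 2 := hnS 2 (by norm_num) fun w hw hw1 => (hAG w hw hw1).1
  have hln : ‖l‖ ≤ 1 := hnl 1 (by norm_num) fun w hw hw1 => (hAG w hw hw1).2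
  have hhalf : ∀ u : Fin n → ℝ, ∑ i, a i * u i = c → ⟪e, (1 / 2 : ℝ) • (WithLp.toLp 2 u : E n)⟫_ℝ = c / 2 := by
    intro u hu
    have := wv_sum_vel a ((1 / 2 : ℝ) • (WithLp.toLp 2 u : E n))
    rw [wv_vel_half, hu] at this
    linarith
  refine ⟨⟨e, c / 2, o, S₂, l, p o⟩, ⟨hen, heo, ?_, hS₂, hS₂e, hle, ?_, ?_, ?_, ?_⟩, fun v hv => ?_⟩
  · show ‖o‖ ≤ 2 + n * B₀
    rw [hon]
    linarith [abs_nonneg c]
  · show ‖S₂‖ ≤ 2 + n * B₀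
    linarith
  · show ‖l‖ ≤ 2 + n * B₀
    linarith
  · show |p o| ≤ 2 + n * B₀
    linarith
  · show κ₀ / (1 + n * B₀) ^ 2 ≤ ‖S₂‖ + ‖l‖ + |p o|
    set x₀ : E n := (1 / 2 : ℝ) • (WithLp.toLp 2 u₀ : E n) with hx₀
    have h1 := hval x₀ (hhalf u₀ hu₀c)
    have h2 : p x₀ = wqPoly S b c0 u₀ := by simp only [hp, hx₀, wv_vel_half]
    have h3 : ‖x₀ - o‖ ≤ n * B₀ := by
      have := wv_half_norm u₀ B₀ hB0 hu₀B
      calc ‖x₀ - o‖ ≤ ‖x₀‖ + ‖o‖ := norm_sub_le _ _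
        _ ≤ Real.sqrt n * B₀ / 2 + |c| / 2 := by rw [hon]; linarith
        _ ≤ n * B₀ := by linarith [abs_nonneg c]
    set r : ℝ := ‖x₀ - o‖ with hr
    have hr0 : 0 ≤ r := norm_nonneg _
    have h4 : |⟪S₂ (x₀ - o), x₀ - o⟫_ℝ| ≤ ‖S₂‖ * r ^ 2 := by
      calc _ ≤ ‖S₂ (x₀ - o)‖ * ‖x₀ - o‖ := abs_real_inner_le_norm _ _
        _ ≤ (‖S₂‖ * ‖x₀ - o‖) * ‖x₀ - o‖ := by
            gcongr
            exact ContinuousLinearMap.le_opNorm _ _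
        _ = _ := by rw [hr]; ring
    have h5 : |⟪l, x₀ - o⟫_ℝ| ≤ ‖l‖ * r := abs_real_inner_le_norm _ _
    have h6 : κ₀ ≤ ‖S₂‖ * r ^ 2 + ‖l‖ * r + |p o| := by
      calc κ₀ ≤ |p x₀| := by rw [h2]; exact hu₀κ
        _ = |⟪S₂ (x₀ - o), x₀ - o⟫_ℝ + ⟪l, x₀ - o⟫_ℝ + p o| := by rw [h1]
        _ ≤ |⟪S₂ (x₀ - o), x₀ - o⟫_ℝ| + |⟪l, x₀ - o⟫_ℝ| + |p o| := abs_add_three _ _ _
        _ ≤ _ := by linarith
    have hR : 0 ≤ (n : ℝ) * B₀ := by positivity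
    rw [div_le_iff₀ (by positivity)]
    have k1 : r ^ 2 ≤ (1 + n * B₀) ^ 2 := pow_le_pow_left₀ hr0 (by linarith) 2
    have k2 : r ≤ (1 + n * B₀) ^ 2 := by nlinarith
    have k3 : 1 ≤ (1 + n * B₀) ^ 2 := by nlinarith
    have m1 := mul_le_mul_of_nonneg_left k1 (norm_nonneg S₂)
    have m2 := mul_le_mul_of_nonneg_left k2 (norm_nonneg l)
    have m3 := mul_le_mul_of_nonneg_left k3 (abs_nonneg (p o))
    calc κ₀ ≤ ‖S₂‖ * r ^ 2 + ‖l‖ * r + |p o| := h6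
      _ ≤ ‖S₂‖ * (1 + n * B₀) ^ 2 + ‖l‖ * (1 + n * B₀) ^ 2 + |p o| * (1 + n * B₀) ^ 2 := by linarith
      _ = _ := by ring
  · obtain ⟨u', hu'c, hu'B, hu'τ, hu'δ⟩ := H3 (wvVel v) ⟨v, hv, rfl⟩
    refine ⟨(1 / 2 : ℝ) • (WithLp.toLp 2 u' : E n), hhalf u' hu'c, ?_, ?_, ?_⟩
    · have := wv_half_norm u' B₀ hB0 hu'B
      linarith
    · have h1 := hval _ (hhalf u' hu'c)
      have h2 : p ((1 / 2 : ℝ) • (WithLp.toLp 2 u' : E n)) = wqPoly S b c0 u' := by simp only [hp, wv_vel_half]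
      show |⟪S₂ ((1 / 2 : ℝ) • (WithLp.toLp 2 u' : E n) - o), (1 / 2 : ℝ) • (WithLp.toLp 2 u' : E n) - o⟫_ℝ
        + ⟪l, (1 / 2 : ℝ) • (WithLp.toLp 2 u' : E n) - o⟫_ℝ + p o| ≤ τ
      rw [h1, h2]
      exact hu'τ
    · have h1 := wv_norm_le (v - (1 / 2 : ℝ) • (WithLp.toLp 2 u' : E n)) (δ₂ / 2) (by positivity) (fun i => by
        have := hu'δ i
        have e1 : (v - (1 / 2 : ℝ) • (WithLp.toLp 2 u' : E n)) i = (wvVel v i - u' i) / 2 := by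
          simp only [wvVel, PiLp.sub_apply, PiLp.smul_apply, smul_eq_mul]
          ring
        rw [e1, abs_div, abs_two]
        linarith)
      linarith

/-- **LEAF L-257-WV-CONV (exit).**   Contrapositive: `wv_convA` + `Strip2.mono` (`√n · 3/R / 2 ≤ 2n/R`, `√n ≤ n`);  `wv_convB` + monotonicity of `QHyp.nbhd` in the width (`√n · 2/R / 2 ≤ 2n/R`). -/
theorem wv_conv {n : ℕ} (hn : 2 ≤ n) (U₀ : ℝ) (R : ℝ) (hR : 0 < R) (T : Set (E n))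
    (h : ¬ Narrow (2 * n) (2 + n * wqB0 n U₀) (wqK0 n U₀ / (1 + n * wqB0 n U₀) ^ 2) R T) :
    ¬ NarrowA (wvVel '' T) (3 * (1 / R)) ∧ ¬ NarrowB (wvVel '' T) (2 * (1 / R)) (R⁻¹ ^ 4) (wqK0 n U₀) (wqB0 n U₀) := by
  have hsq : Real.sqrt n ≤ n := wv_sqrt_le (by omega)
  have hRi : 0 ≤ 1 / R := by positivity
  constructor
  · intro H
    apply h
    left
    refine (wv_convA hn T _ H).mono ?_ subset_rfl
    have : Real.sqrt n * (1 / R) ≤ n * (1 / R) := mul_le_mul_of_nonneg_right hsq hRi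
    have e : 2 * (n : ℝ) / R = 2 * (n * (1 / R)) := by ring
    rw [e]
    have h0 : 0 ≤ (n : ℝ) * (1 / R) := by positivity
    nlinarith
  · intro H
    apply h
    right
    obtain ⟨Q, hQ, hT⟩ := wv_convB (by omega) T _ _ _ _ (by positivity) H
    refine ⟨Q, hQ, fun v hv => ?_⟩
    obtain ⟨x, h1, h2, h3, h4⟩ := hT hv
    refine ⟨x, h1, h2, h3, h4.trans ?_⟩
    have : Real.sqrt n * (1 / R) ≤ n * (1 / R) := mul_le_mul_of_nonneg_right hsq hRi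
    have e : 2 * (n : ℝ) / R = 2 * (n * (1 / R)) := by ring
    rw [e]
    have h0 : 0 ≤ (n : ℝ) * (1 / R) := by positivity
    nlinarith

end Claimed.Agent.R257
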