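import Claimed.Agent.R257.WG.Base
import Claimed.Agent.Lib.MK.Defs

/-!
# R257 / Wall / Defs : the two NARROW configurations of frequency centres (H w:angular (a), (b); w:heavy-reduction (ii))      (WALL captain helper185)      -- SHARED
PAPER-FREE.  Velocities / frequency centres are points `u : Fin n → ℝ` (sup norm, explicit sums).   Consumers: `R257/Ang` (w:angular treats bins covered by narrow sets), `R257/Weak/Heavy*` (adverse big cubes), `R257/Wall` (non-narrow ⟹ transversal tuple, quadratic exclusion).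

* `NarrowA cs h`  : `cs` lies within sup-distance `h` of an affine plane of dimension `≤ n-2`, given in PARAMETRIC form `c₀ + span (d k)`.
  (Equivalent up to a factor `√n` to: two orthonormal `a₁, a₂` with `|a_i·u - c_i| ≤ h` on `cs`; for `n = 2` the plane is a point.)
* `NarrowB cs δ τ κ₀ B₀` : `cs` lies in the `δ`-neighbourhood of `{u ∈ H, ‖u‖ ≤ B₀ : |q u| ≤ τ}`, `H = {a·u = c}` a hyperplane with `|c| + 2 ≤ B₀`, `q` a polynomial of degree `≤ 2` NORMALISED ON `H`: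
  `|q| ≤ 1` on `H ∩ {‖u‖ ≤ B₀}` and `|q u₀| ≥ κ₀` at some point of it.   Only `q|_H` matters.   In orthonormal coordinates of `H` with origin the foot `c a` of `0` the coefficient norm of `q|_H` lies between two constants depending on `n, κ₀, B₀`
  (values at `0, ± e_i, ± e_i ± e_k`, all inside the region because `|c| + 2 ≤ B₀`); dividing by it gives the normal form of the paper, the threshold `τ` changes by a fixed factor.
-/

set_option autoImplicit false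
open MeasureTheory Set Metric
open scoped BigOperators ENNReal

namespace Claimed.Agent.R257

/-- within sup-distance `h` of an affine plane of dimension `≤ n - 2` -/
def NarrowA {n : ℕ} (cs : Set (Fin n → ℝ)) (h : ℝ) : Prop :=
  ∃ (c₀ : Fin n → ℝ) (d : Fin (n - 2) → Fin n → ℝ), ∀ u ∈ cs, ∃ μ : Fin (n - 2) → ℝ, ∀ i, |u i - c₀ i - ∑ k, μ k * d k i| ≤ h

/-- the polynomial of degree `≤ 2` with coefficients `S, b, c0` -/
def wqPoly {n : ℕ} (S : Fin n → Fin n → ℝ) (b : Fin n → ℝ) (c0 : ℝ) (u : Fin n → ℝ) : ℝ :=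
  ∑ i, ∑ k, S i k * u i * u k + ∑ i, b i * u i + c0

/-- quadratic neighbourhood (H w:angular (b)) -/
def NarrowB {n : ℕ} (cs : Set (Fin n → ℝ)) (δ τ κ₀ B₀ : ℝ) : Prop :=
  ∃ (a : Fin n → ℝ) (c : ℝ) (S : Fin n → Fin n → ℝ) (b : Fin n → ℝ) (c0 : ℝ), ∑ i, a i ^ 2 = 1 ∧ |c| + 2 ≤ B₀ ∧
    (∀ u : Fin n → ℝ, ∑ i, a i * u i = c → (∀ i, |u i| ≤ B₀) → |wqPoly S b c0 u| ≤ 1) ∧
    (∃ u₀ : Fin n → ℝ, ∑ i, a i * u₀ i = c ∧ (∀ i, |u₀ i| ≤ B₀) ∧ κ₀ ≤ |wqPoly S b c0 u₀|) ∧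
    ∀ u ∈ cs, ∃ u' : Fin n → ℝ, ∑ i, a i * u' i = c ∧ (∀ i, |u' i| ≤ B₀) ∧ |wqPoly S b c0 u'| ≤ τ ∧ ∀ i, |u i - u' i| ≤ δ

/-- space-time direction `(u, 1)` of the velocity `u` (time = last coordinate) -/
def wqDir {n : ℕ} (u : Fin n → ℝ) : Fin (n + 1) → ℝ := Fin.snoc u 1

theorem NarrowA.mono {n : ℕ} {cs cs' : Set (Fin n → ℝ)} {h h' : ℝ} (H : NarrowA cs h) (hc : cs' ⊆ cs) (hh : h ≤ h') :
    NarrowA cs' h' := by
  obtain ⟨c₀, d, H⟩ := H
  refine ⟨c₀, d, fun u hu => ?_⟩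
  obtain ⟨μ, hμ⟩ := H u (hc hu)
  exact ⟨μ, fun i => (hμ i).trans hh⟩

/-- enlarging the set by `e` enlarges the width by `e` -/
theorem NarrowA.nbhd {n : ℕ} {cs cs' : Set (Fin n → ℝ)} {h e : ℝ} (H : NarrowA cs' h)
    (hc : ∀ c ∈ cs, ∃ c' ∈ cs', ∀ i, |c i - c' i| ≤ e) : NarrowA cs (h + e) := by
  obtain ⟨c₀, d, H⟩ := H
  refine ⟨c₀, d, fun u hu => ?_⟩
  obtain ⟨u', hu', hd⟩ := hc u hu
  obtain ⟨μ, hμ⟩ := H u' hu'
  refine ⟨μ, fun i => ?_⟩
  have h1 := hμ i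
  have h2 := hd i
  have : u i - c₀ i - ∑ k, μ k * d k i = (u' i - c₀ i - ∑ k, μ k * d k i) + (u i - u' i) := by ring
  rw [this]
  exact (abs_add_le _ _).trans (add_le_add h1 h2)

/-- translation invariance -/
theorem NarrowA.translate {n : ℕ} {cs : Set (Fin n → ℝ)} {h : ℝ} (H : NarrowA cs h) (p : Fin n → ℝ) :
    NarrowA ((fun u => u + p) '' cs) h := by
  obtain ⟨c₀, d, H⟩ := H
  refine ⟨c₀ + p, d, ?_⟩
  rintro _ ⟨u, hu, rfl⟩
  obtain ⟨μ, hμ⟩ := H u hu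
  refine ⟨μ, fun i => ?_⟩
  have : (u + p) i - (c₀ + p) i - ∑ k, μ k * d k i = u i - c₀ i - ∑ k, μ k * d k i := by
    simp only [Pi.add_apply]; ring
  rw [this]
  exact hμ i

/-- ROBUST WALL at `y`: some factor `P i` has both strict signs on a part of volume `≥ r^(n+1)/K` of the cube `closedBall y r` (the form consumed by `wg_main`) -/
def WcRW {n J : ℕ} (P : Fin J → MvPolynomial (Fin (n + 1)) ℝ) (r K : ℝ) (y : Fin (n + 1) → ℝ) : Prop :=
  ∃ i, ENNReal.ofReal (r ^ (n + 1) / K) ≤ volume {x | x ∈ closedBall y r ∧ 0 < MvPolynomial.eval x (P i)} ∧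
    ENNReal.ofReal (r ^ (n + 1) / K) ≤ volume {x | x ∈ closedBall y r ∧ MvPolynomial.eval x (P i) < 0}

/-- the conclusion of the WALL block: `≤ Kc` affine plates of thickness `Kc` cover `Y` up to `3/4` of its mass -/
def WcPlates {n : ℕ} (ν : Measure (Fin (n + 1) → ℝ)) (Y : Set (Fin (n + 1) → ℝ)) (Kc : ℝ) : Prop :=
  ∃ Pl : Finset ((Fin (n + 1) → ℝ) × ℝ), (Pl.card : ℝ) ≤ Kc ∧ (∀ π ∈ Pl, 1 ≤ ‖π.1‖) ∧
    ∃ Z : Set (Fin (n + 1) → ℝ), ν Z ≤ ENNReal.ofReal (3 / 4) * ν Y ∧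
      ∀ y ∈ Y, y ∉ Z → ∃ π ∈ Pl, |∑ i, π.1 i * y i - π.2| ≤ Kc

end Claimed.Agent.R257
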