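import Claimed.Agent.R257.Wall.Defs

/-!
# R257 / Wall / QX : (H3) ⟹ ABSTRACT QUADRATIC EXCLUSION `WgQX`      (WALL captain helper185)      CONTRACT
PAPER-FREE, pure linear algebra.  Every `sorry` is a leaf `L-257-WQ-*`.  Statements are frozen (a FALSE statement: one line to helper185); auxiliary lemmas (prefix `wq_`) directly above your theorem; edit only your block.

Idea (H wall.tex, w:curvature).  `N` unit normal, `B` quadratic form on `ℝ^{n+1}`; every heavy bin `b` contains a direction `(u_b, 1)` with `|N·(u_b,1)| ≤ q1`, `|B[(u_b,1)]| ≤ q2`.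
`H = {u | N·(u,1) = 0}` is an affine hyperplane of velocity space (the spatial part of `N` is `≥ c₂`, `wq_normal`), `q u = B[(u,1)] / (β Γ)` with `β = max {|B[x]| : x ⊥ N, |x|₂ = 1}` (`wq_max`) is normalised on `H` (`wq_three`),
the bin centres lie within `2δ` of points `u'_b ∈ H` with `|q u'_b| ≤ (q2 + C q1 bb)/(β Γ)` (`wq_perturb`).   Since the centres are NOT in a quadratic neighbourhood `NarrowB`, `β Γ τ < q2 + C q1 bb`.
-/

set_option autoImplicit false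
open scoped BigOperators

namespace Claimed.Agent.R257

/-- the quadratic form of the matrix `B` -/
def wqF {m : ℕ} (B : Fin m → Fin m → ℝ) (x : Fin m → ℝ) : ℝ := ∑ i, ∑ j, B i j * x i * x j

/-- lower bound for the spatial part of the normal -/
noncomputable def wqc (n : ℕ) (U₀ : ℝ) : ℝ := 1 / (4 * (1 + n * U₀))

/-- the box of velocity space (`= 2 + 2 / wqc`) -/
noncomputable def wqB0 (n : ℕ) (U₀ : ℝ) : ℝ := 10 + 8 * n * U₀

/-- `Γ = 1 + n B₀²  ≥ |(u,1)|₂²` on the box -/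
noncomputable def wqG (n : ℕ) (U₀ : ℝ) : ℝ := 1 + n * wqB0 n U₀ ^ 2

/-- the normalisation constant `κ₀ = 1 / (2 Γ)` -/
noncomputable def wqK0 (n : ℕ) (U₀ : ℝ) : ℝ := 1 / (2 * wqG n U₀)

/-- **LEAF L-257-WQ-EXPAND.**   `Fin.sum_univ_castSucc` twice, `wqDir`, `Fin.snoc_castSucc`, `Fin.snoc_last`; `Finset.sum_add_distrib`, `ring`. -/
theorem wq_expand {n : ℕ} (B : Fin (n + 1) → Fin (n + 1) → ℝ) (u : Fin n → ℝ) :
    wqF B (wqDir u) = wqPoly (fun i k => B i.castSucc k.castSucc) (fun i => B i.castSucc (Fin.last n) + B (Fin.last n) i.castSucc)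
      (B (Fin.last n) (Fin.last n)) u := by
  simp only [wqF, wqPoly, wqDir, Fin.sum_univ_castSucc, Fin.snoc_castSucc, Fin.snoc_last]
  simp only [add_mul, Finset.sum_add_distrib, mul_one]
  ring

theorem wq_comb {m : ℕ} (B : Fin m → Fin m → ℝ) (z y : Fin m → ℝ) (a b : ℝ) :
    wqF B (a • z + b • y) = a ^ 2 * wqF B z + b ^ 2 * wqF B y + a * b * ∑ i, ∑ j, B i j * (z i * y j + y i * z j) := by
  unfold wqF
  simp only [Finset.mul_sum, ← Finset.sum_add_distrib]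
  refine Finset.sum_congr rfl fun i _ => Finset.sum_congr rfl fun j _ => ?_
  simp only [Pi.add_apply, Pi.smul_apply, smul_eq_mul]
  ring

/-- **LEAF L-257-WQ-THREE (three point lemma).**   Identity `F (λ z + y) = (λ² - 1) F z + (1+λ)/2 F (z+y) + (1-λ)/2 F (z-y)` (expand everything into `F z`, `F y`, `∑∑ B i j (z i y j + y i z j)`; `Finset.sum_add_distrib`, `Finset.mul_sum`, `ring`);
the absolute values of the three coefficients add up to `2 - λ² ≤ 2`. -/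
theorem wq_three {m : ℕ} (B : Fin m → Fin m → ℝ) (z y : Fin m → ℝ) (lam M : ℝ) (hl : |lam| ≤ 1)
    (h0 : |wqF B z| ≤ M) (h1 : |wqF B (z + y)| ≤ M) (h2 : |wqF B (z - y)| ≤ M) : |wqF B (lam • z + y)| ≤ 2 * M := by
  obtain ⟨C, hC⟩ : ∃ C : ℝ, C = ∑ i, ∑ j, B i j * (z i * y j + y i * z j) := ⟨_, rfl⟩
  have e1 : wqF B (z + y) = wqF B z + wqF B y + C := by
    have := wq_comb B z y 1 1
    rw [one_smul, one_smul] at this
    rw [this, hC]
    ring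
  have e2 : wqF B (z - y) = wqF B z + wqF B y - C := by
    have := wq_comb B z y 1 (-1)
    rw [one_smul, neg_one_smul, ← sub_eq_add_neg] at this
    rw [this, hC]
    ring
  have e3 : wqF B (lam • z + y) = lam ^ 2 * wqF B z + wqF B y + lam * C := by
    have := wq_comb B z y lam 1
    rw [one_smul] at this
    rw [this, hC]
    ring
  have e4 : wqF B (lam • z + y) = (lam ^ 2 - 1) * wqF B z + (1 + lam) / 2 * wqF B (z + y) + (1 - lam) / 2 * wqF B (z - y) := by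
    rw [e1, e2, e3]
    ring
  obtain ⟨l1, l2⟩ := abs_le.mp hl
  obtain ⟨a1, a2⟩ := abs_le.mp h0
  obtain ⟨b1, b2⟩ := abs_le.mp h1
  obtain ⟨c1, c2⟩ := abs_le.mp h2
  have hq : 0 ≤ 1 - lam ^ 2 := by nlinarith
  have hM : 0 ≤ M := le_trans (abs_nonneg _) h0
  rw [e4, abs_le]
  constructor
  · nlinarith [mul_nonneg hq (by linarith : 0 ≤ M - wqF B z), mul_nonneg (by linarith : 0 ≤ 1 + lam) (by linarith : 0 ≤ M + wqF B (z + y)),
      mul_nonneg (by linarith : 0 ≤ 1 - lam) (by linarith : 0 ≤ M + wqF B (z - y)), mul_nonneg (sq_nonneg lam) hM]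
  · nlinarith [mul_nonneg hq (by linarith : 0 ≤ M + wqF B z), mul_nonneg (by linarith : 0 ≤ 1 + lam) (by linarith : 0 ≤ M - wqF B (z + y)),
      mul_nonneg (by linarith : 0 ≤ 1 - lam) (by linarith : 0 ≤ M - wqF B (z - y)), mul_nonneg (sq_nonneg lam) hM]

theorem wq_homog {m : ℕ} (B : Fin m → Fin m → ℝ) (t : ℝ) (x : Fin m → ℝ) : wqF B (t • x) = t ^ 2 * wqF B x := by
  unfold wqF
  simp only [Finset.mul_sum]
  refine Finset.sum_congr rfl fun i _ => Finset.sum_congr rfl fun j _ => ?_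
  simp only [Pi.smul_apply, smul_eq_mul]
  ring

theorem wq_max_aux {m : ℕ} (N : Fin m → ℝ) (B : Fin m → Fin m → ℝ) (bs : ℝ)
    (h : ∀ x : Fin m → ℝ, ∑ i, N i * x i = 0 → ∑ i, x i ^ 2 = 1 → |wqF B x| ≤ bs) (x : Fin m → ℝ) (hx : ∑ i, N i * x i = 0) :
    |wqF B x| ≤ bs * ∑ i, x i ^ 2 := by
  obtain ⟨s, hs⟩ : ∃ s : ℝ, s = ∑ i, x i ^ 2 := ⟨_, rfl⟩
  have hs0 : 0 ≤ s := by rw [hs]; exact Finset.sum_nonneg fun i _ => sq_nonneg _
  rw [← hs]
  rcases hs0.eq_or_lt with h0 | h0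
  · have hz : ∀ i, x i = 0 := by
      intro i
      have := (Finset.sum_eq_zero_iff_of_nonneg (fun i _ => sq_nonneg (x i))).mp (by rw [← hs, ← h0]) i (Finset.mem_univ i)
      exact pow_eq_zero_iff (two_ne_zero) |>.mp this
    have : wqF B x = 0 := by
      unfold wqF
      simp [hz]
    rw [this, ← h0]
    simp
  · have hq : 0 < Real.sqrt s := Real.sqrt_pos.mpr h0
    have hq2 : Real.sqrt s ^ 2 = s := Real.sq_sqrt hs0
    have k1 : ∑ i, N i * ((Real.sqrt s)⁻¹ • x) i = 0 := by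
      have : ∑ i, N i * ((Real.sqrt s)⁻¹ • x) i = (Real.sqrt s)⁻¹ * ∑ i, N i * x i := by
        rw [Finset.mul_sum]
        refine Finset.sum_congr rfl fun i _ => ?_
        simp only [Pi.smul_apply, smul_eq_mul]
        ring
      rw [this, hx, mul_zero]
    have k2 : ∑ i, ((Real.sqrt s)⁻¹ • x) i ^ 2 = 1 := by
      have : ∑ i, ((Real.sqrt s)⁻¹ • x) i ^ 2 = ((Real.sqrt s) ^ 2)⁻¹ * ∑ i, x i ^ 2 := by
        rw [Finset.mul_sum]
        refine Finset.sum_congr rfl fun i _ => ?_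
        simp only [Pi.smul_apply, smul_eq_mul]
        rw [mul_pow, inv_pow]
      rw [this, hq2, ← hs]
      exact inv_mul_cancel₀ h0.ne'
    have k3 := h _ k1 k2
    rw [wq_homog, inv_pow, hq2, abs_mul, abs_of_pos (inv_pos.mpr h0)] at k3
    rw [inv_mul_le_iff₀ h0] at k3
    linarith

theorem wq_cont {m : ℕ} (B : Fin m → Fin m → ℝ) : Continuous (wqF B) := by
  unfold wqF
  fun_prop

/-- **LEAF L-257-WQ-MAX (the norm of `B` on `N^⊥`).**   `S = {x | N·x = 0 ∧ ∑ x i² = 1}` is compact (closed, and bounded: `|x i| ≤ 1`; `Metric.isCompact_of_isClosed_isBounded`).  `S = ∅`: `bs = 0`, every `x ⊥ N` is `0`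
(else normalise it by `√(∑ x i²)`).   Otherwise `IsCompact.exists_isMaxOn` for the continuous `x ↦ |wqF B x|`;  homogeneity `wqF B (t • x) = t² wqF B x`. -/
theorem wq_max {m : ℕ} (N : Fin m → ℝ) (B : Fin m → Fin m → ℝ) :
    ∃ bs : ℝ, 0 ≤ bs ∧ (∀ x : Fin m → ℝ, ∑ i, N i * x i = 0 → |wqF B x| ≤ bs * ∑ i, x i ^ 2) ∧
      (bs = 0 ∨ ∃ x₀ : Fin m → ℝ, ∑ i, N i * x₀ i = 0 ∧ ∑ i, x₀ i ^ 2 = 1 ∧ |wqF B x₀| = bs) := by
  obtain ⟨S, hS⟩ : ∃ S : Set (Fin m → ℝ), S = {x | ∑ i, N i * x i = 0 ∧ ∑ i, x i ^ 2 = 1} := ⟨_, rfl⟩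
  have hcl : IsClosed S := by
    rw [hS]
    exact (isClosed_eq (by fun_prop) continuous_const).inter (isClosed_eq (by fun_prop) continuous_const)
  have hbd : Bornology.IsBounded S := by
    refine (Metric.isBounded_closedBall (x := (0 : Fin m → ℝ)) (r := 1)).subset fun x hx => ?_
    rw [hS] at hx
    rw [mem_closedBall_zero_iff, pi_norm_le_iff_of_nonneg zero_le_one]
    intro i
    have h1 : x i ^ 2 ≤ ∑ k, x k ^ 2 := Finset.single_le_sum (f := fun k => x k ^ 2) (fun k _ => sq_nonneg _) (Finset.mem_univ i)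
    rw [hx.2] at h1
    rw [Real.norm_eq_abs]
    exact abs_le_of_sq_le_sq (by linarith) zero_le_one
  have hcp : IsCompact S := Metric.isCompact_of_isClosed_isBounded hcl hbd
  rcases S.eq_empty_or_nonempty with hE | hne
  · refine ⟨0, le_rfl, fun x hx => wq_max_aux N B 0 (fun y h1 h2 => ?_) x hx, Or.inl rfl⟩
    have : y ∈ S := by rw [hS]; exact ⟨h1, h2⟩
    rw [hE] at this
    exact absurd this (Set.notMem_empty y)
  · obtain ⟨x₀, hx₀, hmax⟩ := hcp.exists_isMaxOn hne ((wq_cont B).abs.continuousOn)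
    have hx₀' := hx₀
    rw [hS] at hx₀'
    refine ⟨|wqF B x₀|, abs_nonneg _, fun x hx => wq_max_aux N B _ (fun y h1 h2 => ?_) x hx, Or.inr ⟨x₀, hx₀'.1, hx₀'.2, rfl⟩⟩
    exact hmax (by rw [hS]; exact ⟨h1, h2⟩)

/-- **LEAF L-257-WQ-PERTURB.**   `F (v+e) - F v = ∑∑ B i j (v i e j + e i v j + e i e j)`; every term is `≤ bb (2 Vb ε + ε²)`; `Finset.abs_sum_le_sum_abs`, `Finset.sum_le_card_nsmul` / `Finset.sum_const`. -/
theorem wq_perturb {m : ℕ} (B : Fin m → Fin m → ℝ) (bb Vb ε : ℝ) (hB : ∀ i j, |B i j| ≤ bb) (v e : Fin m → ℝ)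
    (hv : ∀ i, |v i| ≤ Vb) (he : ∀ i, |e i| ≤ ε) : |wqF B (v + e) - wqF B v| ≤ (m : ℝ) ^ 2 * bb * ε * (2 * Vb + ε) := by
  have hterm : ∀ i j, |B i j * (v i * e j + e i * v j + e i * e j)| ≤ bb * (ε * (2 * Vb + ε)) := by
    intro i j
    have hbb : 0 ≤ bb := le_trans (abs_nonneg _) (hB i j)
    have hV : 0 ≤ Vb := le_trans (abs_nonneg _) (hv i)
    have hε : 0 ≤ ε := le_trans (abs_nonneg _) (he i)
    rw [abs_mul]
    refine mul_le_mul (hB i j) ?_ (abs_nonneg _) hbb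
    have t1 : |v i * e j| ≤ Vb * ε := by rw [abs_mul]; exact mul_le_mul (hv i) (he j) (abs_nonneg _) hV
    have t2 : |e i * v j| ≤ ε * Vb := by rw [abs_mul]; exact mul_le_mul (he i) (hv j) (abs_nonneg _) hε
    have t3 : |e i * e j| ≤ ε * ε := by rw [abs_mul]; exact mul_le_mul (he i) (he j) (abs_nonneg _) hε
    calc |v i * e j + e i * v j + e i * e j| ≤ |v i * e j + e i * v j| + |e i * e j| := abs_add_le _ _
      _ ≤ |v i * e j| + |e i * v j| + |e i * e j| := by linarith [abs_add_le (v i * e j) (e i * v j)]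
      _ ≤ ε * (2 * Vb + ε) := by nlinarith
  have e1 : wqF B (v + e) - wqF B v = ∑ i, ∑ j, B i j * (v i * e j + e i * v j + e i * e j) := by
    unfold wqF
    rw [← Finset.sum_sub_distrib]
    refine Finset.sum_congr rfl fun i _ => ?_
    rw [← Finset.sum_sub_distrib]
    refine Finset.sum_congr rfl fun j _ => ?_
    simp only [Pi.add_apply]
    ring
  rw [e1]
  calc |∑ i, ∑ j, B i j * (v i * e j + e i * v j + e i * e j)| ≤ ∑ i, |∑ j, B i j * (v i * e j + e i * v j + e i * e j)| :=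
        Finset.abs_sum_le_sum_abs _ _
    _ ≤ ∑ i : Fin m, ∑ j : Fin m, |B i j * (v i * e j + e i * v j + e i * e j)| :=
        Finset.sum_le_sum fun i _ => Finset.abs_sum_le_sum_abs _ _
    _ ≤ ∑ _i : Fin m, ∑ _j : Fin m, bb * (ε * (2 * Vb + ε)) := Finset.sum_le_sum fun i _ => Finset.sum_le_sum fun j _ => hterm i j
    _ = (m : ℝ) ^ 2 * bb * ε * (2 * Vb + ε) := by
      simp only [Finset.sum_const, Finset.card_univ, Fintype.card_fin, nsmul_eq_mul]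
      ring

/-- **LEAF L-257-WQ-NORMAL (the normal is not almost vertical).**   `ρ² = ∑ N_x²`; suppose `ρ² < c₂²`.  Then `|N i.castSucc| < c₂`, `|N_x·u| ≤ n c₂ U₀`, so `|N_t| ≤ c₂ (1 + n U₀) = 1/4`, and `1 = ρ² + N_t² < 1/16 + 1/16`.
(`Fin.sum_univ_castSucc`, `wqDir`.) -/
theorem wq_normal {n : ℕ} (N : Fin (n + 1) → ℝ) (hN : ∑ i, N i ^ 2 = 1) (u : Fin n → ℝ) (U₀ : ℝ) (hU : 0 ≤ U₀)
    (hu : ∀ i, |u i| ≤ U₀) (h : |∑ i, N i * wqDir u i| ≤ wqc n U₀) : wqc n U₀ ^ 2 ≤ ∑ i : Fin n, N i.castSucc ^ 2 := by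
  by_contra hcon
  push Not at hcon
  have hden : 0 < 4 * (1 + (n : ℝ) * U₀) := by positivity
  have hc0 : 0 < wqc n U₀ := by unfold wqc; positivity
  have hc1 : wqc n U₀ * (1 + (n : ℝ) * U₀) = 1 / 4 := by
    unfold wqc
    field_simp
  have hc4 : wqc n U₀ ≤ 1 / 4 := by
    have : 0 ≤ wqc n U₀ * ((n : ℝ) * U₀) := by positivity
    nlinarith
  have hNi : ∀ i : Fin n, |N i.castSucc| ≤ wqc n U₀ := by
    intro i
    have h1 : N i.castSucc ^ 2 ≤ ∑ k : Fin n, N k.castSucc ^ 2 :=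
      Finset.single_le_sum (f := fun k : Fin n => N k.castSucc ^ 2) (fun k _ => sq_nonneg _) (Finset.mem_univ i)
    exact abs_le_of_sq_le_sq (by linarith) hc0.le
  rw [Fin.sum_univ_castSucc] at h hN
  simp only [wqDir, Fin.snoc_castSucc, Fin.snoc_last, mul_one] at h
  have hs : |∑ i : Fin n, N i.castSucc * u i| ≤ (n : ℝ) * (wqc n U₀ * U₀) := by
    calc |∑ i : Fin n, N i.castSucc * u i| ≤ ∑ i : Fin n, |N i.castSucc * u i| := Finset.abs_sum_le_sum_abs _ _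
      _ ≤ ∑ _i : Fin n, wqc n U₀ * U₀ := Finset.sum_le_sum fun i _ => by
          rw [abs_mul]
          exact mul_le_mul (hNi i) (hu i) (abs_nonneg _) hc0.le
      _ = (n : ℝ) * (wqc n U₀ * U₀) := by simp
  have ht : |N (Fin.last n)| ≤ 1 / 4 := by
    have e : N (Fin.last n) = (∑ i : Fin n, N i.castSucc * u i + N (Fin.last n)) - ∑ i : Fin n, N i.castSucc * u i := by ring
    rw [e]
    calc _ ≤ |∑ i : Fin n, N i.castSucc * u i + N (Fin.last n)| + |∑ i : Fin n, N i.castSucc * u i| := abs_sub _ _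
      _ ≤ wqc n U₀ + (n : ℝ) * (wqc n U₀ * U₀) := add_le_add h hs
      _ = 1 / 4 := by rw [← hc1]; ring
  have ht2 : N (Fin.last n) ^ 2 ≤ (1 / 4) ^ 2 := by
    rw [← sq_abs]
    exact pow_le_pow_left₀ (abs_nonneg _) ht 2
  have hc2 : wqc n U₀ ^ 2 ≤ (1 / 4) ^ 2 := pow_le_pow_left₀ hc0.le hc4 2
  norm_num at ht2 hc2
  linarith

theorem wq_dir_sum {n : ℕ} (N : Fin (n + 1) → ℝ) (u : Fin n → ℝ) :
    ∑ i, N i * wqDir u i = ∑ i : Fin n, N i.castSucc * u i + N (Fin.last n) := by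
  rw [Fin.sum_univ_castSucc]
  simp only [wqDir, Fin.snoc_castSucc, Fin.snoc_last, mul_one]

theorem wq_dir_sq {n : ℕ} (u : Fin n → ℝ) : ∑ i, wqDir u i ^ 2 = ∑ i : Fin n, u i ^ 2 + 1 := by
  rw [Fin.sum_univ_castSucc]
  simp only [wqDir, Fin.snoc_castSucc, Fin.snoc_last, one_pow]

theorem wq_scale {m : ℕ} (B : Fin m → Fin m → ℝ) (G : ℝ) (x : Fin m → ℝ) : wqF (fun i j => B i j / G) x = wqF B x / G := by
  unfold wqF
  simp only [Finset.sum_div]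
  refine Finset.sum_congr rfl fun i _ => Finset.sum_congr rfl fun j _ => ?_
  ring

theorem wq_le_of_sq {m : ℕ} (x : Fin m → ℝ) (h : ∑ i, x i ^ 2 = 1) (i : Fin m) : |x i| ≤ 1 := by
  have h1 : x i ^ 2 ≤ ∑ k, x k ^ 2 := Finset.single_le_sum (f := fun k => x k ^ 2) (fun k _ => sq_nonneg _) (Finset.mem_univ i)
  rw [h] at h1
  exact abs_le_of_sq_le_sq (by linarith) zero_le_one

/-- **LEAF L-257-WQ-NARROW (construction of the quadratic neighbourhood).**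
`ρ = √(∑ N_x²) ∈ [c₂, 1]`, `a = N_x / ρ`, `c = - N_t / ρ` (`|c| ≤ 1/c₂ = 4 (1 + n U₀)`, so `|c| + 2 ≤ B₀`);  `a·u = c ⟺ N·(u,1) = 0`.   `q = wqPoly` of `wq_expand` for `B / (bs Γ)`, i.e. `q u = wqF B (wqDir u) / (bs Γ)`.
`|q| ≤ 1` on `H ∩ box`: `hbs` and `∑ (wqDir u) i² = 1 + ∑ u i² ≤ Γ`.
Witness: `z = wqDir (c • a)`, `lam = x₀ (last)`, `y = x₀ - lam • z` (last coordinate `0`, `N·y = 0`), `z ± y = wqDir (c • a ± (ξ - lam • c • a))`, `ξ i = x₀ i.castSucc`; `|ξ i| ≤ 1`, `|lam| ≤ 1`, so the three velocities are `≤ 2/c₂ + 1 ≤ B₀`;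
`wq_three` (with `M` = the maximum of the three values): one of the three values is `≥ bs / 2`, i.e. `|q| ≥ 1/(2Γ) = κ₀`. -/
theorem wq_narrow {n : ℕ} (hn : 1 ≤ n) (U₀ : ℝ) (hU : 0 ≤ U₀) (N : Fin (n + 1) → ℝ) (hN : ∑ i, N i ^ 2 = 1)
    (hNx : wqc n U₀ ^ 2 ≤ ∑ i : Fin n, N i.castSucc ^ 2) (B : Fin (n + 1) → Fin (n + 1) → ℝ) (bs : ℝ) (hbs0 : 0 < bs)
    (hbs : ∀ x : Fin (n + 1) → ℝ, ∑ i, N i * x i = 0 → |wqF B x| ≤ bs * ∑ i, x i ^ 2)
    (x₀ : Fin (n + 1) → ℝ) (hx0 : ∑ i, N i * x₀ i = 0) (hx1 : ∑ i, x₀ i ^ 2 = 1) (hx2 : |wqF B x₀| = bs)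
    (cs : Set (Fin n → ℝ)) (δ₂ τ : ℝ)
    (hcs : ∀ c ∈ cs, ∃ u' : Fin n → ℝ, ∑ i, N i * wqDir u' i = 0 ∧ (∀ i, |u' i| ≤ wqB0 n U₀) ∧
      |wqF B (wqDir u')| ≤ τ * (bs * wqG n U₀) ∧ ∀ i, |c i - u' i| ≤ δ₂) :
    NarrowB cs δ₂ τ (wqK0 n U₀) (wqB0 n U₀) := by
  have hc0 : 0 < wqc n U₀ := by unfold wqc; positivity
  have hcinv : 1 / wqc n U₀ = 4 * (1 + (n : ℝ) * U₀) := by
    unfold wqc
    rw [one_div_one_div]
  have hnU : 0 ≤ (n : ℝ) * U₀ := by positivity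
  obtain ⟨ρ, hρ⟩ : ∃ ρ : ℝ, ρ = Real.sqrt (∑ i : Fin n, N i.castSucc ^ 2) := ⟨_, rfl⟩
  have hρ2 : ρ ^ 2 = ∑ i : Fin n, N i.castSucc ^ 2 := by
    rw [hρ]
    exact Real.sq_sqrt (Finset.sum_nonneg fun i _ => sq_nonneg _)
  have hcρ : wqc n U₀ ≤ ρ := by
    rw [hρ]
    exact Real.le_sqrt_of_sq_le hNx
  have hρ0 : 0 < ρ := lt_of_lt_of_le hc0 hcρ
  have hB0 : 0 ≤ wqB0 n U₀ := by unfold wqB0; nlinarith
  have hG1 : 1 ≤ wqG n U₀ := by
    unfold wqG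
    have : 0 ≤ (n : ℝ) * wqB0 n U₀ ^ 2 := by positivity
    linarith
  obtain ⟨G, hG⟩ : ∃ G : ℝ, G = bs * wqG n U₀ := ⟨_, rfl⟩
  have hG0 : 0 < G := by rw [hG]; exact mul_pos hbs0 (by linarith)
  obtain ⟨a, ha⟩ : ∃ a : Fin n → ℝ, a = fun i => N i.castSucc / ρ := ⟨_, rfl⟩
  obtain ⟨c, hc⟩ : ∃ c : ℝ, c = -N (Fin.last n) / ρ := ⟨_, rfl⟩
  have ha1 : ∑ i, a i ^ 2 = 1 := by
    rw [ha]
    simp only [div_pow]
    rw [← Finset.sum_div, ← hρ2]
    exact div_self (pow_ne_zero 2 hρ0.ne')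
  have hcb : |c| ≤ 4 * (1 + (n : ℝ) * U₀) := by
    rw [hc, abs_div, abs_neg, abs_of_pos hρ0, ← hcinv]
    exact div_le_div₀ zero_le_one (wq_le_of_sq N hN _) hc0 hcρ
  have hdir : ∀ u : Fin n → ℝ, ∑ i, N i * wqDir u i = ρ * (∑ i, a i * u i - c) := by
    intro u
    rw [wq_dir_sum, mul_sub, Finset.mul_sum, ha, hc]
    have : ∀ i : Fin n, ρ * (N i.castSucc / ρ * u i) = N i.castSucc * u i := fun i => by field_simp
    simp only [this]
    field_simp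
    ring
  have hdir1 : ∀ u : Fin n → ℝ, ∑ i, a i * u i = c → ∑ i, N i * wqDir u i = 0 := by
    intro u hu
    rw [hdir, hu, sub_self, mul_zero]
  have hdir2 : ∀ u : Fin n → ℝ, ∑ i, N i * wqDir u i = 0 → ∑ i, a i * u i = c := by
    intro u hu
    rw [hdir] at hu
    rcases mul_eq_zero.mp hu with h | h
    · exact absurd h hρ0.ne'
    · linarith
  have hq : ∀ u : Fin n → ℝ, wqPoly (fun i k => B i.castSucc k.castSucc / G) (fun i => B i.castSucc (Fin.last n) / G + B (Fin.last n) i.castSucc / G)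
      (B (Fin.last n) (Fin.last n) / G) u = wqF B (wqDir u) / G := by
    intro u
    rw [← wq_scale, wq_expand]
  have hbox : ∀ u : Fin n → ℝ, ∑ i, a i * u i = c → (∀ i, |u i| ≤ wqB0 n U₀) → |wqF B (wqDir u)| ≤ G := by
    intro u hu hb
    refine le_trans (hbs _ (hdir1 u hu)) ?_
    rw [hG, wq_dir_sq]
    refine mul_le_mul_of_nonneg_left ?_ hbs0.le
    unfold wqG
    have : ∑ i : Fin n, u i ^ 2 ≤ ∑ _i : Fin n, wqB0 n U₀ ^ 2 := Finset.sum_le_sum fun i _ => by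
      rw [← sq_abs]
      exact pow_le_pow_left₀ (abs_nonneg _) (hb i) 2
    simp only [Finset.sum_const, Finset.card_univ, Fintype.card_fin, nsmul_eq_mul] at this
    linarith
  refine ⟨a, c, fun i k => B i.castSucc k.castSucc / G, fun i => B i.castSucc (Fin.last n) / G + B (Fin.last n) i.castSucc / G,
    B (Fin.last n) (Fin.last n) / G, ha1, ?_, ?_, ?_, ?_⟩
  · unfold wqB0
    linarith
  · intro u hu hb
    rw [hq, abs_div, abs_of_pos hG0, div_le_one hG0]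
    exact hbox u hu hb
  · obtain ⟨lam, hlam⟩ : ∃ lam : ℝ, lam = x₀ (Fin.last n) := ⟨_, rfl⟩
    obtain ⟨u0, hu0⟩ : ∃ u0 : Fin n → ℝ, u0 = fun i => c * a i := ⟨_, rfl⟩
    obtain ⟨w, hw⟩ : ∃ w : Fin n → ℝ, w = fun i => x₀ i.castSucc - lam * (c * a i) := ⟨_, rfl⟩
    have hl1 : |lam| ≤ 1 := by rw [hlam]; exact wq_le_of_sq x₀ hx1 _
    have au0 : ∑ i, a i * u0 i = c := by
      have : ∑ i, a i * u0 i = c * ∑ i, a i ^ 2 := by
        rw [Finset.mul_sum, hu0]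
        exact Finset.sum_congr rfl fun i _ => by ring
      rw [this, ha1, mul_one]
    have aξ : ∑ i : Fin n, a i * x₀ i.castSucc = c * lam := by
      rw [Fin.sum_univ_castSucc] at hx0
      have : ∑ i : Fin n, a i * x₀ i.castSucc = (∑ i : Fin n, N i.castSucc * x₀ i.castSucc) / ρ := by
        rw [Finset.sum_div, ha]
        exact Finset.sum_congr rfl fun i _ => by ring
      rw [this, hc, hlam]
      have : ∑ i : Fin n, N i.castSucc * x₀ i.castSucc = -(N (Fin.last n) * x₀ (Fin.last n)) := by linarith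
      rw [this]
      ring
    have aw : ∑ i, a i * w i = 0 := by
      have : ∑ i, a i * w i = ∑ i : Fin n, a i * x₀ i.castSucc - lam * ∑ i, a i * u0 i := by
        rw [Finset.mul_sum, ← Finset.sum_sub_distrib, hw, hu0]
        exact Finset.sum_congr rfl fun i _ => by ring
      rw [this, aξ, au0]
      ring
    have ap : ∑ i, a i * (u0 + w) i = c := by
      simp only [Pi.add_apply, mul_add, Finset.sum_add_distrib]
      rw [au0, aw, add_zero]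
    have am : ∑ i, a i * (u0 - w) i = c := by
      simp only [Pi.sub_apply, mul_sub, Finset.sum_sub_distrib]
      rw [au0, aw, sub_zero]
    have bu0 : ∀ i, |u0 i| ≤ 4 * (1 + (n : ℝ) * U₀) := by
      intro i
      rw [hu0]
      simp only
      rw [abs_mul]
      calc |c| * |a i| ≤ |c| * 1 := mul_le_mul_of_nonneg_left (wq_le_of_sq a ha1 i) (abs_nonneg _)
        _ ≤ _ := by linarith
    have bw : ∀ i, |w i| ≤ 1 + 4 * (1 + (n : ℝ) * U₀) := by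
      intro i
      have e : w i = x₀ i.castSucc - lam * u0 i := by rw [hw, hu0]
      rw [e]
      calc |x₀ i.castSucc - lam * u0 i| ≤ |x₀ i.castSucc| + |lam * u0 i| := abs_sub _ _
        _ ≤ 1 + 1 * (4 * (1 + (n : ℝ) * U₀)) := by
          refine add_le_add (wq_le_of_sq x₀ hx1 _) ?_
          rw [abs_mul]
          exact mul_le_mul hl1 (bu0 i) (abs_nonneg _) zero_le_one
        _ = _ := by ring
    have b0 : ∀ i, |u0 i| ≤ wqB0 n U₀ := fun i => le_trans (bu0 i) (by unfold wqB0; linarith)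
    have bp : ∀ i, |(u0 + w) i| ≤ wqB0 n U₀ := fun i => by
      rw [Pi.add_apply]
      refine le_trans (abs_add_le _ _) ?_
      unfold wqB0
      linarith [bu0 i, bw i]
    have bm : ∀ i, |(u0 - w) i| ≤ wqB0 n U₀ := fun i => by
      rw [Pi.sub_apply]
      refine le_trans (abs_sub _ _) ?_
      unfold wqB0
      linarith [bu0 i, bw i]
    obtain ⟨y, hy⟩ : ∃ y : Fin (n + 1) → ℝ, y = Fin.snoc w 0 := ⟨_, rfl⟩
    have ezp : wqDir u0 + y = wqDir (u0 + w) := by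
      funext k
      refine Fin.lastCases ?_ (fun i => ?_) k
      · simp [wqDir, hy]
      · simp [wqDir, hy]
    have ezm : wqDir u0 - y = wqDir (u0 - w) := by
      funext k
      refine Fin.lastCases ?_ (fun i => ?_) k
      · simp [wqDir, hy]
      · simp [wqDir, hy]
    have ex : x₀ = lam • wqDir u0 + y := by
      funext k
      refine Fin.lastCases ?_ (fun i => ?_) k
      · simp [wqDir, hy, hlam]
      · simp [wqDir, hy, hw, hu0]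
    have hκ : ∀ u : Fin n → ℝ, bs / 2 ≤ |wqF B (wqDir u)| → wqK0 n U₀ ≤ |wqF B (wqDir u) / G| := by
      intro u hu
      rw [abs_div, abs_of_pos hG0, le_div_iff₀ hG0, hG]
      unfold wqK0
      have : 1 / (2 * wqG n U₀) * (bs * wqG n U₀) = bs / 2 := by
        have : wqG n U₀ ≠ 0 := by linarith
        field_simp
      rw [this]
      exact hu
    by_contra hcon
    push Not at hcon
    have n0 : |wqF B (wqDir u0)| < bs / 2 := by
      by_contra h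
      push Not at h
      exact absurd (hκ u0 h) (not_le.mpr (by rw [← hq]; exact hcon u0 au0 b0))
    have np : |wqF B (wqDir (u0 + w))| < bs / 2 := by
      by_contra h
      push Not at h
      exact absurd (hκ _ h) (not_le.mpr (by rw [← hq]; exact hcon _ ap bp))
    have nm : |wqF B (wqDir (u0 - w))| < bs / 2 := by
      by_contra h
      push Not at h
      exact absurd (hκ _ h) (not_le.mpr (by rw [← hq]; exact hcon _ am bm))
    obtain ⟨M, hM⟩ : ∃ M : ℝ, M = max |wqF B (wqDir u0)| (max |wqF B (wqDir (u0 + w))| |wqF B (wqDir (u0 - w))|) := ⟨_, rfl⟩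
    have hMlt : M < bs / 2 := by
      rw [hM]
      exact max_lt n0 (max_lt np nm)
    have h3 := wq_three B (wqDir u0) y lam M hl1 (by rw [hM]; exact le_max_left _ _)
      (by rw [ezp, hM]; exact le_trans (le_max_left _ _) (le_max_right _ _))
      (by rw [ezm, hM]; exact le_trans (le_max_right _ _) (le_max_right _ _))
    rw [← ex, hx2] at h3
    linarith
  · intro u hu
    obtain ⟨u', h1, h2, h3, h4⟩ := hcs u hu
    refine ⟨u', hdir2 u' h1, h2, ?_, h4⟩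
    rw [hq, abs_div, abs_of_pos hG0, div_le_iff₀ hG0, hG]
    exact h3

/-- the constant of `wq_main` -/
noncomputable def wqC (n : ℕ) (U₀ : ℝ) : ℝ :=
  ((n : ℝ) + 1) ^ 2 / wqc n U₀ + ((n : ℝ) + 1) * (1 + ((n : ℝ) + 1) ^ 2 * (2 * (U₀ + 1) + 1) / wqc n U₀)

theorem wq_triv {m : ℕ} (B : Fin m → Fin m → ℝ) (bb : ℝ) (hB : ∀ i j, |B i j| ≤ bb) (x : Fin m → ℝ) :
    |wqF B x| ≤ (m : ℝ) ^ 2 * bb * ‖x‖ ^ 2 := by
  have hterm : ∀ i j, |B i j * x i * x j| ≤ bb * ‖x‖ ^ 2 := by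
    intro i j
    have hbb : 0 ≤ bb := le_trans (abs_nonneg _) (hB i j)
    have h1 : |x i| ≤ ‖x‖ := by simpa using norm_le_pi_norm x i
    have h2 : |x j| ≤ ‖x‖ := by simpa using norm_le_pi_norm x j
    rw [abs_mul, abs_mul, pow_two, mul_assoc]
    exact mul_le_mul (hB i j) (mul_le_mul h1 h2 (abs_nonneg _) (norm_nonneg _)) (by positivity) hbb
  unfold wqF
  calc |∑ i, ∑ j, B i j * x i * x j| ≤ ∑ i, |∑ j, B i j * x i * x j| := Finset.abs_sum_le_sum_abs _ _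
    _ ≤ ∑ i : Fin m, ∑ j : Fin m, |B i j * x i * x j| := Finset.sum_le_sum fun i _ => Finset.abs_sum_le_sum_abs _ _
    _ ≤ ∑ _i : Fin m, ∑ _j : Fin m, bb * ‖x‖ ^ 2 := Finset.sum_le_sum fun i _ => Finset.sum_le_sum fun j _ => hterm i j
    _ = (m : ℝ) ^ 2 * bb * ‖x‖ ^ 2 := by
      simp only [Finset.sum_const, Finset.card_univ, Fintype.card_fin, nsmul_eq_mul]
      ring

theorem wq_sumsq_le {m : ℕ} (x : Fin m → ℝ) : ∑ i, x i ^ 2 ≤ (m : ℝ) * ‖x‖ ^ 2 := by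
  calc ∑ i, x i ^ 2 ≤ ∑ _i : Fin m, ‖x‖ ^ 2 := Finset.sum_le_sum fun i _ => by
        rw [← sq_abs]
        exact pow_le_pow_left₀ (abs_nonneg _) (by simpa using norm_le_pi_norm x i) 2
    _ = (m : ℝ) * ‖x‖ ^ 2 := by simp

theorem wq_empty {n : ℕ} (hn : 1 ≤ n) (U₀ : ℝ) (hU : 0 ≤ U₀) (δ₂ τ : ℝ) : NarrowB (∅ : Set (Fin n → ℝ)) δ₂ τ (wqK0 n U₀) (wqB0 n U₀) := by
  have hnU : 0 ≤ (n : ℝ) * U₀ := by positivity
  have hB0 : 0 ≤ wqB0 n U₀ := by unfold wqB0; nlinarith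
  have hG1 : 1 ≤ wqG n U₀ := by
    unfold wqG
    have : 0 ≤ (n : ℝ) * wqB0 n U₀ ^ 2 := by positivity
    linarith
  refine ⟨Pi.single ⟨0, hn⟩ 1, 0, fun _ _ => 0, fun _ => 0, 1, ?_, ?_, ?_, ?_, ?_⟩
  · have : ∀ i : Fin n, (Pi.single (⟨0, hn⟩ : Fin n) (1 : ℝ) : Fin n → ℝ) i ^ 2 = if i = ⟨0, hn⟩ then 1 else 0 := by
      intro i
      by_cases h : i = ⟨0, hn⟩
      · simp [h]
      · simp [h]
    simp only [this]
    simp
  · unfold wqB0
    rw [abs_zero]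
    nlinarith
  · intro u _ _
    simp [wqPoly]
  · refine ⟨0, by simp, fun i => by simpa using hB0, ?_⟩
    simp only [wqPoly]
    simp only [zero_mul, Finset.sum_const_zero, zero_add, abs_one]
    unfold wqK0
    rw [div_le_one (by linarith)]
    linarith
  · intro u hu
    exact absurd hu (Set.notMem_empty u)

theorem wq_proj {n : ℕ} (U₀ : ℝ) (hU : 0 ≤ U₀) (N : Fin (n + 1) → ℝ)
    (hNx : wqc n U₀ ^ 2 ≤ ∑ i : Fin n, N i.castSucc ^ 2) (B : Fin (n + 1) → Fin (n + 1) → ℝ) (bb q1 q2 δ : ℝ) (hB : ∀ i j, |B i j| ≤ bb)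
    (hq1 : 0 ≤ q1) (hδ1 : δ ≤ 1) (hq1δ : q1 ≤ wqc n U₀ * δ) (u : Fin n → ℝ) (hu : ∀ i, |u i| ≤ U₀)
    (h1 : |∑ i, N i * wqDir u i| ≤ q1) (h2 : |wqF B (wqDir u)| ≤ q2) :
    ∃ u' : Fin n → ℝ, ∑ i, N i * wqDir u' i = 0 ∧ (∀ i, |u' i - u i| ≤ δ) ∧
      |wqF B (wqDir u')| ≤ q2 + ((n : ℝ) + 1) ^ 2 * (2 * (U₀ + 1) + 1) / wqc n U₀ * q1 * bb := by
  have hc0 : 0 < wqc n U₀ := by unfold wqc; positivity
  have hbb : 0 ≤ bb := le_trans (abs_nonneg _) (hB 0 0)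
  obtain ⟨P, hP⟩ : ∃ P : ℝ, P = ∑ i : Fin n, N i.castSucc ^ 2 := ⟨_, rfl⟩
  rw [← hP] at hNx
  have hP0 : 0 < P := lt_of_lt_of_le (pow_pos hc0 2) hNx
  obtain ⟨s, hs⟩ : ∃ s : ℝ, s = ∑ i, N i * wqDir u i := ⟨_, rfl⟩
  rw [← hs] at h1
  obtain ⟨ε, hε⟩ : ∃ ε : ℝ, ε = q1 / wqc n U₀ := ⟨_, rfl⟩
  have hε0 : 0 ≤ ε := by rw [hε]; positivity
  have hεδ : ε ≤ δ := by rw [hε, div_le_iff₀ hc0]; linarith
  have he : ∀ i : Fin n, |s / P * N i.castSucc| ≤ ε := by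
    intro i
    have hNi : N i.castSucc ^ 2 ≤ P := by
      rw [hP]
      exact Finset.single_le_sum (f := fun k : Fin n => N k.castSucc ^ 2) (fun k _ => sq_nonneg _) (Finset.mem_univ i)
    have hk : |N i.castSucc| * wqc n U₀ ≤ P := by nlinarith [sq_nonneg (|N i.castSucc| - wqc n U₀), sq_abs (N i.castSucc)]
    rw [abs_mul, abs_div, abs_of_pos hP0, hε, div_mul_eq_mul_div, div_le_div_iff₀ hP0 hc0]
    calc |s| * |N i.castSucc| * wqc n U₀ = |s| * (|N i.castSucc| * wqc n U₀) := by ring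
      _ ≤ q1 * P := mul_le_mul h1 hk (by positivity) hq1
  refine ⟨fun i => u i - s / P * N i.castSucc, ?_, ?_, ?_⟩
  · rw [wq_dir_sum]
    rw [wq_dir_sum] at hs
    have : ∑ i : Fin n, N i.castSucc * (u i - s / P * N i.castSucc) = ∑ i : Fin n, N i.castSucc * u i - s / P * P := by
      rw [hP, Finset.mul_sum, ← Finset.sum_sub_distrib]
      exact Finset.sum_congr rfl fun i _ => by ring
    rw [this, div_mul_cancel₀ _ hP0.ne']
    linarith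
  · intro i
    show |u i - s / P * N i.castSucc - u i| ≤ δ
    rw [sub_sub_cancel_left, abs_neg]
    exact le_trans (he i) hεδ
  · have e : wqDir (fun i => u i - s / P * N i.castSucc) = wqDir u + Fin.snoc (fun i : Fin n => -(s / P * N i.castSucc)) (0 : ℝ) := by
      funext k
      refine Fin.lastCases ?_ (fun i => ?_) k
      · simp [wqDir]
      · simp [wqDir, sub_eq_add_neg]
    rw [e]
    have hp := wq_perturb B bb (U₀ + 1) ε hB (wqDir u) (Fin.snoc (fun i : Fin n => -(s / P * N i.castSucc)) (0 : ℝ))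
      (fun k => by
        refine Fin.lastCases ?_ (fun i => ?_) k
        · simp only [wqDir, Fin.snoc_last, abs_one]
          linarith
        · simp only [wqDir, Fin.snoc_castSucc]
          linarith [hu i])
      (fun k => by
        refine Fin.lastCases ?_ (fun i => ?_) k
        · simp only [Fin.snoc_last, abs_zero]
          exact hε0
        · simp only [Fin.snoc_castSucc, abs_neg]
          exact he i)
    have hb : (((n + 1 : ℕ) : ℝ)) ^ 2 * bb * ε * (2 * (U₀ + 1) + ε) ≤ ((n : ℝ) + 1) ^ 2 * (2 * (U₀ + 1) + 1) / wqc n U₀ * q1 * bb := by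
      have e2 : ((n : ℝ) + 1) ^ 2 * (2 * (U₀ + 1) + 1) / wqc n U₀ * q1 * bb = ((n : ℝ) + 1) ^ 2 * bb * ε * (2 * (U₀ + 1) + 1) := by
        rw [hε]
        field_simp
      rw [e2]
      push_cast
      refine mul_le_mul_of_nonneg_left (by linarith) (by positivity)
    have h3 := abs_le.mp hp
    have h4 := abs_le.mp h2
    rw [abs_le]
    constructor <;> linarith [h3.1, h3.2, h4.1, h4.2]

theorem wq_main_key (n : ℕ) (hn : 1 ≤ n) (U₀ : ℝ) (hU : 0 ≤ U₀) (δ τ : ℝ) (hδ1 : δ ≤ 1)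
    {β : Type} (hv : Set β) (cen : β → Fin n → ℝ) (V : β → Set (Fin n → ℝ))
    (hV : ∀ b ∈ hv, ∀ u ∈ V b, ∀ i, |u i| ≤ U₀ ∧ |u i - cen b i| ≤ δ)
    (hH3 : ¬ NarrowB (cen '' hv) (2 * δ) τ (wqK0 n U₀) (wqB0 n U₀))
    (N : Fin (n + 1) → ℝ) (B : Fin (n + 1) → Fin (n + 1) → ℝ) (bb q1 q2 : ℝ) (hN : ∑ i, N i ^ 2 = 1) (hB : ∀ i j, |B i j| ≤ bb) (hq1 : 0 ≤ q1)
    (hpass : ∀ V' ∈ {S | ∃ b ∈ hv, S = wqDir '' V b}, ∃ v ∈ V', |∑ i, N i * v i| ≤ q1 ∧ |∑ i, ∑ j, B i j * v i * v j| ≤ q2)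
    (hBc : q1 ≤ wqc n U₀ * δ) (bs : ℝ) (hpos : 0 < bs)
    (hbs : ∀ x : Fin (n + 1) → ℝ, ∑ i, N i * x i = 0 → |wqF B x| ≤ bs * ∑ i, x i ^ 2)
    (x₀ : Fin (n + 1) → ℝ) (hx0 : ∑ i, N i * x₀ i = 0) (hx1 : ∑ i, x₀ i ^ 2 = 1) (hx2 : |wqF B x₀| = bs) :
    τ * (bs * wqG n U₀) < q2 + ((n : ℝ) + 1) ^ 2 * (2 * (U₀ + 1) + 1) / wqc n U₀ * q1 * bb := by
  have hc0 : 0 < wqc n U₀ := by unfold wqc; positivity
  by_contra hcon
  push Not at hcon
  apply hH3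
  rcases hv.eq_empty_or_nonempty with hE | ⟨b₀, hb₀⟩
  · rw [hE, Set.image_empty]
    exact wq_empty hn U₀ hU _ _
  · have hdirs : ∀ b ∈ hv, ∃ u ∈ V b, |∑ i, N i * wqDir u i| ≤ q1 ∧ |wqF B (wqDir u)| ≤ q2 := by
      intro b hb
      obtain ⟨v, ⟨u, hu, rfl⟩, h1, h2⟩ := hpass (wqDir '' V b) ⟨b, hb, rfl⟩
      exact ⟨u, hu, h1, h2⟩
    have hNx : wqc n U₀ ^ 2 ≤ ∑ i : Fin n, N i.castSucc ^ 2 := by
      obtain ⟨u, hu, h1, -⟩ := hdirs b₀ hb₀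
      refine wq_normal N hN u U₀ hU (fun i => (hV b₀ hb₀ u hu i).1) (le_trans h1 (le_trans hBc ?_))
      nlinarith
    refine wq_narrow hn U₀ hU N hN hNx B bs hpos hbs x₀ hx0 hx1 hx2 _ _ _ ?_
    rintro _ ⟨b, hb, rfl⟩
    obtain ⟨u, hu, h1, h2⟩ := hdirs b hb
    obtain ⟨u', k1, k2, k3⟩ := wq_proj U₀ hU N hNx B bb q1 q2 δ hB hq1 hδ1 hBc u (fun i => (hV b hb u hu i).1) h1 h2
    refine ⟨u', k1, fun i => ?_, ?_, fun i => ?_⟩
    · have a1 := abs_le.mp (k2 i)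
      have a2 := abs_le.mp (hV b hb u hu i).1
      have hnU : 0 ≤ (n : ℝ) * U₀ := by positivity
      have hnU' : U₀ ≤ (n : ℝ) * U₀ := by
        have : (1 : ℝ) ≤ n := by exact_mod_cast hn
        nlinarith
      unfold wqB0
      rw [abs_le]
      constructor <;> linarith [a1.1, a1.2, a2.1, a2.2]
    · exact le_trans k3 hcon
    · have a1 := abs_le.mp (k2 i)
      have a2 := abs_le.mp (hV b hb u hu i).2
      rw [abs_le]
      constructor <;> linarith [a1.1, a1.2, a2.1, a2.2]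

/-- **LEAF L-257-WQ-MAIN: (H3) ⟹ `WgQX`.**   `c₂ = wqc n U₀`, `m = n + 1`.   Unfold `WgQX`; `bb ≥ 0`.
CASE `c₂ δ < q1`: `|B[x]| ≤ m² bb ‖x‖² ≤ (m²/(c₂ δ)) q1 bb ‖x‖²` (`norm_le_pi_norm`).
CASE `q1 ≤ c₂ δ`: take `bs, x₀` from `wq_max`; `bs = 0` is trivial.   Suppose `q2 + C₃ q1 bb ≤ τ bs Γ`, `C₃ = m² (2 (U₀+1) + 1)/c₂`; we contradict `hH3`.
 If `hv = ∅`: `NarrowB ∅` holds with `a = e_0` (`hn`), `c = 0`, `q ≡ 1` (`S = 0, b = 0, c0 = 1`, witness `u₀ = 0`, `κ₀ ≤ 1`, `2 ≤ B₀`).   Otherwise `hNx` from `wq_normal` for the passing direction of one `b ∈ hv` (`q1 ≤ c₂`), then `wq_narrow`: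
 For `b ∈ hv`: `(u_b,1)` the passing direction, `s_b = N·(u_b,1)`, `u'_b = u_b - (s_b/ρ²) N_x`: `N·(u'_b,1) = 0`, `|u'_b i - u_b i| ≤ |s_b|/ρ ≤ q1/c₂ ≤ δ`, so `|u'_b i| ≤ U₀ + 1 ≤ B₀`, `|cen b i - u'_b i| ≤ 2δ`;
 `wq_perturb` (`Vb = U₀ + 1`, `ε = q1/c₂ ≤ 1`, `e = wqDir u'_b - wqDir u_b`, last coordinate `0`): `|B[(u'_b,1)]| ≤ q2 + C₃ q1 bb`.
 Hence `τ bs Γ < q2 + C₃ q1 bb`, `bs ≤ ((1 + C₃)/τ)(q2 + q1 bb)` (`Γ ≥ 1`), and `|B[x]| ≤ bs ∑ x i² ≤ m bs ‖x‖²`.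
Both cases are `≤ wqC/(δ τ) (q2 + q1 bb) ‖x‖²` because `δ, τ ≤ 1`. -/
theorem wq_main (n : ℕ) (hn : 1 ≤ n) (U₀ : ℝ) (hU : 0 ≤ U₀) (δ τ : ℝ) (hδ : 0 < δ) (hδ1 : δ ≤ 1) (hτ : 0 < τ) (hτ1 : τ ≤ 1)
    {β : Type} (hv : Set β) (cen : β → Fin n → ℝ) (V : β → Set (Fin n → ℝ))
    (hV : ∀ b ∈ hv, ∀ u ∈ V b, ∀ i, |u i| ≤ U₀ ∧ |u i - cen b i| ≤ δ)
    (hH3 : ¬ NarrowB (cen '' hv) (2 * δ) τ (wqK0 n U₀) (wqB0 n U₀)) :
    WgQX (wqC n U₀ / (δ * τ)) {S | ∃ b ∈ hv, S = wqDir '' V b} := by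
  intro N B bb q1 q2 hN hsym hB hq1 hq2 hpass x hx
  show |wqF B x| ≤ _
  have hbb : 0 ≤ bb := le_trans (abs_nonneg _) (hB 0 0)
  have hc0 : 0 < wqc n U₀ := by unfold wqc; positivity
  obtain ⟨m, hm⟩ : ∃ m : ℝ, m = (n : ℝ) + 1 := ⟨_, rfl⟩
  have hm1 : 1 ≤ m := by rw [hm]; have : (0 : ℝ) ≤ n := Nat.cast_nonneg n; linarith
  obtain ⟨C₃, hC₃⟩ : ∃ C₃ : ℝ, C₃ = m ^ 2 * (2 * (U₀ + 1) + 1) / wqc n U₀ := ⟨_, rfl⟩
  have hC₃0 : 0 ≤ C₃ := by rw [hC₃]; positivity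
  obtain ⟨W1, hW1⟩ : ∃ W1 : ℝ, W1 = m ^ 2 / wqc n U₀ := ⟨_, rfl⟩
  have hW10 : 0 ≤ W1 := by rw [hW1]; positivity
  have hW1c : W1 * wqc n U₀ = m ^ 2 := by rw [hW1]; field_simp
  have hC : wqC n U₀ = W1 + m * (1 + C₃) := by
    unfold wqC
    rw [hW1, hC₃, hm]
  have hC0 : 0 ≤ wqC n U₀ := by rw [hC]; positivity
  have hX : 0 ≤ ‖x‖ ^ 2 := by positivity
  obtain ⟨Q, hQ⟩ : ∃ Q : ℝ, Q = q2 + q1 * bb := ⟨_, rfl⟩
  have hQ0 : 0 ≤ Q := by rw [hQ]; positivity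
  rw [← hQ]
  have hδτ : 0 < δ * τ := mul_pos hδ hτ
  have hcast : ((n + 1 : ℕ) : ℝ) = m := by rw [hm]; push_cast; ring
  rcases lt_or_ge (wqc n U₀ * δ) q1 with hA | hBc
  · have t1 := wq_triv B bb hB x
    rw [hcast] at t1
    refine le_trans t1 (mul_le_mul_of_nonneg_right ?_ hX)
    rw [div_mul_eq_mul_div, le_div_iff₀ hδτ]
    calc m ^ 2 * bb * (δ * τ) = W1 * bb * (wqc n U₀ * δ) * τ := by rw [← hW1c]; ring
      _ ≤ W1 * bb * q1 * 1 := by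
        refine mul_le_mul (mul_le_mul_of_nonneg_left hA.le (by positivity)) hτ1 hτ.le (by positivity)
      _ = W1 * (q1 * bb) := by ring
      _ ≤ wqC n U₀ * Q := by
        rw [hC, hQ]
        refine mul_le_mul (by nlinarith) (by linarith) (by positivity) (by nlinarith)
  · obtain ⟨bs, hbs0, hbs, hor⟩ := wq_max N B
    have t2 : |wqF B x| ≤ bs * (m * ‖x‖ ^ 2) := by
      refine le_trans (hbs x hx) (mul_le_mul_of_nonneg_left ?_ hbs0)
      have := wq_sumsq_le x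
      rwa [hcast] at this
    rcases hbs0.eq_or_lt with hz | hpos
    · rw [← hz, zero_mul] at t2
      exact le_trans t2 (mul_nonneg (mul_nonneg (div_nonneg hC0 hδτ.le) hQ0) hX)
    · obtain ⟨x₀, hx0, hx1, hx2⟩ : ∃ x₀ : Fin (n + 1) → ℝ, ∑ i, N i * x₀ i = 0 ∧ ∑ i, x₀ i ^ 2 = 1 ∧ |wqF B x₀| = bs := by
        rcases hor with h | h
        · exact absurd h hpos.ne'
        · exact h
      have hG1 : 1 ≤ wqG n U₀ := by
        unfold wqG
        have : 0 ≤ (n : ℝ) * wqB0 n U₀ ^ 2 := by positivity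
        linarith
      have key : τ * (bs * wqG n U₀) < q2 + C₃ * q1 * bb := by
        rw [hC₃, hm]
        exact wq_main_key n hn U₀ hU δ τ hδ1 hv cen V hV hH3 N B bb q1 q2 hN hB hq1 hpass hBc bs hpos hbs x₀ hx0 hx1 hx2
      have k5 : τ * bs ≤ (1 + C₃) * Q := by
        have k6 : τ * bs ≤ τ * (bs * wqG n U₀) := by
          exact mul_le_mul_of_nonneg_left (le_mul_of_one_le_right hpos.le hG1) hτ.le
        have k7 : q2 + C₃ * q1 * bb ≤ (1 + C₃) * Q := by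
          rw [hQ]
          have e : (1 + C₃) * (q2 + q1 * bb) = q2 + C₃ * q1 * bb + (q1 * bb + C₃ * q2) := by ring
          rw [e]
          linarith [mul_nonneg hC₃0 hq2, mul_nonneg hq1 hbb]
        linarith
      refine le_trans t2 ?_
      have e : bs * (m * ‖x‖ ^ 2) = bs * m * ‖x‖ ^ 2 := by ring
      rw [e]
      refine mul_le_mul_of_nonneg_right ?_ hX
      rw [div_mul_eq_mul_div, le_div_iff₀ hδτ]
      calc bs * m * (δ * τ) = (τ * bs) * m * δ := by ring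
        _ ≤ ((1 + C₃) * Q) * m * 1 := by
          refine mul_le_mul (mul_le_mul_of_nonneg_right k5 (by linarith)) hδ1 hδ.le (by positivity)
        _ = m * (1 + C₃) * Q := by ring
        _ ≤ wqC n U₀ * Q := by
          rw [hC]
          refine mul_le_mul_of_nonneg_right (by linarith) hQ0

theorem wq_F_dot {m : ℕ} (B : Matrix (Fin m) (Fin m) ℝ) (x : Fin m → ℝ) : wqF B x = x ⬝ᵥ B.mulVec x := by
  unfold wqF
  simp only [dotProduct, Matrix.mulVec, Finset.mul_sum]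
  exact Finset.sum_congr rfl fun i _ => Finset.sum_congr rfl fun j _ => by ring

theorem wq_F_conj {m : ℕ} (T B' : Matrix (Fin m) (Fin m) ℝ) (x : Fin m → ℝ) :
    wqF (T.transpose * (B' * T)) x = wqF B' (T.mulVec x) := by
  rw [wq_F_dot, wq_F_dot, ← Matrix.mulVec_mulVec, ← Matrix.mulVec_mulVec, Matrix.dotProduct_mulVec, Matrix.vecMul_transpose]

theorem wq_sum_le {m : ℕ} (f : Fin m → ℝ) (X : ℝ) (h : ∀ j, |f j| ≤ X) : |∑ j, f j| ≤ (m : ℝ) * X := by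
  calc |∑ j, f j| ≤ ∑ j, |f j| := Finset.abs_sum_le_sum_abs _ _
    _ ≤ ∑ _j : Fin m, X := Finset.sum_le_sum fun j _ => h j
    _ = (m : ℝ) * X := by simp

theorem wq_mulVec_le {m : ℕ} (A : Matrix (Fin m) (Fin m) ℝ) (Θ X : ℝ) (hA : ∀ i j, |A i j| ≤ Θ) (x : Fin m → ℝ) (hx : ∀ j, |x j| ≤ X)
    (i : Fin m) : |(A.mulVec x) i| ≤ (m : ℝ) * (Θ * X) := by
  refine wq_sum_le _ _ fun j => ?_
  rw [abs_mul]
  exact mul_le_mul (hA i j) (hx j) (abs_nonneg _) (le_trans (abs_nonneg _) (hA i j))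

theorem wq_map_num (M Θ σ Kq q1 q2 bb X X' : ℝ) (hM : 1 ≤ M) (hΘ : 1 ≤ Θ) (hσ : 0 < σ) (hσ1 : σ ≤ 1) (hKq : 0 ≤ Kq) (hq1 : 0 ≤ q1) (hq2 : 0 ≤ q2)
    (hbb : 0 ≤ bb) (hX : 0 ≤ X) (hXX : X ≤ M * (Θ * X')) :
    Kq * (q2 / σ ^ 2 + M ^ 2 * Θ * q1 / σ * (M ^ 2 * Θ ^ 2 * bb)) * X ^ 2 ≤ Kq * (M ^ 6 * Θ ^ 5 / σ ^ 2) * (q2 + q1 * bb) * X' ^ 2 := by
  have hM0 : 0 < M := by linarith
  have hΘ0 : 0 < Θ := by linarith
  have h1 : X ^ 2 ≤ (M * (Θ * X')) ^ 2 := pow_le_pow_left₀ hX hXX 2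
  have s1 : M ^ 2 * Θ ^ 2 ≤ M ^ 6 * Θ ^ 5 :=
    mul_le_mul (pow_le_pow_right₀ hM (by norm_num)) (pow_le_pow_right₀ hΘ (by norm_num)) (by positivity) (by positivity)
  have hb : 0 ≤ q1 * bb := by positivity
  have h2 : (q2 / σ ^ 2 + M ^ 2 * Θ * q1 / σ * (M ^ 2 * Θ ^ 2 * bb)) * (M ^ 2 * Θ ^ 2) ≤ M ^ 6 * Θ ^ 5 / σ ^ 2 * (q2 + q1 * bb) := by
    have e1 : (q2 / σ ^ 2 + M ^ 2 * Θ * q1 / σ * (M ^ 2 * Θ ^ 2 * bb)) * (M ^ 2 * Θ ^ 2)
        = (q2 * (M ^ 2 * Θ ^ 2) + M ^ 6 * Θ ^ 5 * (q1 * bb) * σ) / σ ^ 2 := by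
      field_simp
    have e2 : M ^ 6 * Θ ^ 5 / σ ^ 2 * (q2 + q1 * bb) = (q2 * (M ^ 6 * Θ ^ 5) + M ^ 6 * Θ ^ 5 * (q1 * bb) * 1) / σ ^ 2 := by
      field_simp
    rw [e1, e2]
    refine div_le_div_of_nonneg_right ?_ (by positivity)
    refine add_le_add (mul_le_mul_of_nonneg_left s1 hq2) (mul_le_mul_of_nonneg_left hσ1 (by positivity))
  calc Kq * (q2 / σ ^ 2 + M ^ 2 * Θ * q1 / σ * (M ^ 2 * Θ ^ 2 * bb)) * X ^ 2
      ≤ Kq * (q2 / σ ^ 2 + M ^ 2 * Θ * q1 / σ * (M ^ 2 * Θ ^ 2 * bb)) * (M * (Θ * X')) ^ 2 :=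
        mul_le_mul_of_nonneg_left h1 (by positivity)
    _ = Kq * ((q2 / σ ^ 2 + M ^ 2 * Θ * q1 / σ * (M ^ 2 * Θ ^ 2 * bb)) * (M ^ 2 * Θ ^ 2)) * X' ^ 2 := by ring
    _ ≤ Kq * (M ^ 6 * Θ ^ 5 / σ ^ 2 * (q2 + q1 * bb)) * X' ^ 2 :=
        mul_le_mul_of_nonneg_right (mul_le_mul_of_nonneg_left h2 hKq) (by positivity)
    _ = _ := by ring

/-- **LEAF L-257-WQ-MAP: `WgQX` is invariant under invertible linear maps and scaling of the directions.**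
Given `N', B', bb', q1', q2'` for the image family: `λ = √(∑ (Tᵀ N') i²)`; `N' = T'ᵀ (Tᵀ N')` (from `T * T' = 1`, hence also `T' * T = 1`: `Matrix.mul_eq_one_comm`) gives `|N' j| ≤ Θ m λ`, so `1 ≤ m (Θ m λ)²` and `λ ≥ 1/(m² Θ)`.
`N = Tᵀ N' / λ`, `B i j = ∑ k l, T k i * B' k l * T l j` (symmetric, `|B i j| ≤ m² Θ² bb'`), `q1 = m² Θ q1' / σ`, `q2 = q2' / σ²`.   For `v' = σ • T v`: `N'·v' = σ λ N·v`, `B'[v'] = σ² B[v]`.
For `x' ⊥ N'`: `x = T' x'`, `T x = x'`, `N·x = 0`, `B[x] = B'[x']`, `‖x‖ ≤ m Θ ‖x'‖`.   Collect: `Kq (q2'/σ² + (m² Θ/σ) m² Θ² q1' bb') m² Θ² ‖x'‖² ≤ Kq m⁶ Θ⁵ / σ² (q2' + q1' bb') ‖x'‖²`. -/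
theorem wq_map {m : ℕ} (T T' : Matrix (Fin m) (Fin m) ℝ) (hTT' : T * T' = 1) (Θ : ℝ) (hΘ : 1 ≤ Θ) (hT : ∀ i j, |T i j| ≤ Θ)
    (hT' : ∀ i j, |T' i j| ≤ Θ) (σ : ℝ) (hσ : 0 < σ) (hσ1 : σ ≤ 1) (Kq : ℝ) (hKq : 0 ≤ Kq) (VV : Set (Set (Fin m → ℝ)))
    (h : WgQX Kq VV) :
    WgQX (Kq * ((m : ℝ) ^ 6 * Θ ^ 5 / σ ^ 2)) {V' | ∃ V ∈ VV, V' = (fun v => σ • T.mulVec v) '' V} := by
  intro N' B' bb' q1' q2' hN' hsym' hB' hq1' hq2' hpass' x' hx'
  obtain ⟨Bm, hBm⟩ : ∃ Bm : Matrix (Fin m) (Fin m) ℝ, Bm = B' := ⟨B', rfl⟩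
  subst hBm
  rcases Nat.eq_zero_or_pos m with rfl | hmpos
  · simp at hN'
  have hbb' : 0 ≤ bb' := le_trans (abs_nonneg _) (hB' ⟨0, hmpos⟩ ⟨0, hmpos⟩)
  obtain ⟨M, hM⟩ : ∃ M : ℝ, M = (m : ℝ) := ⟨_, rfl⟩
  have hM1 : 1 ≤ M := by rw [hM]; exact_mod_cast hmpos
  have hΘ0 : 0 < Θ := by linarith
  obtain ⟨n₀, hn₀⟩ : ∃ n₀ : Fin m → ℝ, n₀ = T.transpose.mulVec N' := ⟨_, rfl⟩
  obtain ⟨lam, hlam⟩ : ∃ lam : ℝ, lam = Real.sqrt (∑ i, n₀ i ^ 2) := ⟨_, rfl⟩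
  have hlam0 : 0 ≤ lam := by rw [hlam]; exact Real.sqrt_nonneg _
  have hlam2 : lam ^ 2 = ∑ i, n₀ i ^ 2 := by
    rw [hlam]
    exact Real.sq_sqrt (Finset.sum_nonneg fun i _ => sq_nonneg _)
  have hn₀l : ∀ i, |n₀ i| ≤ lam := by
    intro i
    rw [hlam]
    exact Real.abs_le_sqrt (Finset.single_le_sum (f := fun k => n₀ k ^ 2) (fun k _ => sq_nonneg _) (Finset.mem_univ i))
  have hN'eq : N' = T'.transpose.mulVec n₀ := by
    rw [hn₀, Matrix.mulVec_mulVec, ← Matrix.transpose_mul, hTT', Matrix.transpose_one, Matrix.one_mulVec]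
  have hN'b : ∀ j, |N' j| ≤ M * (Θ * lam) := by
    intro j
    rw [hM]
    have := wq_mulVec_le T'.transpose Θ lam (fun i j => hT' j i) n₀ hn₀l j
    rwa [← hN'eq] at this
  have h1le : 1 ≤ M * (M * (Θ * lam)) ^ 2 := by
    rw [← hN']
    calc ∑ j, N' j ^ 2 ≤ ∑ _j : Fin m, (M * (Θ * lam)) ^ 2 := Finset.sum_le_sum fun j _ => by
          rw [← sq_abs]
          exact pow_le_pow_left₀ (abs_nonneg _) (hN'b j) 2
      _ = M * (M * (Θ * lam)) ^ 2 := by simp [hM]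
  have hlam1 : 1 ≤ M ^ 2 * Θ * lam := by
    by_contra hcon
    push Not at hcon
    have h0 : 0 ≤ M ^ 2 * Θ * lam := by positivity
    have h2 : (M ^ 2 * Θ * lam) ^ 2 < 1 := by nlinarith
    have h3 : M * (M * (Θ * lam)) ^ 2 ≤ (M ^ 2 * Θ * lam) ^ 2 := by
      have e : (M ^ 2 * Θ * lam) ^ 2 = M * (M * (M * (Θ * lam)) ^ 2) := by ring
      rw [e]
      exact le_mul_of_one_le_left (by positivity) hM1
    linarith
  have hlampos : 0 < lam := by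
    rcases hlam0.eq_or_lt with h0 | h0
    · rw [← h0] at hlam1
      norm_num at hlam1
    · exact h0
  obtain ⟨N, hNdef⟩ : ∃ N : Fin m → ℝ, N = fun i => n₀ i / lam := ⟨_, rfl⟩
  have hNu : ∑ i, N i ^ 2 = 1 := by
    rw [hNdef]
    simp only [div_pow]
    rw [← Finset.sum_div, ← hlam2]
    exact div_self (pow_ne_zero 2 hlampos.ne')
  have hNdot : ∀ v : Fin m → ℝ, ∑ i, N' i * (T.mulVec v) i = lam * ∑ i, N i * v i := by
    intro v
    have e1 : ∑ i, N' i * (T.mulVec v) i = n₀ ⬝ᵥ v := by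
      rw [hn₀, Matrix.mulVec_transpose, ← Matrix.dotProduct_mulVec]
      rfl
    rw [e1, Finset.mul_sum, hNdef]
    refine Finset.sum_congr rfl fun i _ => ?_
    field_simp
  obtain ⟨B, hBdef⟩ : ∃ B : Matrix (Fin m) (Fin m) ℝ, B = T.transpose * (Bm * T) := ⟨_, rfl⟩
  have hBsym : ∀ i j, B i j = B j i := by
    have hs : Bm.transpose = Bm := by
      ext i j
      exact hsym' j i
    have : B.transpose = B := by
      rw [hBdef, Matrix.transpose_mul, Matrix.transpose_mul, Matrix.transpose_transpose, hs, Matrix.mul_assoc]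
    intro i j
    have := congrFun (congrFun this j) i
    exact this
  have hBb : ∀ i j, |B i j| ≤ M ^ 2 * Θ ^ 2 * bb' := by
    intro i j
    rw [hBdef, Matrix.mul_apply]
    have := wq_sum_le (fun k => T.transpose i k * (Bm * T) k j) (Θ * (M * (bb' * Θ))) (fun k => by
      rw [abs_mul]
      refine mul_le_mul (hT k i) ?_ (abs_nonneg _) hΘ0.le
      rw [Matrix.mul_apply, hM]
      refine wq_sum_le _ _ fun l => ?_
      rw [abs_mul]
      exact mul_le_mul (hB' k l) (hT l j) (abs_nonneg _) hbb')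
    refine le_trans this (le_of_eq ?_)
    rw [hM]
    ring
  have hpass : ∀ V ∈ VV, ∃ v ∈ V, |∑ i, N i * v i| ≤ M ^ 2 * Θ * q1' / σ ∧ |∑ i, ∑ j, B i j * v i * v j| ≤ q2' / σ ^ 2 := by
    intro V hV
    obtain ⟨_, ⟨v, hv, rfl⟩, h1, h2⟩ := hpass' _ ⟨V, hV, rfl⟩
    refine ⟨v, hv, ?_, ?_⟩
    · have e : ∑ i, N' i * (σ • T.mulVec v) i = σ * (lam * ∑ i, N i * v i) := by
        rw [← hNdot, Finset.mul_sum]
        refine Finset.sum_congr rfl fun i _ => ?_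
        simp only [Pi.smul_apply, smul_eq_mul]
        ring
      simp only at h1
      rw [e, abs_mul, abs_mul, abs_of_pos hσ, abs_of_pos hlampos] at h1
      rw [le_div_iff₀ hσ]
      have ha := abs_nonneg (∑ i, N i * v i)
      calc |∑ i, N i * v i| * σ = 1 * (|∑ i, N i * v i| * σ) := by ring
        _ ≤ (M ^ 2 * Θ * lam) * (|∑ i, N i * v i| * σ) := mul_le_mul_of_nonneg_right hlam1 (by positivity)
        _ = M ^ 2 * Θ * (σ * (lam * |∑ i, N i * v i|)) := by ring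
        _ ≤ M ^ 2 * Θ * q1' := mul_le_mul_of_nonneg_left h1 (by positivity)
    · have h2' : |wqF Bm (σ • T.mulVec v)| ≤ q2' := h2
      rw [wq_homog Bm σ (T.mulVec v), abs_mul, abs_of_nonneg (sq_nonneg σ)] at h2'
      show |wqF B v| ≤ _
      rw [hBdef, wq_F_conj, le_div_iff₀ (by positivity)]
      linarith
  obtain ⟨x, hxdef⟩ : ∃ x : Fin m → ℝ, x = T'.mulVec x' := ⟨_, rfl⟩
  have hTx : T.mulVec x = x' := by rw [hxdef, Matrix.mulVec_mulVec, hTT', Matrix.one_mulVec]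
  have hNx : ∑ i, N i * x i = 0 := by
    have := hNdot x
    rw [hTx, hx'] at this
    rcases mul_eq_zero.mp this.symm with h0 | h0
    · exact absurd h0 hlampos.ne'
    · exact h0
  have hxn : ‖x‖ ≤ M * (Θ * ‖x'‖) := by
    rw [pi_norm_le_iff_of_nonneg (by positivity)]
    intro i
    rw [Real.norm_eq_abs, hxdef, hM]
    exact wq_mulVec_le T' Θ ‖x'‖ hT' x' (fun j => by simpa using norm_le_pi_norm x' j) i
  have main := h N B (M ^ 2 * Θ ^ 2 * bb') (M ^ 2 * Θ * q1' / σ) (q2' / σ ^ 2) hNu hBsym hBb (by positivity) (by positivity) hpass x hNx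
  have e : ∑ i, ∑ j, B i j * x i * x j = ∑ i, ∑ j, Bm i j * x' i * x' j := by
    show wqF B x = wqF Bm x'
    rw [hBdef, wq_F_conj, hTx]
  rw [e] at main
  refine le_trans main ?_
  rw [← hM]
  exact wq_map_num M Θ σ Kq q1' q2' bb' ‖x‖ ‖x'‖ hM1 hΘ hσ hσ1 hKq hq1' hq2' hbb' (norm_nonneg _) hxn

/-- monotonicity in the constant -/
theorem WgQX.mono_const {m : ℕ} {Kq Kq' : ℝ} {VV : Set (Set (Fin m → ℝ))} (h : WgQX Kq VV) (hK : Kq ≤ Kq') : WgQX Kq' VV := by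
  intro N B bb q1 q2 hN hsym hB hq1 hq2 hpass x hx
  refine (h N B bb q1 q2 hN hsym hB hq1 hq2 hpass x hx).trans ?_
  rcases Nat.eq_zero_or_pos m with rfl | hm
  · simp at hN
  have hbb : 0 ≤ bb := (abs_nonneg _).trans (hB ⟨0, hm⟩ ⟨0, hm⟩)
  have : 0 ≤ (q2 + q1 * bb) * ‖x‖ ^ 2 := by positivity
  nlinarith

end Claimed.Agent.R257
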