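import Claimed.Agent.R257.Wall.Defs

/-!
# R257 / Wall / Tuple : (H2) ⟹ a ROBUST `n`-TUPLE of centres; fine grid; pigeonhole      (WALL captain helper185)      CONTRACT
PAPER-FREE.  Every `sorry` is a leaf `L-257-WT-*`.  Statements are frozen (a FALSE statement: one line to helper185); auxiliary lemmas (prefix `wt_`) directly above your theorem; edit only your block.

(H wall.tex l.92-97: "successive maximal affine heights among the remaining centers give n robustly independent directions; failure would place all centers in a forbidden codimension-two strip".)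
We avoid heights and Gram determinants: induction on the size `k` of a minor of the matrix with rows `(c_i, 1)`.   If `D ≠ 0` is a `k × k` minor (columns `col`, containing the last column) and `x` is a further point, then
`x - ∑ μ_a c_a` (`μ` = solution of the `k × k` system, `∑ μ_a = 1`) has the coordinates `D_j(x)/D`, `D_j(x)` = the minor extended by the row `(x,1)` and the column `j` (`wt_schur`).
If all `|D_j(x)| ≤ h |D|` the set lies within `h` of the affine span of `k ≤ n-1` points: `NarrowA`.   So `|minor| ≥ h^(k-1)`; no maximality, no bound on the points.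
-/

set_option autoImplicit false
open scoped BigOperators

namespace Claimed.Agent.R257

theorem wt_sum_pad {k N : ℕ} (hkN : k ≤ N) (g : Fin k → ℝ) :
    ∑ e : Fin N, (if h : e.val < k then g ⟨e.val, h⟩ else 0) = ∑ a, g a := by
  have e1 := Fin.sum_univ_eq_sum_range (fun e : ℕ => if h : e < k then g ⟨e, h⟩ else 0) N
  have e2 := Fin.sum_univ_eq_sum_range (fun e : ℕ => if h : e < k then g ⟨e, h⟩ else 0) k
  have e3 : ∑ a : Fin k, (if h : a.val < k then g ⟨a.val, h⟩ else 0) = ∑ a, g a :=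
    Finset.sum_congr rfl fun a _ => by rw [dif_pos a.2]
  rw [e1, ← e3, e2]
  refine (Finset.sum_subset (Finset.range_subset_range.2 hkN) fun e _ he => ?_).symm
  rw [dif_neg (fun h => he (Finset.mem_range.2 h))]

/-- **LEAF L-257-WT-AFF (affine combinations of `k ≤ n-1` points).**   `k = 0`: `∑ μ = 0 ≠ 1`, so `cs = ∅`; any `c₀, d`.   `k = k'+1`: `c₀ = p 0`, `d e = if h : e.val + 1 < k then p ⟨e+1, h⟩ - p 0 else 0`, `μ' e` likewise;
`∑ a, μ a * p a i = p 0 i + ∑ a : Fin k', μ a.succ * (p a.succ i - p 0 i)` (`Fin.sum_univ_succ`, `μ 0 = 1 - ∑ μ a.succ`); the sum over `Fin (n-2)` of the padded family equals the sum over `Fin k'`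
(`k' ≤ n - 2`; e.g. `Fin.sum_univ_eq_sum_range` on both sides + `Finset.sum_subset`, or `Fin.castLE` + `Finset.sum_image`). -/
theorem wt_affine {n k : ℕ} (hk : k + 1 ≤ n) (p : Fin k → Fin n → ℝ) (cs : Set (Fin n → ℝ)) (h : ℝ)
    (H : ∀ u ∈ cs, ∃ μ : Fin k → ℝ, ∑ a, μ a = 1 ∧ ∀ i, |u i - ∑ a, μ a * p a i| ≤ h) : NarrowA cs h := by
  cases k with
  | zero =>
    refine ⟨0, 0, fun u hu => ?_⟩
    obtain ⟨μ, h1, -⟩ := H u hu
    simp at h1
  | succ k' =>
    refine ⟨p 0, fun e i => if hh : e.val < k' then p (Fin.succ ⟨e.val, hh⟩) i - p 0 i else 0, fun u hu => ?_⟩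
    obtain ⟨μ, h1, h2⟩ := H u hu
    refine ⟨fun e => if hh : e.val < k' then μ (Fin.succ ⟨e.val, hh⟩) else 0, fun i => ?_⟩
    have e1 : ∑ e : Fin (n - 2), (if hh : e.val < k' then μ (Fin.succ ⟨e.val, hh⟩) else 0) *
        (if hh : e.val < k' then p (Fin.succ ⟨e.val, hh⟩) i - p 0 i else 0)
        = ∑ a : Fin k', μ a.succ * (p a.succ i - p 0 i) := by
      rw [← wt_sum_pad (show k' ≤ n - 2 by omega) fun a => μ a.succ * (p a.succ i - p 0 i)]
      refine Finset.sum_congr rfl fun e _ => ?_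
      by_cases hh : e.val < k'
      · rw [dif_pos hh, dif_pos hh, dif_pos hh]
      · rw [dif_neg hh, dif_neg hh, dif_neg hh, zero_mul]
    rw [e1]
    have e2 : u i - p 0 i - ∑ a : Fin k', μ a.succ * (p a.succ i - p 0 i) = u i - ∑ a, μ a * p a i := by
      rw [Fin.sum_univ_succ] at h1 ⊢
      have e3 : ∑ a : Fin k', μ a.succ * (p a.succ i - p 0 i)
          = ∑ a : Fin k', μ a.succ * p a.succ i - (∑ a : Fin k', μ a.succ) * p 0 i := by
        rw [Finset.sum_mul, ← Finset.sum_sub_distrib]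
        exact Finset.sum_congr rfl fun a _ => by ring
      rw [e3]
      have e4 : μ 0 = 1 - ∑ a : Fin k', μ a.succ := by linarith
      rw [e4]
      ring
    rw [e2]
    exact h2 i

/-- **LEAF L-257-WT-SCHUR (bordered minors).**   `M = of fun i j => r i (col j)`, invertible.   `μ = M⁻¹ᵀ (x ∘ col)`, i.e. `∑ a, μ a * r a (col j') = x (col j')` for all `j'` (`Matrix.vecMul`, `Matrix.nonsing_inv_mul`/`Matrix.mul_nonsing_inv`, `isUnit_iff_ne_zero`).
The bordered matrix: subtract `∑ a, μ a • row a` from the last row (determinant unchanged: `Matrix.det_updateRow_add_smul_self` iterated, or write the bordered matrix as a product `[[1,0],[μ,1]] * [[M, M_j],[0, x j - ∑ μ a r a j]]`,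
or `Matrix.det_fromBlocks₁₁` after `Matrix.det_submatrix_equiv_self` with `finSumFinEquiv`); then expand along the last row (`Matrix.det_succ_row` at `Fin.last k`, or `Matrix.det_fromBlocks_zero₂₁`). -/
theorem wt_schur {k m : ℕ} (r : Fin k → Fin m → ℝ) (col : Fin k → Fin m)
    (hD : Matrix.det (Matrix.of fun i j : Fin k => r i (col j)) ≠ 0) (x : Fin m → ℝ) :
    ∃ μ : Fin k → ℝ, ∀ j : Fin m,
      Matrix.det (Matrix.of fun i j' : Fin (k + 1) =>
          (Fin.snoc (α := fun _ => Fin m → ℝ) r x) i (Fin.snoc (α := fun _ => Fin m) col j j'))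
        = (x j - ∑ a, μ a * r a j) * Matrix.det (Matrix.of fun i j' : Fin k => r i (col j')) := by
  classical
  have hU : IsUnit (Matrix.det (Matrix.of fun i j : Fin k => r i (col j))) := isUnit_iff_ne_zero.2 hD
  generalize hM : (Matrix.of fun i j : Fin k => r i (col j)) = M at hU
  have hMa : ∀ i j, M i j = r i (col j) := fun i j => by rw [← hM]; rfl
  have hμ : ∀ j', ∑ a, (Matrix.vecMul (fun j' => x (col j')) M⁻¹) a * r a (col j') = x (col j') := by
    intro j'
    have h1 : Matrix.vecMul (Matrix.vecMul (fun j' => x (col j')) M⁻¹) M = fun j' => x (col j') := by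
      rw [Matrix.vecMul_vecMul, Matrix.nonsing_inv_mul _ hU, Matrix.vecMul_one]
    have h2 := congrFun h1 j'
    simp only [Matrix.vecMul, dotProduct, hMa] at h2 ⊢
    exact h2
  generalize Matrix.vecMul (fun j' => x (col j')) M⁻¹ = μ at hμ
  refine ⟨μ, fun j => ?_⟩
  generalize hB : (Matrix.of fun i j' : Fin (k + 1) =>
      (Fin.snoc (α := fun _ => Fin m → ℝ) r x) i (Fin.snoc (α := fun _ => Fin m) col j j')) = B
  have b1 : ∀ a b, B (Fin.castSucc a) (Fin.castSucc b) = r a (col b) := fun a b => by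
    rw [← hB]; simp [Matrix.of_apply]
  have b2 : ∀ a, B (Fin.castSucc a) (Fin.last k) = r a j := fun a => by
    rw [← hB]; simp [Matrix.of_apply]
  have b3 : ∀ b, B (Fin.last k) (Fin.castSucc b) = x (col b) := fun b => by
    rw [← hB]; simp [Matrix.of_apply]
  have b4 : B (Fin.last k) (Fin.last k) = x j := by
    rw [← hB]; simp [Matrix.of_apply]
  have h1 : (B.updateRow (Fin.last k) (∑ i, (Fin.snoc (α := fun _ => ℝ) (fun a => - μ a) 1 : Fin (k + 1) → ℝ) i • B i)).det = B.det := by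
    rw [Matrix.det_updateRow_sum]
    simp
  have hv : ∀ j', (∑ i, (Fin.snoc (α := fun _ => ℝ) (fun a => - μ a) 1 : Fin (k + 1) → ℝ) i • B i) j'
      = B (Fin.last k) j' - ∑ a, μ a * B (Fin.castSucc a) j' := by
    intro j'
    rw [Finset.sum_apply, Fin.sum_univ_castSucc]
    simp only [Fin.snoc_castSucc, Fin.snoc_last, Pi.smul_apply, smul_eq_mul, one_mul, neg_mul, Finset.sum_neg_distrib]
    ring
  rw [← h1, Matrix.det_succ_row _ (Fin.last k), Fin.sum_univ_castSucc]
  have z1 : ∀ b : Fin k, (B.updateRow (Fin.last k) (∑ i, (Fin.snoc (α := fun _ => ℝ) (fun a => - μ a) 1 : Fin (k + 1) → ℝ) i • B i))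
      (Fin.last k) (Fin.castSucc b) = 0 := by
    intro b
    rw [Matrix.updateRow_self, hv, b3]
    simp only [b1]
    rw [hμ b, sub_self]
  have z2 : (B.updateRow (Fin.last k) (∑ i, (Fin.snoc (α := fun _ => ℝ) (fun a => - μ a) 1 : Fin (k + 1) → ℝ) i • B i))
      (Fin.last k) (Fin.last k) = x j - ∑ a, μ a * r a j := by
    rw [Matrix.updateRow_self, hv, b4]
    simp only [b2]
  have z3 : ((B.updateRow (Fin.last k) (∑ i, (Fin.snoc (α := fun _ => ℝ) (fun a => - μ a) 1 : Fin (k + 1) → ℝ) i • B i)).submatrix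
      (Fin.last k).succAbove (Fin.last k).succAbove) = M := by
    ext a b
    rw [Matrix.submatrix_apply, Fin.succAbove_last, Matrix.updateRow_ne (Fin.castSucc_lt_last a).ne, b1, hMa]
  rw [Finset.sum_eq_zero (fun b _ => by rw [z1 b]; ring), z2, z3, zero_add]
  have : ((-1 : ℝ)) ^ ((Fin.last k : ℕ) + (Fin.last k : ℕ)) = 1 := by
    rw [← two_mul, pow_mul]; simp
  rw [this, one_mul]

/-- **LEAF L-257-WT-MINOR (induction on the size of the minor).**
`k = 0`: `cs ≠ ∅` (else `NarrowA` trivially); `c = fun _ => c₁`, `col = fun _ => last`; the `1 × 1` determinant is `wqDir c₁ (last) = 1` (`Matrix.det_fin_one`/`Matrix.det_unique`).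
`k → k+1` (`k + 2 ≤ n`): `c, col, D` from the induction hypothesis, `|D| ≥ h^k > 0`.   Suppose `|D_j(x)| ≤ h |D|` for all `x ∈ cs` and all `j` (`D_j(x)` = left side of `wt_schur` with `r = wqDir ∘ c`, `x := wqDir x`).
For `x ∈ cs` take `μ` of `wt_schur`: at `j = last = col j₀` the bordered matrix has two equal columns (`Matrix.det_zero_of_column_eq`, columns `j₀.castSucc ≠ last`), so `1 - ∑ μ = 0`; at `j = i.castSucc`: `|x i - ∑ μ a c a i| |D| ≤ h |D|`.
`wt_affine` (with `k+1 ≤ n-1` points) contradicts `hN`.   So some `x, j` has `|D_j(x)| > h |D| ≥ h^(k+1)`; new data `Fin.snoc c x`, `Fin.snoc col j` (`wqDir ∘ snoc = snoc (wqDir ∘ c)`: `Fin.lastCases`). -/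
theorem wt_minor {n : ℕ} (cs : Set (Fin n → ℝ)) (h : ℝ) (hh : 0 < h) (hN : ¬ NarrowA cs h) (k : ℕ) (hk : k + 1 ≤ n) :
    ∃ (c : Fin (k + 1) → Fin n → ℝ) (col : Fin (k + 1) → Fin (n + 1)), (∀ i, c i ∈ cs) ∧ (∃ j, col j = Fin.last n) ∧
      h ^ k ≤ |Matrix.det (Matrix.of fun i j : Fin (k + 1) => wqDir (c i) (col j))| := by
  induction k with
  | zero =>
    obtain ⟨c₁, hc₁⟩ : cs.Nonempty := by
      by_contra hne
      rw [Set.not_nonempty_iff_eq_empty] at hne
      exact hN ⟨0, 0, fun u hu => by rw [hne] at hu; exact absurd hu (Set.notMem_empty u)⟩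
    refine ⟨fun _ => c₁, fun _ => Fin.last n, fun _ => hc₁, ⟨0, rfl⟩, ?_⟩
    rw [Matrix.det_fin_one, Matrix.of_apply]
    simp [wqDir]
  | succ k ih =>
    obtain ⟨c, col, hc, ⟨j₀, hj₀⟩, hdet⟩ := ih (by omega)
    have hpos : 0 < h ^ k := pow_pos hh k
    have hD : Matrix.det (Matrix.of fun i j : Fin (k + 1) => wqDir (c i) (col j)) ≠ 0 := by
      intro h0
      rw [h0, abs_zero] at hdet
      linarith
    have hDpos : 0 < |Matrix.det (Matrix.of fun i j : Fin (k + 1) => wqDir (c i) (col j))| := abs_pos.2 hD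
    obtain ⟨x, hx, j, hxj⟩ : ∃ x ∈ cs, ∃ j : Fin (n + 1),
        h * |Matrix.det (Matrix.of fun i j : Fin (k + 1) => wqDir (c i) (col j))| <
          |Matrix.det (Matrix.of fun i j' : Fin (k + 1 + 1) =>
            (Fin.snoc (α := fun _ => Fin (n + 1) → ℝ) (fun a => wqDir (c a)) (wqDir x)) i
              (Fin.snoc (α := fun _ => Fin (n + 1)) col j j'))| := by
      by_contra hcon
      apply hN
      refine wt_affine (k := k + 1) (by omega) c cs h fun x hx => ?_
      obtain ⟨μ, hμ⟩ := wt_schur (fun a => wqDir (c a)) col hD (wqDir x)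
      refine ⟨μ, ?_, fun i => ?_⟩
      · have h0 : Matrix.det (Matrix.of fun i j' : Fin (k + 1 + 1) =>
            (Fin.snoc (α := fun _ => Fin (n + 1) → ℝ) (fun a => wqDir (c a)) (wqDir x)) i
              (Fin.snoc (α := fun _ => Fin (n + 1)) col (Fin.last n) j')) = 0 := by
          refine Matrix.det_zero_of_column_eq (i := Fin.castSucc j₀) (j := Fin.last (k + 1)) (Fin.castSucc_lt_last j₀).ne fun i => ?_
          simp only [Matrix.of_apply, Fin.snoc_castSucc, Fin.snoc_last, hj₀]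
        rw [hμ (Fin.last n)] at h0
        have h1 := (mul_eq_zero.1 h0).resolve_right hD
        simp only [wqDir, Fin.snoc_last, mul_one] at h1
        linarith
      · have h1 : ¬ h * |Matrix.det (Matrix.of fun i j : Fin (k + 1) => wqDir (c i) (col j))| <
          |Matrix.det (Matrix.of fun i' j' : Fin (k + 1 + 1) =>
            (Fin.snoc (α := fun _ => Fin (n + 1) → ℝ) (fun a => wqDir (c a)) (wqDir x)) i'
              (Fin.snoc (α := fun _ => Fin (n + 1)) col (Fin.castSucc i) j'))| := fun hlt => hcon ⟨x, hx, Fin.castSucc i, hlt⟩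
        rw [not_lt, hμ (Fin.castSucc i), abs_mul] at h1
        have h2 := le_of_mul_le_mul_right h1 hDpos
        simpa only [wqDir, Fin.snoc_castSucc] using h2
    refine ⟨Fin.snoc (α := fun _ => Fin n → ℝ) c x, Fin.snoc (α := fun _ => Fin (n + 1)) col j, ?_, ⟨Fin.castSucc j₀, ?_⟩, ?_⟩
    · intro i
      refine Fin.lastCases ?_ (fun a => ?_) i
      · rw [Fin.snoc_last]; exact hx
      · rw [Fin.snoc_castSucc]; exact hc a
    · rw [Fin.snoc_castSucc]; exact hj₀
    · have e : ∀ i : Fin (k + 1 + 1), wqDir ((Fin.snoc (α := fun _ => Fin n → ℝ) c x) i)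
          = (Fin.snoc (α := fun _ => Fin (n + 1) → ℝ) (fun a => wqDir (c a)) (wqDir x)) i := by
        intro i
        refine Fin.lastCases ?_ (fun a => ?_) i
        · rw [Fin.snoc_last, Fin.snoc_last]
        · rw [Fin.snoc_castSucc, Fin.snoc_castSucc]
      simp only [e]
      calc h ^ (k + 1) = h * h ^ k := pow_succ' h k
        _ ≤ h * |Matrix.det (Matrix.of fun i j : Fin (k + 1) => wqDir (c i) (col j))| := mul_le_mul_of_nonneg_left hdet hh.le
        _ ≤ _ := hxj.le

/-- **LEAF L-257-WT-COL (`n` distinct columns out of `n+1` = all but one, up to a permutation).**   `col` is injective (`Matrix.det_zero_of_column_eq`).   Some `l ∉ range col` (cardinality: `Fintype.card_le_of_surjective` / `Finset.exists_mem_notMem_of_card_lt_card`).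
`col j = l.succAbove (σ j)` (`Fin.exists_succAbove_eq`), `σ` injective, hence a permutation (`Equiv.ofBijective`, `Finite.injective_iff_bijective`);  `Matrix.det_permute'` (or `Matrix.det_submatrix_equiv_self` does NOT apply: only the columns move), `|sign| = 1` (`Int.units_eq_one_or`). -/
theorem wt_col {n : ℕ} (A : Fin n → Fin (n + 1) → ℝ) (col : Fin n → Fin (n + 1))
    (hdet : Matrix.det (Matrix.of fun i j : Fin n => A i (col j)) ≠ 0) :
    ∃ l : Fin (n + 1), |Matrix.det (Matrix.of fun i k : Fin n => A i (l.succAbove k))|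
      = |Matrix.det (Matrix.of fun i j : Fin n => A i (col j))| := by
  have hinj : Function.Injective col := by
    intro j j' e
    by_contra hne
    exact hdet (Matrix.det_zero_of_column_eq hne fun i => by simp only [Matrix.of_apply, e])
  obtain ⟨l, hl⟩ : ∃ l, ∀ j, col j ≠ l := by
    by_contra hcon
    have hs : Function.Surjective col := by
      intro l
      by_contra hl
      exact hcon ⟨l, fun j e => hl ⟨j, e⟩⟩
    have := Fintype.card_le_of_surjective col hs
    simp at this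
  choose σ hσ using fun j => Fin.exists_succAbove_eq (hl j)
  have hσi : Function.Injective σ := by
    intro j j' e
    apply hinj
    rw [← hσ j, ← hσ j', e]
  have hσb : Function.Bijective σ := Finite.injective_iff_bijective.1 hσi
  refine ⟨l, ?_⟩
  have e : (Matrix.of fun i j : Fin n => A i (col j))
      = (Matrix.of fun i k : Fin n => A i (l.succAbove k)).submatrix id (Equiv.ofBijective σ hσb) := by
    ext i j
    simp only [Matrix.of_apply, Matrix.submatrix_apply, id, Equiv.ofBijective_apply, hσ]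
  rw [e, Matrix.det_permute', abs_mul]
  have : |((Equiv.Perm.sign (Equiv.ofBijective σ hσb) : ℤ) : ℝ)| = 1 := by
    rcases Int.units_eq_one_or (Equiv.Perm.sign (Equiv.ofBijective σ hσb)) with h | h <;> rw [h] <;> simp
  rw [this, one_mul]

/-- **THE ROBUST TUPLE.** -/
theorem wt_tuple {n : ℕ} (hn : 1 ≤ n) (cs : Set (Fin n → ℝ)) (h : ℝ) (hh : 0 < h) (hN : ¬ NarrowA cs h) :
    ∃ c : Fin n → Fin n → ℝ, (∀ i, c i ∈ cs) ∧
      ∃ l : Fin (n + 1), h ^ (n - 1) ≤ |Matrix.det (Matrix.of fun i k : Fin n => wqDir (c i) (l.succAbove k))| := by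
  obtain ⟨k, rfl⟩ : ∃ k, n = k + 1 := ⟨n - 1, by omega⟩
  obtain ⟨c, col, hc, -, hdet⟩ := wt_minor cs h hh hN k le_rfl
  have hpos : 0 < h ^ k := pow_pos hh k
  obtain ⟨l, hl⟩ := wt_col (fun i => wqDir (c i)) col (fun h0 => by rw [h0, abs_zero] at hdet; linarith)
  exact ⟨c, hc, l, by rw [hl]; simpa using hdet⟩

/-- the grid of mesh `δ'` in the box `|u i| ≤ U₀` -/
noncomputable def wtGrid (n : ℕ) (U₀ δ' : ℝ) : Finset (Fin n → ℝ) :=
  (Fintype.piFinset fun _ : Fin n => Finset.Icc (-⌈U₀ / δ'⌉) ⌈U₀ / δ'⌉).image fun g i => δ' * (g i : ℝ)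

/-- **LEAF L-257-WT-GRID.**   (1) `Finset.card_image_le`, `Fintype.card_piFinset`, `Int.card_Icc`, `Int.ceil_lt_add_one`.   (2) `g i = round (u i / δ')` (`abs_sub_round`; `|round| ≤ ⌈U₀/δ'⌉`: `round_le`/`Int.floor`, or use `⌊u i/δ'⌋` and `|u i - δ' ⌊u i/δ'⌋| ≤ δ'`, with `-⌈U₀/δ'⌉ ≤ ⌊u i/δ'⌋ ≤ ⌈U₀/δ'⌉`).
(3) `|g i| ≤ ⌈U₀/δ'⌉ < U₀/δ' + 1`. -/
theorem wtGrid_spec (n : ℕ) (U₀ δ' : ℝ) (hU : 0 ≤ U₀) (hδ : 0 < δ') :
    ((wtGrid n U₀ δ').card : ℝ) ≤ (2 * U₀ / δ' + 3) ^ n ∧
    (∀ u : Fin n → ℝ, (∀ i, |u i| ≤ U₀) → ∃ z ∈ wtGrid n U₀ δ', ∀ i, |u i - z i| ≤ δ') ∧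
    ∀ z ∈ wtGrid n U₀ δ', ∀ i, |z i| ≤ U₀ + δ' := by
  have hq : 0 ≤ U₀ / δ' := div_nonneg hU hδ.le
  have hc0 : (0 : ℤ) ≤ ⌈U₀ / δ'⌉ := Int.ceil_nonneg hq
  have hc1 : ((⌈U₀ / δ'⌉ : ℤ) : ℝ) < U₀ / δ' + 1 := Int.ceil_lt_add_one _
  have hc2 : U₀ / δ' ≤ ((⌈U₀ / δ'⌉ : ℤ) : ℝ) := Int.le_ceil _
  unfold wtGrid
  generalize ⌈U₀ / δ'⌉ = C at *
  have hC0 : (0 : ℝ) ≤ (C : ℝ) := by exact_mod_cast hc0
  refine ⟨?_, ?_, ?_⟩
  · have h1 : ((Fintype.piFinset fun _ : Fin n => Finset.Icc (-C) C).image fun g (i : Fin n) => δ' * (g i : ℝ)).card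
        ≤ (2 * C + 1).toNat ^ n := by
      refine Finset.card_image_le.trans (le_of_eq ?_)
      rw [Fintype.card_piFinset]
      simp only [Int.card_Icc, Finset.prod_const, Finset.card_univ, Fintype.card_fin]
      congr 2
      ring
    have h2 : (((2 * C + 1).toNat : ℕ) : ℝ) = 2 * (C : ℝ) + 1 := by
      have : (((2 * C + 1).toNat : ℕ) : ℤ) = 2 * C + 1 := Int.toNat_of_nonneg (by omega)
      have h3 : ((((2 * C + 1).toNat : ℕ) : ℤ) : ℝ) = ((2 * C + 1 : ℤ) : ℝ) := by rw [this]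
      push_cast at h3
      exact h3
    calc ((((Fintype.piFinset fun _ : Fin n => Finset.Icc (-C) C).image fun g (i : Fin n) => δ' * (g i : ℝ)).card : ℕ) : ℝ)
        ≤ (((2 * C + 1).toNat ^ n : ℕ) : ℝ) := by exact_mod_cast h1
      _ = (2 * (C : ℝ) + 1) ^ n := by rw [Nat.cast_pow, h2]
      _ ≤ (2 * U₀ / δ' + 3) ^ n := by
          refine pow_le_pow_left₀ (by linarith) ?_ n
          have : 2 * U₀ / δ' = 2 * (U₀ / δ') := by ring
          rw [this]
          linarith
  · intro u hu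
    refine ⟨fun i => δ' * ((⌊u i / δ'⌋ : ℤ) : ℝ), Finset.mem_image.2 ⟨fun i => ⌊u i / δ'⌋, ?_, rfl⟩, fun i => ?_⟩
    · refine Fintype.mem_piFinset.2 fun i => Finset.mem_Icc.2 ⟨?_, ?_⟩
      · refine Int.le_floor.2 ?_
        push_cast
        have h1 : -U₀ ≤ u i := (abs_le.1 (hu i)).1
        have h2 : -(U₀ / δ') ≤ u i / δ' := by
          rw [← neg_div]
          exact div_le_div_of_nonneg_right h1 hδ.le
        linarith
      · have h1 : u i ≤ U₀ := (abs_le.1 (hu i)).2
        have h2 : u i / δ' ≤ U₀ / δ' := div_le_div_of_nonneg_right h1 hδ.le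
        have h3 : ((⌊u i / δ'⌋ : ℤ) : ℝ) ≤ (C : ℝ) := (Int.floor_le _).trans (h2.trans hc2)
        exact_mod_cast h3
    · have h1 := Int.floor_le (u i / δ')
      have h2 := Int.lt_floor_add_one (u i / δ')
      have e : u i = δ' * (u i / δ') := by field_simp
      have h3 : u i - δ' * ((⌊u i / δ'⌋ : ℤ) : ℝ) = δ' * (u i / δ' - ((⌊u i / δ'⌋ : ℤ) : ℝ)) := by
        rw [mul_sub, ← e]
      rw [h3, abs_of_nonneg (mul_nonneg hδ.le (by linarith))]
      calc δ' * (u i / δ' - ((⌊u i / δ'⌋ : ℤ) : ℝ)) ≤ δ' * 1 := mul_le_mul_of_nonneg_left (by linarith) hδ.le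
        _ = δ' := mul_one _
  · intro z hz i
    obtain ⟨g, hg, rfl⟩ := Finset.mem_image.1 hz
    obtain ⟨g1, g2⟩ := Finset.mem_Icc.1 (Fintype.mem_piFinset.1 hg i)
    have g1' : -(C : ℝ) ≤ (g i : ℝ) := by exact_mod_cast g1
    have g2' : (g i : ℝ) ≤ (C : ℝ) := by exact_mod_cast g2
    show |δ' * (g i : ℝ)| ≤ U₀ + δ'
    rw [abs_mul, abs_of_pos hδ]
    have h1 : |(g i : ℝ)| ≤ (C : ℝ) := abs_le.2 ⟨g1', g2'⟩
    calc δ' * |(g i : ℝ)| ≤ δ' * (U₀ / δ' + 1) := mul_le_mul_of_nonneg_left (by linarith) hδ.le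
      _ = U₀ + δ' := by field_simp

open Classical in
/-- **LEAF L-257-WT-PIGEON.**   `∑_α [p α] w α ≤ ∑_{z ∈ G} ∑_α [p α ∧ R α z] w α` (exchange the sums; for `α` with `p α` one `z` contributes `w α`, the others `≥ 0`: `Finset.single_le_sum`).   If every `z ∈ G` had a sum `< W₁ / card G`, the total would be `< W₁`
(`G ≠ ∅`, because otherwise no `α` has `p α` and `W₁ ≤ 0`; `Finset.sum_lt_sum_of_nonempty`, `Finset.sum_const`). -/
theorem wt_pigeon {ι κ : Type*} [Fintype ι] (G : Finset κ) (w : ι → ℝ) (hw : ∀ α, 0 ≤ w α) (p : ι → Prop) (R : ι → κ → Prop)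
    (hcov : ∀ α, p α → ∃ z ∈ G, R α z) (W₁ : ℝ) (hW0 : 0 < W₁) (hW : W₁ ≤ ∑ α, if p α then w α else 0) :
    ∃ z ∈ G, W₁ / G.card ≤ ∑ α, if p α ∧ R α z then w α else 0 := by
  by_contra hcon
  simp only [not_exists, not_and, not_le] at hcon
  have hne : G.Nonempty := by
    by_contra hG
    rw [Finset.not_nonempty_iff_eq_empty] at hG
    have h0 : ∑ α, (if p α then w α else 0) = 0 := Finset.sum_eq_zero fun α _ => by
      rw [if_neg]
      intro hp
      obtain ⟨z, hz, -⟩ := hcov α hp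
      rw [hG] at hz
      exact absurd hz (Finset.notMem_empty z)
    linarith
  have h1 : ∑ z ∈ G, ∑ α, (if p α ∧ R α z then w α else 0) < ∑ _z ∈ G, W₁ / G.card :=
    Finset.sum_lt_sum_of_nonempty hne hcon
  have hcard : (G.card : ℝ) ≠ 0 := by
    have := Finset.card_pos.2 hne
    positivity
  have h2 : ∑ _z ∈ G, W₁ / G.card = W₁ := by
    rw [Finset.sum_const, nsmul_eq_mul]
    field_simp
  have h3 : ∑ α, (if p α then w α else 0) ≤ ∑ z ∈ G, ∑ α, (if p α ∧ R α z then w α else 0) := by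
    rw [Finset.sum_comm]
    refine Finset.sum_le_sum fun α _ => ?_
    have hnn : ∀ z ∈ G, 0 ≤ (if p α ∧ R α z then w α else 0) := fun z _ => by
      split_ifs
      exacts [hw α, le_rfl]
    by_cases hp : p α
    · obtain ⟨z, hz, hR⟩ := hcov α hp
      rw [if_pos hp]
      calc w α = (if p α ∧ R α z then w α else 0) := by rw [if_pos ⟨hp, hR⟩]
        _ ≤ _ := Finset.single_le_sum (f := fun z => if p α ∧ R α z then w α else 0) hnn hz
    · rw [if_neg hp]
      exact Finset.sum_nonneg hnn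
  linarith

end Claimed.Agent.R257
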