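import Claimed.Agent.R257.Wall.QX
import Claimed.Agent.R257.Wall.Tuple

/-!
# R257 / Wall / Shear : the Galilean shear `(x,t) ↦ (x + s t 𝟙, t)`      (WALL captain helper185)      CONTRACT
PAPER-FREE.  Every `sorry` is a leaf `L-257-WS-*`.  Statements are frozen (a FALSE statement: one line to helper185); auxiliary lemmas (prefix `ws_`) directly above your theorem; edit only your block.

WHY.  `wg_main` needs that every direction has, for every axis `j`, a coordinate `k ≠ j` of size `≥ 1/K`.   The directions `(u, 1)` with small velocity `u` violate this for `j` = time axis.   After the shear with `s = U₀ + 1` all velocities have coordinates in `[1, 2 U₀ + 1]`.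
Everything (measure, set, lines, frames, quadratic exclusion) is transported ONCE, before the wall is constructed; only the plates are transported back.
-/

set_option autoImplicit false
open MeasureTheory Set Metric
open scoped BigOperators ENNReal

namespace Claimed.Agent.R257

/-- the shear -/
def wsh {n : ℕ} (s : ℝ) (p : Fin (n + 1) → ℝ) : Fin (n + 1) → ℝ :=
  Fin.snoc (fun i : Fin n => p i.castSucc + s * p (Fin.last n)) (p (Fin.last n))

@[simp] theorem wsh_castSucc {n : ℕ} (s : ℝ) (p : Fin (n + 1) → ℝ) (i : Fin n) :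
    wsh s p i.castSucc = p i.castSucc + s * p (Fin.last n) := by
  simp [wsh]

@[simp] theorem wsh_last {n : ℕ} (s : ℝ) (p : Fin (n + 1) → ℝ) : wsh s p (Fin.last n) = p (Fin.last n) := by
  simp [wsh]

theorem wsh_neg_wsh {n : ℕ} (s : ℝ) (p : Fin (n + 1) → ℝ) : wsh (-s) (wsh s p) = p := by
  funext i
  refine Fin.lastCases ?_ (fun i => ?_) i <;> simp

theorem wsh_wsh_neg {n : ℕ} (s : ℝ) (p : Fin (n + 1) → ℝ) : wsh s (wsh (-s) p) = p := by
  funext i
  refine Fin.lastCases ?_ (fun i => ?_) i <;> simp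

theorem wsh_sub {n : ℕ} (s : ℝ) (p q : Fin (n + 1) → ℝ) : wsh s (p - q) = wsh s p - wsh s q := by
  funext i
  refine Fin.lastCases ?_ (fun i => ?_) i
  · simp
  · simp only [wsh_castSucc, Pi.sub_apply]; ring

theorem wsh_smul {n : ℕ} (s t : ℝ) (p : Fin (n + 1) → ℝ) : wsh s (t • p) = t • wsh s p := by
  funext i
  refine Fin.lastCases ?_ (fun i => ?_) i
  · simp
  · simp only [wsh_castSucc, Pi.smul_apply, smul_eq_mul]; ring

theorem wsh_wqDir {n : ℕ} (s : ℝ) (u : Fin n → ℝ) : wsh s (wqDir u) = wqDir (fun i => u i + s) := by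
  funext i
  refine Fin.lastCases ?_ (fun i => ?_) i <;> simp [wqDir]

theorem wsh_continuous {n : ℕ} (s : ℝ) : Continuous (wsh (n := n) s) := by
  refine continuous_pi fun i => ?_
  refine Fin.lastCases ?_ (fun i => ?_) i
  · simp only [wsh_last]; fun_prop
  · simp only [wsh_castSucc]; fun_prop

/-- the shear as a measurable equivalence -/
def wshE {n : ℕ} (s : ℝ) : (Fin (n + 1) → ℝ) ≃ᵐ (Fin (n + 1) → ℝ) where
  toFun := wsh s
  invFun := wsh (-s)
  left_inv := wsh_neg_wsh s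
  right_inv := wsh_wsh_neg s
  measurable_toFun := (wsh_continuous s).measurable
  measurable_invFun := (wsh_continuous (-s)).measurable

@[simp] theorem wshE_apply {n : ℕ} (s : ℝ) (p : Fin (n + 1) → ℝ) : wshE s p = wsh s p := rfl

theorem wsh_norm_le {n : ℕ} (s : ℝ) (p : Fin (n + 1) → ℝ) : ‖wsh s p‖ ≤ (1 + |s|) * ‖p‖ := by
  refine (pi_norm_le_iff_of_nonneg (by positivity)).2 fun i => ?_
  have hl := norm_le_pi_norm p (Fin.last n)
  refine Fin.lastCases ?_ (fun i => ?_) i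
  · rw [wsh_last]
    nlinarith [abs_nonneg s, norm_nonneg p]
  · rw [wsh_castSucc]
    have hi := norm_le_pi_norm p i.castSucc
    calc ‖p i.castSucc + s * p (Fin.last n)‖ ≤ ‖p i.castSucc‖ + ‖s * p (Fin.last n)‖ := norm_add_le _ _
      _ = ‖p i.castSucc‖ + |s| * ‖p (Fin.last n)‖ := by rw [norm_mul, Real.norm_eq_abs s]
      _ ≤ ‖p‖ + |s| * ‖p‖ := add_le_add hi (mul_le_mul_of_nonneg_left hl (abs_nonneg s))
      _ = (1 + |s|) * ‖p‖ := by ring

/-- tubes -/
theorem ws_tube {n : ℕ} (s σ r : ℝ) (hσ : σ ≠ 0) (a v y : Fin (n + 1) → ℝ) (h : y ∈ MK.tube a v r) :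
    wsh s y ∈ MK.tube (wsh s a) (σ • wsh s v) ((1 + |s|) * r) := by
  obtain ⟨t, ht⟩ := h
  refine ⟨t / σ, ?_⟩
  have : wsh s y - wsh s a - (t / σ) • σ • wsh s v = wsh s (y - a - t • v) := by
    rw [wsh_sub, wsh_sub, wsh_smul, smul_smul, div_mul_cancel₀ _ hσ]
  rw [this]
  exact (wsh_norm_le s _).trans (mul_le_mul_of_nonneg_left ht (by positivity))

/-- balls -/
theorem ws_ball {n : ℕ} (s : ℝ) (ν : Measure (Fin (n + 1) → ℝ)) (z : Fin (n + 1) → ℝ) (r : ℝ) :
    (ν.map (wshE s)) (closedBall z r) ≤ ν (closedBall (wsh (-s) z) ((1 + |s|) * r)) := by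
  rw [MeasurableEquiv.map_apply]
  refine measure_mono fun p hp => ?_
  rw [mem_preimage, mem_closedBall, dist_eq_norm] at hp
  rw [mem_closedBall, dist_eq_norm]
  have : p - wsh (-s) z = wsh (-s) (wshE s p - z) := by
    rw [wsh_sub, wshE_apply, wsh_neg_wsh]
  rw [this]
  refine (wsh_norm_le (-s) _).trans ?_
  rw [abs_neg]
  exact mul_le_mul_of_nonneg_left hp (by positivity)

/-- the mass of the image -/
theorem ws_image {n : ℕ} (s : ℝ) (ν : Measure (Fin (n + 1) → ℝ)) (Y : Set (Fin (n + 1) → ℝ)) :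
    (ν.map (wshE s)) (wsh s '' Y) = ν Y := by
  rw [MeasurableEquiv.map_apply]
  congr 1
  ext p
  constructor
  · rintro ⟨q, hq, hqp⟩
    have : q = p := by
      have := congrArg (wsh (-s)) hqp
      rwa [wshE_apply, wsh_neg_wsh, wsh_neg_wsh] at this
    exact this ▸ hq
  · intro hp
    exact ⟨p, hp, rfl⟩

/-- transposed shear -/
def ws_tr {n : ℕ} (s : ℝ) (π : Fin (n + 1) → ℝ) : Fin (n + 1) → ℝ :=
  Fin.snoc (fun i : Fin n => π i.castSucc) (π (Fin.last n) + s * ∑ i : Fin n, π i.castSucc)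

theorem ws_tr_dot {n : ℕ} (s : ℝ) (π y : Fin (n + 1) → ℝ) :
    ∑ i, π i * wsh s y i = ∑ i, ws_tr s π i * y i := by
  rw [Fin.sum_univ_castSucc, Fin.sum_univ_castSucc]
  simp only [wsh_castSucc, wsh_last, ws_tr, Fin.snoc_castSucc, Fin.snoc_last]
  simp only [mul_add, Finset.sum_add_distrib, add_mul]
  rw [Finset.mul_sum, Finset.sum_mul]
  have : ∀ i : Fin n, π i.castSucc * (s * y (Fin.last n)) = s * π i.castSucc * y (Fin.last n) := fun i => by ring
  rw [Finset.sum_congr rfl (fun i _ => this i)]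
  ring

theorem ws_tr_norm {n : ℕ} (s : ℝ) (hs : 0 ≤ s) (π : Fin (n + 1) → ℝ) :
    ‖π‖ ≤ (1 + n * s) * ‖ws_tr s π‖ := by
  have hL := norm_nonneg (ws_tr s π)
  have hc : ∀ i : Fin n, |π i.castSucc| ≤ ‖ws_tr s π‖ := by
    intro i
    have := norm_le_pi_norm (ws_tr s π) i.castSucc
    simpa [ws_tr] using this
  have hl : |π (Fin.last n) + s * ∑ i : Fin n, π i.castSucc| ≤ ‖ws_tr s π‖ := by
    have := norm_le_pi_norm (ws_tr s π) (Fin.last n)
    simpa [ws_tr] using this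
  have hsum : |∑ i : Fin n, π i.castSucc| ≤ n * ‖ws_tr s π‖ := by
    calc |∑ i : Fin n, π i.castSucc| ≤ ∑ i : Fin n, |π i.castSucc| := Finset.abs_sum_le_sum_abs _ _
      _ ≤ ∑ _i : Fin n, ‖ws_tr s π‖ := Finset.sum_le_sum fun i _ => hc i
      _ = n * ‖ws_tr s π‖ := by simp
  have hns : (0:ℝ) ≤ n * s := by positivity
  refine (pi_norm_le_iff_of_nonneg (by positivity)).2 fun i => ?_
  refine Fin.lastCases ?_ (fun i => ?_) i
  · rw [Real.norm_eq_abs]
    have h1 : π (Fin.last n) = (π (Fin.last n) + s * ∑ i : Fin n, π i.castSucc) - s * ∑ i : Fin n, π i.castSucc := by ring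
    have h2 : |s * ∑ i : Fin n, π i.castSucc| ≤ s * (n * ‖ws_tr s π‖) := by
      rw [abs_mul, abs_of_nonneg hs]
      exact mul_le_mul_of_nonneg_left hsum hs
    calc |π (Fin.last n)| = |(π (Fin.last n) + s * ∑ i : Fin n, π i.castSucc) - s * ∑ i : Fin n, π i.castSucc| := by rw [← h1]
      _ ≤ |π (Fin.last n) + s * ∑ i : Fin n, π i.castSucc| + |s * ∑ i : Fin n, π i.castSucc| := abs_sub _ _
      _ ≤ ‖ws_tr s π‖ + s * (n * ‖ws_tr s π‖) := add_le_add hl h2
      _ = (1 + n * s) * ‖ws_tr s π‖ := by ring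
  · rw [Real.norm_eq_abs]
    refine (hc i).trans ?_
    nlinarith

/-- **LEAF L-257-WS-PLATES (plates are transported back).**   For `π ∈ Pl`: `π·(wsh s y) = (Tᵀ π)·y`, `(Tᵀ π) i.castSucc = π i.castSucc`, `(Tᵀ π) last = π last + s ∑ i, π i.castSucc` (`Fin.sum_univ_castSucc`).
`λ = ‖Tᵀ π‖ ≥ 1/(1 + n s)`: if all `|π i.castSucc| < 1/(1+ns)` then `|π last| = ‖π‖ ≥ 1` (the sup norm is attained: `pi_norm_le_iff_of_nonneg` by contradiction) and `|π last + s ∑ ..| ≥ 1 - n s/(1+ns)`.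
New plates `(λ⁻¹ • Tᵀ π, π.2/λ)` (`Finset.image`, `Finset.card_image_le`; norm `= 1`), `Z' = wsh s ⁻¹' Z` (`MeasurableEquiv.map_apply`, `ws_image`); `|π'·y - c'| = |π·(wsh s y) - c|/λ ≤ (1 + n s) Kc`. -/
theorem ws_plates {n : ℕ} (s : ℝ) (hs : 0 ≤ s) (ν : Measure (Fin (n + 1) → ℝ)) (Y : Set (Fin (n + 1) → ℝ)) (Kc : ℝ) (hKc : 0 ≤ Kc)
    (h : WcPlates (ν.map (wshE s)) (wsh s '' Y) Kc) : WcPlates ν Y ((1 + n * s) * Kc) := by
  classical
  obtain ⟨Pl, hcard, hnorm, Z, hZ, hcov⟩ := h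
  have hns : (0:ℝ) ≤ n * s := by positivity
  have hΛ : (1:ℝ) ≤ 1 + n * s := by linarith
  refine ⟨Pl.image (fun π => ((1 + n * s) • ws_tr s π.1, (1 + n * s) * π.2)), ?_, ?_, wsh s ⁻¹' Z, ?_, ?_⟩
  · calc ((Pl.image _).card : ℝ) ≤ (Pl.card : ℝ) := by exact_mod_cast Finset.card_image_le
      _ ≤ Kc := hcard
      _ ≤ (1 + n * s) * Kc := by nlinarith
  · intro π' hπ'
    obtain ⟨π, hπ, rfl⟩ := Finset.mem_image.1 hπ'
    show 1 ≤ ‖(1 + (n:ℝ) * s) • ws_tr s π.1‖
    rw [norm_smul, Real.norm_eq_abs, abs_of_nonneg (by linarith)]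
    exact (hnorm π hπ).trans (ws_tr_norm s hs π.1)
  · rw [ws_image, MeasurableEquiv.map_apply] at hZ
    exact hZ
  · intro y hy hyZ
    obtain ⟨π, hπ, hb⟩ := hcov (wsh s y) ⟨y, hy, rfl⟩ hyZ
    refine ⟨_, Finset.mem_image.2 ⟨π, hπ, rfl⟩, ?_⟩
    show |∑ i, ((1 + (n:ℝ) * s) • ws_tr s π.1) i * y i - (1 + n * s) * π.2| ≤ _
    have : ∑ i, ((1 + (n:ℝ) * s) • ws_tr s π.1) i * y i - (1 + n * s) * π.2
        = (1 + n * s) * (∑ i, π.1 i * wsh s y i - π.2) := by
      rw [ws_tr_dot, mul_sub, Finset.mul_sum]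
      congr 1
      refine Finset.sum_congr rfl fun i _ => ?_
      simp only [Pi.smul_apply, smul_eq_mul]; ring
    rw [this, abs_mul, abs_of_nonneg (by linarith)]
    exact mul_le_mul_of_nonneg_left hb (by linarith)

/-- the matrix of the shear -/
def wshM {n : ℕ} (s : ℝ) : Matrix (Fin (n + 1)) (Fin (n + 1)) ℝ :=
  Matrix.of fun i j => if i = j then 1 else if j = Fin.last n then s else 0

theorem ws_mulVec {n : ℕ} (s : ℝ) (p : Fin (n + 1) → ℝ) : (wshM s).mulVec p = wsh s p := by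
  funext i
  refine Fin.lastCases ?_ (fun i => ?_) i
  · rw [wsh_last]
    simp only [Matrix.mulVec, dotProduct, wshM, Matrix.of_apply]
    rw [Fin.sum_univ_castSucc]
    have : ∀ j : Fin n, (if Fin.last n = j.castSucc then (1:ℝ) else if j.castSucc = Fin.last n then s else 0) * p j.castSucc = 0 := by
      intro j
      have h1 : Fin.last n ≠ j.castSucc := (Fin.castSucc_lt_last j).ne'
      rw [if_neg h1, if_neg h1.symm, zero_mul]
    rw [Finset.sum_eq_zero (fun j _ => this j)]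
    simp
  · rw [wsh_castSucc]
    simp only [Matrix.mulVec, dotProduct, wshM, Matrix.of_apply]
    rw [Fin.sum_univ_castSucc]
    have h1 : i.castSucc ≠ Fin.last n := (Fin.castSucc_lt_last i).ne
    rw [if_neg h1, if_pos rfl]
    have : ∀ j : Fin n, (if i.castSucc = j.castSucc then (1:ℝ) else if j.castSucc = Fin.last n then s else 0) * p j.castSucc
        = if i = j then p j.castSucc else 0 := by
      intro j
      have h2 : j.castSucc ≠ Fin.last n := (Fin.castSucc_lt_last j).ne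
      by_cases hij : i = j
      · subst hij; simp
      · have : i.castSucc ≠ j.castSucc := fun h => hij (Fin.castSucc_injective _ h)
        rw [if_neg this, if_neg h2, if_neg hij, zero_mul]
    rw [Finset.sum_congr rfl (fun j _ => this j), Finset.sum_ite_eq]
    simp

/-- **LEAF L-257-WS-MATRIX.**   (1) `funext i`, `Fin.lastCases`, `Matrix.mulVec`, `dotProduct`, `Fin.sum_univ_castSucc`, `Finset.sum_ite_eq`.   (2) by (1): `Matrix.toLin'`-free proof: two matrices with the same `mulVec` are equal (`Matrix.mulVec_injective` / `Matrix.ext_of_mulVec_single`),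
`(A * B).mulVec p = A.mulVec (B.mulVec p)` (`Matrix.mulVec_mulVec`), `wsh_wsh_neg`.   (3) `split_ifs`. -/
theorem wshM_spec {n : ℕ} (s : ℝ) :
    (∀ p : Fin (n + 1) → ℝ, (wshM s).mulVec p = wsh s p) ∧ wshM (n := n) s * wshM (-s) = 1 ∧
      ∀ i j : Fin (n + 1), |wshM s i j| ≤ 1 + |s| := by
  refine ⟨ws_mulVec s, ?_, ?_⟩
  · apply Matrix.mulVec_injective
    funext p
    rw [← Matrix.mulVec_mulVec, ws_mulVec, ws_mulVec, wsh_wsh_neg, Matrix.one_mulVec]
  · intro i j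
    have := abs_nonneg s
    simp only [wshM, Matrix.of_apply]
    split_ifs
    · rw [abs_one]; linarith
    · linarith
    · rw [abs_zero]; linarith

/-- **LEAF L-257-WS-QX: quadratic exclusion for the sheared, normalised directions.**   `wq_main`, then `wq_map` with `T = wshM s`, `T' = wshM (-s)`, `Θ = 1 + s` (`wshM_spec`), then rewrite the family of sets (`Set.image_image`, `wshM_spec.1`). -/
theorem ws_qx (n : ℕ) (hn : 1 ≤ n) (U₀ : ℝ) (hU : 0 ≤ U₀) (s σ : ℝ) (hs : 0 ≤ s) (hσ : 0 < σ) (hσ1 : σ ≤ 1)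
    (δ τ : ℝ) (hδ : 0 < δ) (hδ1 : δ ≤ 1) (hτ : 0 < τ) (hτ1 : τ ≤ 1)
    {β : Type} (hv : Set β) (cen : β → Fin n → ℝ) (V : β → Set (Fin n → ℝ))
    (hV : ∀ b ∈ hv, ∀ u ∈ V b, ∀ i, |u i| ≤ U₀ ∧ |u i - cen b i| ≤ δ)
    (hH3 : ¬ NarrowB (cen '' hv) (2 * δ) τ (wqK0 n U₀) (wqB0 n U₀)) :
    WgQX (wqC n U₀ / (δ * τ) * (((n + 1 : ℕ) : ℝ) ^ 6 * (1 + s) ^ 5 / σ ^ 2))
      {S | ∃ b ∈ hv, S = (fun u => σ • wsh s (wqDir u)) '' V b} := by
  have h1 := wq_main n hn U₀ hU δ τ hδ hδ1 hτ hτ1 hv cen V hV hH3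
  have hK : 0 ≤ wqC n U₀ / (δ * τ) := by
    unfold wqC wqc
    positivity
  have hT : ∀ i j : Fin (n + 1), |wshM s i j| ≤ 1 + s := by
    intro i j
    have := (wshM_spec (n := n) s).2.2 i j
    rwa [abs_of_nonneg hs] at this
  have hT' : ∀ i j : Fin (n + 1), |wshM (-s) i j| ≤ 1 + s := by
    intro i j
    have := (wshM_spec (n := n) (-s)).2.2 i j
    rwa [abs_neg, abs_of_nonneg hs] at this
  have h2 := wq_map (wshM s) (wshM (-s)) (wshM_spec (n := n) s).2.1 (1 + s) (by linarith) hT hT' σ hσ hσ1 _ hK _ h1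
  have hset : {V' | ∃ V_1 ∈ {S | ∃ b ∈ hv, S = wqDir '' V b}, V' = (fun v => σ • (wshM s).mulVec v) '' V_1}
      = {S | ∃ b ∈ hv, S = (fun u => σ • wsh s (wqDir u)) '' V b} := by
    ext S
    constructor
    · rintro ⟨W, ⟨b, hb, rfl⟩, rfl⟩
      refine ⟨b, hb, ?_⟩
      rw [Set.image_image]
      simp only [ws_mulVec]
    · rintro ⟨b, hb, rfl⟩
      refine ⟨_, ⟨b, hb, rfl⟩, ?_⟩
      rw [Set.image_image]
      simp only [ws_mulVec]
  rw [hset] at h2
  exact h2

end Claimed.Agent.R257
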